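import Vale.Agent.P365.T1a.Cost

/-!
# P365 T1: change of base point (far forms of a block with ONE base point `o`)

`Nfar A W f B o x = ∑_{z ∉ B} e_z |g^x_z|² (f_z - f_o)²` and the same with `K_xz`.
-/

set_option linter.all false

namespace P365T1

open P365L P365O Matrix Complex

variable {ι : Type*} [Fintype ι] [DecidableEq ι] {A : Matrix ι ι ℝ} {W : ι → ℂ}

/-- far part of the off-resonant energy of `x`, base value `fo` -/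
noncomputable def Nfar (A : Matrix ι ι ℝ) (W : ι → ℂ) (f : ι → ℝ) (B : Finset ι) (fo : ℝ)
    (x : ι) : ℝ :=
  ∑ z ∈ Bᶜ, (-(W z).im) * ‖gw A W x z‖ ^ 2 * (f z - fo) ^ 2

/-- far part of the energy density at `x`, base value `fo` -/
noncomputable def Mfar (A : Matrix ι ι ℝ) (W : ι → ℂ) (f : ι → ℝ) (B : Finset ι) (fo : ℝ)
    (x : ι) : ℝ :=
  ∑ z ∈ Bᶜ, (-(W z).im) * KK A W x z * (f z - fo) ^ 2

theorem Nfar_nonneg (hW : ∀ x, (W x).im < 0) (f : ι → ℝ) (B : Finset ι) (fo : ℝ) (x : ι) :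
    0 ≤ Nfar A W f B fo x :=
  Finset.sum_nonneg fun z _ =>
    mul_nonneg (mul_nonneg (by linarith [hW z]) (sq_nonneg _)) (sq_nonneg _)

theorem Mfar_nonneg (hW : ∀ x, (W x).im < 0) (f : ι → ℝ) (B : Finset ι) (fo : ℝ) (x : ι) :
    0 ≤ Mfar A W f B fo x :=
  Finset.sum_nonneg fun z _ =>
    mul_nonneg (mul_nonneg (by linarith [hW z]) (KK_nonneg _ _)) (sq_nonneg _)

theorem Mfar_eq (hA : A.IsSymm) (hW : ∀ x, (W x).im < 0) (f : ι → ℝ) (B : Finset ι) (fo : ℝ)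
    (x : ι) : Mfar A W f B fo x = Nfar A W f B fo x * ‖Gr A W x x‖ ^ 2 := by
  rw [Mfar, Nfar, Finset.sum_mul]
  refine Finset.sum_congr rfl fun z _ => ?_
  rw [KK_eq_gw hA hW]
  ring

/-- upper bound of the off-resonant energy by its far part -/
theorem Nf_le_far (hW : ∀ x, (W x).im < 0) {f : ι → ℝ} {B : Finset ι} {fo m : ℝ} {x : ι}
    (hx : |fo - f x| ≤ m) (hB : ∀ z ∈ B, |f z - f x| ≤ m) :
    Nf A W f x ≤ 2 * Nfar A W f B fo x + 2 * m ^ 2 * Sf A W x := by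
  have hm : 0 ≤ m := (abs_nonneg _).trans hx
  rw [Nf, Sf, ← Finset.sum_add_sum_compl B (fun a => (-(W a).im) * ‖gw A W x a‖ ^ 2 *
    (f a - f x) ^ 2), ← Finset.sum_add_sum_compl B (fun a => (-(W a).im) * ‖gw A W x a‖ ^ 2),
    Nfar]
  have h1 : ∑ a ∈ B, (-(W a).im) * ‖gw A W x a‖ ^ 2 * (f a - f x) ^ 2
      ≤ 2 * m ^ 2 * ∑ a ∈ B, (-(W a).im) * ‖gw A W x a‖ ^ 2 := by
    rw [Finset.mul_sum]
    refine Finset.sum_le_sum fun a ha => ?_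
    have h2 : (f a - f x) ^ 2 ≤ m ^ 2 := sq_le_sq' (abs_le.mp (hB a ha)).1 (abs_le.mp (hB a ha)).2
    have h3 : 0 ≤ (-(W a).im) * ‖gw A W x a‖ ^ 2 :=
      mul_nonneg (by linarith [hW a]) (sq_nonneg _)
    nlinarith [mul_nonneg h3 (sub_nonneg.mpr h2), mul_nonneg h3 (sq_nonneg m)]
  have h4 : ∑ a ∈ Bᶜ, (-(W a).im) * ‖gw A W x a‖ ^ 2 * (f a - f x) ^ 2
      ≤ 2 * ∑ a ∈ Bᶜ, (-(W a).im) * ‖gw A W x a‖ ^ 2 * (f a - fo) ^ 2
        + 2 * m ^ 2 * ∑ a ∈ Bᶜ, (-(W a).im) * ‖gw A W x a‖ ^ 2 := by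
    rw [Finset.mul_sum, Finset.mul_sum, ← Finset.sum_add_distrib]
    refine Finset.sum_le_sum fun a _ => ?_
    have h2 : (fo - f x) ^ 2 ≤ m ^ 2 := sq_le_sq' (abs_le.mp hx).1 (abs_le.mp hx).2
    have h5 : (f a - f x) ^ 2 ≤ 2 * (f a - fo) ^ 2 + 2 * m ^ 2 := by
      nlinarith [sq_nonneg ((f a - fo) - (fo - f x))]
    have h3 : 0 ≤ (-(W a).im) * ‖gw A W x a‖ ^ 2 :=
      mul_nonneg (by linarith [hW a]) (sq_nonneg _)
    nlinarith [mul_le_mul_of_nonneg_left h5 h3]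
  nlinarith

/-- `Sf / (1 + |sg|²) ≤ 1 + e_x` -/
theorem Sf_div_le (hA : A.IsSymm) (hW : ∀ x, (W x).im < 0) (x : ι) :
    Sf A W x / (1 + ‖sg A W x‖ ^ 2) ≤ 1 + (-(W x).im) := by
  have h1 := sg_im hA hW x
  have h2 : (sg A W x).im ≤ ‖sg A W x‖ := (le_abs_self _).trans (Complex.abs_im_le_norm _)
  have h3 : 0 < 1 + ‖sg A W x‖ ^ 2 := by positivity
  have he := hW x
  rw [div_le_iff₀ h3]
  nlinarith [sq_nonneg (‖sg A W x‖ - 1), mul_nonneg (by linarith : 0 ≤ -(W x).im)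
    (sq_nonneg ‖sg A W x‖)]

/-- **Y with the base point moved**: `Nf/(1+|sg|²) ≤ 2 Nfar/(1+|sg|²) + 2 m² (1+e_x)` -/
theorem Y_le_far (hA : A.IsSymm) (hW : ∀ x, (W x).im < 0) {f : ι → ℝ} {B : Finset ι} {fo m : ℝ}
    {x : ι} (hx : |fo - f x| ≤ m) (hB : ∀ z ∈ B, |f z - f x| ≤ m) :
    Nf A W f x / (1 + ‖sg A W x‖ ^ 2)
      ≤ 2 * (Nfar A W f B fo x / (1 + ‖sg A W x‖ ^ 2)) + 2 * m ^ 2 * (1 + (-(W x).im)) := by
  have h1 := Nf_le_far (A := A) hW hx hB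
  have h3 : 0 < 1 + ‖sg A W x‖ ^ 2 := by positivity
  have h4 := Sf_div_le hA hW x
  calc Nf A W f x / (1 + ‖sg A W x‖ ^ 2)
      ≤ (2 * Nfar A W f B fo x + 2 * m ^ 2 * Sf A W x) / (1 + ‖sg A W x‖ ^ 2) := by gcongr
    _ = 2 * (Nfar A W f B fo x / (1 + ‖sg A W x‖ ^ 2))
          + 2 * m ^ 2 * (Sf A W x / (1 + ‖sg A W x‖ ^ 2)) := by ring
    _ ≤ _ := by
        have : 0 ≤ 2 * m ^ 2 := by positivity
        nlinarith [mul_le_mul_of_nonneg_left h4 this]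

/-- lower bound of the far part by the off-resonant energy -/
theorem far_le_Nf (hW : ∀ x, (W x).im < 0) {f : ι → ℝ} {B : Finset ι} {fo m : ℝ} {x : ι}
    (hx : |fo - f x| ≤ m) :
    Nfar A W f B fo x ≤ 2 * Nf A W f x + 2 * m ^ 2 * Sf A W x := by
  rw [Nfar, Nf, Sf]
  calc ∑ z ∈ Bᶜ, (-(W z).im) * ‖gw A W x z‖ ^ 2 * (f z - fo) ^ 2
      ≤ ∑ z, (-(W z).im) * ‖gw A W x z‖ ^ 2 * (f z - fo) ^ 2 :=
        Finset.sum_le_sum_of_subset_of_nonneg (Finset.subset_univ _) fun z _ _ =>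
          mul_nonneg (mul_nonneg (by linarith [hW z]) (sq_nonneg _)) (sq_nonneg _)
    _ ≤ ∑ z, (2 * ((-(W z).im) * ‖gw A W x z‖ ^ 2 * (f z - f x) ^ 2)
          + 2 * m ^ 2 * ((-(W z).im) * ‖gw A W x z‖ ^ 2)) := by
        refine Finset.sum_le_sum fun z _ => ?_
        have h2 : (fo - f x) ^ 2 ≤ m ^ 2 := sq_le_sq' (abs_le.mp hx).1 (abs_le.mp hx).2
        have h5 : (f z - fo) ^ 2 ≤ 2 * (f z - f x) ^ 2 + 2 * m ^ 2 := by
          nlinarith [sq_nonneg ((f z - f x) + (fo - f x))]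
        have h3 : 0 ≤ (-(W z).im) * ‖gw A W x z‖ ^ 2 :=
          mul_nonneg (by linarith [hW z]) (sq_nonneg _)
        nlinarith [mul_le_mul_of_nonneg_left h5 h3]
    _ = _ := by rw [Finset.sum_add_distrib, ← Finset.mul_sum, ← Finset.mul_sum]

/-- the same for the energy densities: `Mfar ≤ 2 Mf + 2 m² m_x` -/
theorem Mfar_le (hA : A.IsSymm) (hW : ∀ x, (W x).im < 0) {f : ι → ℝ} {B : Finset ι} {fo m : ℝ}
    {x : ι} (hx : |fo - f x| ≤ m) :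
    Mfar A W f B fo x ≤ 2 * Mf A W f x + 2 * m ^ 2 * mm A W x := by
  rw [Mfar_eq hA hW, Mf_eq hA hW, mm_eq_Sf hA hW]
  have h1 := far_le_Nf (A := A) (B := B) hW hx
  have h2 : 0 ≤ ‖Gr A W x x‖ ^ 2 := sq_nonneg _
  nlinarith [mul_le_mul_of_nonneg_right h1 h2]

/-- `Mf ≤ 2 Mfar + 2 m² m_x` -/
theorem Mf_le_far (hA : A.IsSymm) (hW : ∀ x, (W x).im < 0) {f : ι → ℝ} {B : Finset ι} {fo m : ℝ}
    {x : ι} (hx : |fo - f x| ≤ m) (hB : ∀ z ∈ B, |f z - f x| ≤ m) :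
    Mf A W f x ≤ 2 * Mfar A W f B fo x + 2 * m ^ 2 * mm A W x := by
  rw [Mfar_eq hA hW, Mf_eq hA hW, mm_eq_Sf hA hW]
  have h1 := Nf_le_far (A := A) hW hx hB
  have h2 : 0 ≤ ‖Gr A W x x‖ ^ 2 := sq_nonneg _
  nlinarith [mul_le_mul_of_nonneg_right h1 h2]

end P365T1
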