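import Mathlib

/-!
# P365 T1, ISL (note 18390), step (6): one-variable comparison for the laws at the ports

`u = V - s`, `φ V = ‖A + u⁻¹ B‖²`.  `upper`: the mass of `‖u A + B‖² / |V - s'|²` near the pole `s'`
is at most `C K ∫ φ` over the region `|u| ≥ 2 K Im s'`.
-/

set_option linter.all false

namespace P365T1.Isl

open MeasureTheory Set
open scoped ENNReal

variable {F : Type*} [NormedAddCommGroup F] [NormedSpace ℂ F]

/-- laws at the ports: bounded density with bounded support; the supremum of the density over a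
short interval centred in the support is at most a constant times the mean; spread -/
structure PLaw (ν : Measure ℝ) (ρ : ℝ → ℝ) (L R κ η₀ δ m : ℝ) : Prop where
  hL : 0 < L
  hR : 0 < R
  hκ : 0 < κ
  hη : 0 < η₀
  hδ : 0 < δ
  hm : 0 < m
  dens : ν = volume.withDensity fun v => ENNReal.ofReal (ρ v)
  meas : Measurable ρ
  nonneg : ∀ v, 0 ≤ ρ v
  le : ∀ v, ρ v ≤ R
  supp : ∀ v, L < |v| → ρ v = 0
  sd : ∀ v v' η, 0 < ρ v → 0 < η → η ≤ η₀ → |v' - v| ≤ η →
    ENNReal.ofReal (κ * ρ v' * η) ≤ ν (Icc (v - η) (v + η))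
  spread : ∃ I₁ I₂ : Set ℝ, MeasurableSet I₁ ∧ MeasurableSet I₂ ∧
    ENNReal.ofReal m ≤ ν I₁ ∧ ENNReal.ofReal m ≤ ν I₂ ∧ (∀ u ∈ I₁, |u| ≤ L) ∧
    (∀ u ∈ I₂, |u| ≤ L) ∧ ∀ u₁ ∈ I₁, ∀ u₂ ∈ I₂, δ ≤ |u₁ - u₂|

theorem sub_ne {s : ℂ} (hs : 0 < s.im) (V : ℝ) : (V : ℂ) - s ≠ 0 := by
  intro h
  have := congrArg Complex.im h
  rw [Complex.sub_im, Complex.ofReal_im, Complex.zero_im] at this
  linarith

theorem im_le_norm_sub {s : ℂ} (hs : 0 < s.im) (V : ℝ) : s.im ≤ ‖(V : ℂ) - s‖ := by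
  have h := Complex.abs_im_le_norm ((V : ℂ) - s)
  rw [Complex.sub_im, Complex.ofReal_im, zero_sub, abs_neg] at h
  exact (le_abs_self _).trans h

theorem continuous_phi {s : ℂ} (hs : 0 < s.im) (A B : F) :
    Continuous fun V : ℝ => ‖A + ((V : ℂ) - s)⁻¹ • B‖ ^ 2 :=
  ((continuous_const.add (((Complex.continuous_ofReal.sub continuous_const).inv₀
    (sub_ne hs)).smul continuous_const)).norm).pow 2

/-- constant -/
noncomputable def Cp (κ : ℝ) : ℝ := 16 * (30 / κ + 5) ^ 4 / 15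

theorem Cp_pos {κ : ℝ} (hκ : 0 < κ) : 0 < Cp κ := by
  unfold Cp
  positivity

section

variable {ν : Measure ℝ} [IsFiniteMeasure ν] {ρ : ℝ → ℝ} {L R κ η₀ δ m : ℝ}

/-- **variance, pointwise form** -/
theorem pt (P : PLaw ν ρ L R κ η₀ δ m) {s : ℂ} (hs : 0 < s.im) (A B : F) {V₀ r : ℝ}
    (hρ : 0 < ρ V₀) (hr : 0 < r) (hMr : 30 / κ * r ≤ η₀) (hu : ‖(V₀ : ℂ) - s‖ ≤ 5 * r) :
    ENNReal.ofReal (ρ V₀ * ‖B‖ ^ 2) ≤ ENNReal.ofReal (Cp κ * r) *
      ∫⁻ V in {V : ℝ | 2 * r ≤ ‖(V : ℂ) - s‖ ∧ ‖(V : ℂ) - s‖ ≤ (30 / κ + 5) * r},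
        ENNReal.ofReal (‖A + ((V : ℂ) - s)⁻¹ • B‖ ^ 2) ∂ν := by
  have hκ := P.hκ
  set M : ℝ := 30 / κ with hM
  have hM0 : 0 < M := by positivity
  have hκM : κ * M = 30 := by rw [hM]; field_simp
  set d' : ℝ := 1 / (4 * (M + 5) ^ 2) with hd'
  have hd'0 : 0 < d' := by positivity
  set I : Set ℝ := Icc (V₀ - M * r) (V₀ + M * r) with hI
  set mI : ℝ := (ν I).toReal with hmI
  have hmIe : ENNReal.ofReal mI = ν I := ENNReal.ofReal_toReal (measure_ne_top ν I)
  have hmI0 : 0 ≤ mI := ENNReal.toReal_nonneg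
  have hMr0 : 0 < M * r := by positivity
  -- sup bound
  have hsup : ∀ v' ∈ I, ρ v' ≤ mI / (κ * (M * r)) := by
    intro v' hv'
    have h1 : |v' - V₀| ≤ M * r := by
      rw [abs_le]
      constructor <;> linarith [hv'.1, hv'.2]
    have h2 := P.sd V₀ v' (M * r) hρ hMr0 hMr h1
    rw [← hI, ← hmIe, ENNReal.ofReal_le_ofReal_iff hmI0] at h2
    rw [le_div_iff₀ (by positivity)]
    linarith
  -- small sets
  have hsmall : ∀ J : Set ℝ, MeasurableSet J → J ⊆ I → ∀ ℓ : ℝ, 0 ≤ ℓ →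
      volume J ≤ ENNReal.ofReal ℓ → ν J ≤ ENNReal.ofReal (mI / (κ * (M * r)) * ℓ) := by
    intro J hJ hJI ℓ hℓ hvol
    have h1 : ν J = ∫⁻ v in J, ENNReal.ofReal (ρ v) := by
      rw [P.dens, withDensity_apply _ hJ]
    rw [h1]
    calc ∫⁻ v in J, ENNReal.ofReal (ρ v)
        ≤ ∫⁻ v in J, ENNReal.ofReal (mI / (κ * (M * r))) :=
          setLIntegral_mono' hJ fun v hv => ENNReal.ofReal_le_ofReal (hsup v (hJI hv))
      _ = ENNReal.ofReal (mI / (κ * (M * r))) * volume J := by rw [setLIntegral_const]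
      _ ≤ ENNReal.ofReal (mI / (κ * (M * r))) * ENNReal.ofReal ℓ := by gcongr
      _ = _ := by rw [ENNReal.ofReal_mul (by positivity)]
  set f : ℝ → ℝ := fun V => ‖A + ((V : ℂ) - s)⁻¹ • B‖ with hf
  have hfc : Continuous f :=
    (continuous_const.add (((Complex.continuous_ofReal.sub continuous_const).inv₀
      (sub_ne hs)).smul continuous_const)).norm
  set J₁ : Set ℝ := I ∩ Ioo (V₀ - 7 * r) (V₀ + 7 * r) with hJ₁
  have hJ₁m : MeasurableSet J₁ := measurableSet_Icc.inter measurableSet_Ioo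
  set Bd : Set ℝ := (I \ J₁) ∩ {V | f V < d' * ‖B‖ / r} with hBd
  have hBdm : MeasurableSet Bd :=
    (measurableSet_Icc.diff hJ₁m).inter (measurableSet_lt hfc.measurable measurable_const)
  set Gd : Set ℝ := (I \ J₁) ∩ {V | d' * ‖B‖ / r ≤ f V} with hGd
  have hGdm : MeasurableSet Gd :=
    (measurableSet_Icc.diff hJ₁m).inter (measurableSet_le measurable_const hfc.measurable)
  have hdist : ∀ V ∈ I \ J₁, 7 * r ≤ |V - V₀| ∧ |V - V₀| ≤ M * r := by
    intro V hV
    constructor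
    · by_contra hlt
      push Not at hlt
      rw [abs_lt] at hlt
      exact hV.2 ⟨hV.1, by linarith [hlt.1], by linarith [hlt.2]⟩
    · rw [abs_le]
      constructor <;> linarith [hV.1.1, hV.1.2]
  have hVV : ∀ V : ℝ, (V : ℂ) - s = ((V - V₀ : ℝ) : ℂ) + ((V₀ : ℂ) - s) := by
    intro V
    push_cast
    ring
  have hulow : ∀ V ∈ I \ J₁, 2 * r ≤ ‖(V : ℂ) - s‖ := by
    intro V hV
    have h1 := (hdist V hV).1
    have h2 : ‖((V - V₀ : ℝ) : ℂ)‖ - ‖-((V₀ : ℂ) - s)‖ ≤ ‖((V - V₀ : ℝ) : ℂ) - -((V₀ : ℂ) - s)‖ :=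
      norm_sub_norm_le _ _
    rw [norm_neg, sub_neg_eq_add, ← hVV, Complex.norm_real, Real.norm_eq_abs] at h2
    linarith
  have hup : ∀ V ∈ I \ J₁, ‖(V : ℂ) - s‖ ≤ (M + 5) * r := by
    intro V hV
    have h1 := (hdist V hV).2
    have h2 := norm_add_le ((V - V₀ : ℝ) : ℂ) ((V₀ : ℂ) - s)
    rw [← hVV, Complex.norm_real, Real.norm_eq_abs] at h2
    linarith
  -- `Bd` is short
  have hBd1 : volume Bd ≤ ENNReal.ofReal r := by
    rcases Bd.eq_empty_or_nonempty with he | ⟨V₁, hV₁⟩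
    · rw [he, measure_empty]
      exact zero_le
    · have hsub : Bd ⊆ Icc (V₁ - r / 2) (V₁ + r / 2) := by
        intro V hV
        have h1 : f V < d' * ‖B‖ / r := hV.2
        have h2 : f V₁ < d' * ‖B‖ / r := hV₁.2
        have hB0 : 0 < ‖B‖ := by
          have h3 : 0 < d' * ‖B‖ / r := (norm_nonneg _).trans_lt h1
          by_contra hB
          have : ‖B‖ = 0 := le_antisymm (not_lt.1 hB) (norm_nonneg _)
          rw [this, mul_zero, zero_div] at h3
          exact lt_irrefl _ h3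
        have hne := sub_ne hs V
        have hne1 := sub_ne hs V₁
        have h3 : ‖(((V : ℂ) - s)⁻¹ - ((V₁ : ℂ) - s)⁻¹) • B‖ ≤ 2 * (d' * ‖B‖ / r) := by
          have h4 : (((V : ℂ) - s)⁻¹ - ((V₁ : ℂ) - s)⁻¹) • B =
              (A + ((V : ℂ) - s)⁻¹ • B) - (A + ((V₁ : ℂ) - s)⁻¹ • B) := by
            rw [sub_smul]
            abel
          rw [h4]
          refine (norm_sub_le _ _).trans ?_
          have : f V + f V₁ ≤ 2 * (d' * ‖B‖ / r) := by linarith
          exact this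
        have h5 : ((V : ℂ) - s)⁻¹ - ((V₁ : ℂ) - s)⁻¹ =
            ((V₁ - V : ℝ) : ℂ) / (((V : ℂ) - s) * ((V₁ : ℂ) - s)) := by
          push_cast
          field_simp
          ring
        rw [h5, norm_smul, norm_div, norm_mul, Complex.norm_real, Real.norm_eq_abs] at h3
        have h6 := hup V hV.1
        have h7 := hup V₁ hV₁.1
        have h8 : 0 < ‖(V : ℂ) - s‖ := norm_pos_iff.2 hne
        have h9 : 0 < ‖(V₁ : ℂ) - s‖ := norm_pos_iff.2 hne1
        have h10 : |V₁ - V| ≤ 2 * d' / r * (‖(V : ℂ) - s‖ * ‖(V₁ : ℂ) - s‖) := by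
          have h11 : |V₁ - V| / (‖(V : ℂ) - s‖ * ‖(V₁ : ℂ) - s‖) ≤ 2 * d' / r := by
            have h12 : |V₁ - V| / (‖(V : ℂ) - s‖ * ‖(V₁ : ℂ) - s‖) * ‖B‖ ≤ 2 * d' / r * ‖B‖ := by
              refine h3.trans (le_of_eq ?_)
              ring
            exact le_of_mul_le_mul_right h12 hB0
          rwa [div_le_iff₀ (by positivity)] at h11
        have h13 : ‖(V : ℂ) - s‖ * ‖(V₁ : ℂ) - s‖ ≤ ((M + 5) * r) * ((M + 5) * r) := by gcongr
        have h14 : 2 * d' / r * (‖(V : ℂ) - s‖ * ‖(V₁ : ℂ) - s‖) ≤ r / 2 := by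
          calc 2 * d' / r * (‖(V : ℂ) - s‖ * ‖(V₁ : ℂ) - s‖)
              ≤ 2 * d' / r * (((M + 5) * r) * ((M + 5) * r)) := by gcongr
            _ = r / 2 := by
              rw [hd']
              field_simp
              ring
        have h15 := h10.trans h14
        rw [abs_le] at h15
        constructor <;> linarith [h15.1, h15.2]
      calc volume Bd ≤ volume (Icc (V₁ - r / 2) (V₁ + r / 2)) := measure_mono hsub
        _ = ENNReal.ofReal r := by
          rw [Real.volume_Icc]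
          congr 1
          ring
  have hJ₁1 : volume J₁ ≤ ENNReal.ofReal (14 * r) := by
    calc volume J₁ ≤ volume (Ioo (V₀ - 7 * r) (V₀ + 7 * r)) := measure_mono inter_subset_right
      _ = ENNReal.ofReal (14 * r) := by
        rw [Real.volume_Ioo]
        congr 1
        ring
  have hνJ := hsmall J₁ hJ₁m inter_subset_left (14 * r) (by positivity) hJ₁1
  have hνB := hsmall Bd hBdm (fun V hV => hV.1.1) r hr.le hBd1
  have hcov : ν I ≤ ν J₁ + ν Bd + ν Gd := by
    have hsub : I ⊆ (J₁ ∪ Bd) ∪ Gd := by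
      intro V hV
      by_cases h1 : V ∈ J₁
      · exact Or.inl (Or.inl h1)
      · by_cases h2 : f V < d' * ‖B‖ / r
        · exact Or.inl (Or.inr ⟨⟨hV, h1⟩, h2⟩)
        · exact Or.inr ⟨⟨hV, h1⟩, not_lt.1 h2⟩
    exact (measure_mono hsub).trans ((measure_union_le _ _).trans
      (add_le_add (measure_union_le _ _) le_rfl))
  have hGdmass : ENNReal.ofReal (15 * ρ V₀ * r) ≤ ν Gd := by
    set g : ℝ := (ν Gd).toReal with hg
    have hge : ENNReal.ofReal g = ν Gd := ENNReal.ofReal_toReal (measure_ne_top ν Gd)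
    have hg0 : 0 ≤ g := ENNReal.toReal_nonneg
    have h1 : mI ≤ mI / (κ * (M * r)) * (14 * r) + mI / (κ * (M * r)) * r + g := by
      have h2 : ENNReal.ofReal mI ≤ ENNReal.ofReal
          (mI / (κ * (M * r)) * (14 * r) + mI / (κ * (M * r)) * r + g) := by
        rw [ENNReal.ofReal_add (by positivity) hg0, ENNReal.ofReal_add (by positivity)
          (by positivity), hmIe, hge]
        exact hcov.trans (add_le_add (add_le_add hνJ hνB) le_rfl)
      exact (ENNReal.ofReal_le_ofReal_iff (by positivity)).1 h2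
    have h3 : mI / (κ * (M * r)) * (14 * r) + mI / (κ * (M * r)) * r = mI / 2 := by
      have : κ * (M * r) = 30 * r := by rw [← mul_assoc, hκM]
      rw [this]
      field_simp
      ring
    have h4 : κ * ρ V₀ * (M * r) ≤ mI := by
      have h5 := hsup V₀ ⟨by linarith, by linarith⟩
      rw [le_div_iff₀ (by positivity)] at h5
      linarith
    have h6 : κ * ρ V₀ * (M * r) = 30 * ρ V₀ * r := by
      calc κ * ρ V₀ * (M * r) = (κ * M) * ρ V₀ * r := by ring
        _ = _ := by rw [hκM]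
    rw [← hge]
    refine ENNReal.ofReal_le_ofReal ?_
    linarith
  -- conclusion
  have hsubG : Gd ⊆ {V : ℝ | 2 * r ≤ ‖(V : ℂ) - s‖ ∧ ‖(V : ℂ) - s‖ ≤ (M + 5) * r} :=
    fun V hV => ⟨hulow V hV.1, hup V hV.1⟩
  calc ENNReal.ofReal (ρ V₀ * ‖B‖ ^ 2)
      = ENNReal.ofReal (Cp κ * r) * (ENNReal.ofReal ((d' * ‖B‖ / r) ^ 2) *
          ENNReal.ofReal (15 * ρ V₀ * r)) := by
        have := (Cp_pos hκ).le
        rw [← ENNReal.ofReal_mul (by positivity), ← ENNReal.ofReal_mul (by positivity)]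
        congr 1
        rw [Cp, ← hM, hd']
        field_simp
        ring
    _ ≤ ENNReal.ofReal (Cp κ * r) * (ENNReal.ofReal ((d' * ‖B‖ / r) ^ 2) * ν Gd) := by
        gcongr
    _ = ENNReal.ofReal (Cp κ * r) * ∫⁻ V in Gd, ENNReal.ofReal ((d' * ‖B‖ / r) ^ 2) ∂ν := by
        rw [setLIntegral_const]
    _ ≤ ENNReal.ofReal (Cp κ * r) * ∫⁻ V in Gd, ENNReal.ofReal (f V ^ 2) ∂ν := by
        gcongr ENNReal.ofReal (Cp κ * r) * ?_
        refine setLIntegral_mono' hGdm fun V hV => ENNReal.ofReal_le_ofReal ?_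
        exact pow_le_pow_left₀ (by positivity) hV.2 2
    _ ≤ _ := by
        gcongr ENNReal.ofReal (Cp κ * r) * ?_
        exact lintegral_mono_set hsubG

/-- **the resonant part** near the pole `s'` -/
theorem upperB (P : PLaw ν ρ L R κ η₀ δ m) {s s' : ℂ} (hs : 0 < s.im) (hs' : 0 < s'.im)
    {K ε : ℝ} (hK : 1 ≤ K) (hKε : 30 / κ * (K * ε) ≤ η₀)
    (h5 : ∀ V : ℝ, ‖(V : ℂ) - s‖ ≤ 5 * (K * ‖(V : ℂ) - s'‖)) (A B : F) :
    ∫⁻ V in {V : ℝ | ‖(V : ℂ) - s'‖ ≤ ε}, ENNReal.ofReal (‖B‖ ^ 2 / ‖(V : ℂ) - s'‖ ^ 2) ∂ν ≤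
      ENNReal.ofReal (Cp κ * (30 / κ + 5) * K) *
        ∫⁻ V in {V : ℝ | 2 * K * s'.im ≤ ‖(V : ℂ) - s‖},
          ENNReal.ofReal (‖A + ((V : ℂ) - s)⁻¹ • B‖ ^ 2) ∂ν := by
  have hκ := P.hκ
  have hCp := Cp_pos hκ
  set M : ℝ := 30 / κ with hM
  have hM0 : 0 < M := by positivity
  have hK0 : 0 < K := by linarith
  set d : ℝ → ℝ := fun V => ‖(V : ℂ) - s'‖ with hd
  set q : ℝ → ℝ := fun V => ‖(V : ℂ) - s‖ with hq
  set φ : ℝ → ℝ≥0∞ := fun V => ENNReal.ofReal (‖A + ((V : ℂ) - s)⁻¹ • B‖ ^ 2) with hφ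
  have hdc : Continuous d := (Complex.continuous_ofReal.sub continuous_const).norm
  have hqc : Continuous q := (Complex.continuous_ofReal.sub continuous_const).norm
  have hφm : Measurable φ := (continuous_phi hs A B).measurable.ennreal_ofReal
  have hd0 : ∀ V, 0 < d V := fun V => norm_pos_iff.2 (sub_ne hs' V)
  have hq0 : ∀ V, 0 < q V := fun V => norm_pos_iff.2 (sub_ne hs V)
  have hdim : ∀ V, s'.im ≤ d V := im_le_norm_sub hs'
  set Z : Set ℝ := {V : ℝ | d V ≤ ε} with hZ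
  have hZm : MeasurableSet Z := measurableSet_le hdc.measurable measurable_const
  set G : ℝ → ℝ → ℝ≥0∞ := fun V₀ V =>
    if 2 * (K * d V₀) ≤ q V ∧ q V ≤ (M + 5) * (K * d V₀) then
      ENNReal.ofReal (Cp κ * K / d V₀) * φ V else 0 with hG
  have hGm : Measurable (Function.uncurry G) := by
    have hd1 : Measurable fun p : ℝ × ℝ => d p.1 := hdc.measurable.comp measurable_fst
    have hq2 : Measurable fun p : ℝ × ℝ => q p.2 := hqc.measurable.comp measurable_snd
    have hset : MeasurableSet {p : ℝ × ℝ | 2 * (K * d p.1) ≤ q p.2 ∧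
        q p.2 ≤ (M + 5) * (K * d p.1)} :=
      (measurableSet_le ((hd1.const_mul K).const_mul 2) hq2).inter
        (measurableSet_le hq2 ((hd1.const_mul K).const_mul (M + 5)))
    exact Measurable.ite hset ((((measurable_const.div hd1)).ennreal_ofReal).mul
      (hφm.comp measurable_snd)) measurable_const
  -- step 1: pointwise
  have step1 : ∀ V₀ ∈ Z, ENNReal.ofReal (ρ V₀) * ENNReal.ofReal (‖B‖ ^ 2 / d V₀ ^ 2) ≤
      ∫⁻ V, G V₀ V ∂ν := by
    intro V₀ hV₀
    rcases (P.nonneg V₀).eq_or_lt with h0 | h0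
    · rw [← h0, ENNReal.ofReal_zero, zero_mul]
      exact zero_le
    · have hr : 0 < K * d V₀ := mul_pos hK0 (hd0 V₀)
      have hMr : M * (K * d V₀) ≤ η₀ := by
        refine le_trans ?_ hKε
        have : d V₀ ≤ ε := hV₀
        gcongr
      have hu : ‖(V₀ : ℂ) - s‖ ≤ 5 * (K * d V₀) := h5 V₀
      have h1 := pt P hs A B h0 hr hMr hu
      calc ENNReal.ofReal (ρ V₀) * ENNReal.ofReal (‖B‖ ^ 2 / d V₀ ^ 2)
          = ENNReal.ofReal (1 / d V₀ ^ 2) * ENNReal.ofReal (ρ V₀ * ‖B‖ ^ 2) := by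
            rw [← ENNReal.ofReal_mul h0.le, ← ENNReal.ofReal_mul (by positivity)]
            congr 1
            ring
        _ ≤ ENNReal.ofReal (1 / d V₀ ^ 2) * (ENNReal.ofReal (Cp κ * (K * d V₀)) *
            ∫⁻ V in {V : ℝ | 2 * (K * d V₀) ≤ ‖(V : ℂ) - s‖ ∧
              ‖(V : ℂ) - s‖ ≤ (M + 5) * (K * d V₀)}, φ V ∂ν) := by
            gcongr
        _ = ENNReal.ofReal (Cp κ * K / d V₀) *
            ∫⁻ V in {V : ℝ | 2 * (K * d V₀) ≤ ‖(V : ℂ) - s‖ ∧
              ‖(V : ℂ) - s‖ ≤ (M + 5) * (K * d V₀)}, φ V ∂ν := by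
            rw [← mul_assoc, ← ENNReal.ofReal_mul (by positivity)]
            congr 2
            have := (hd0 V₀).ne'
            field_simp
        _ = ∫⁻ V, G V₀ V ∂ν := by
            have hset : MeasurableSet {V : ℝ | 2 * (K * d V₀) ≤ ‖(V : ℂ) - s‖ ∧
              ‖(V : ℂ) - s‖ ≤ (M + 5) * (K * d V₀)} :=
              (measurableSet_le measurable_const hqc.measurable).inter
                (measurableSet_le hqc.measurable measurable_const)
            rw [← lintegral_const_mul' _ _ ENNReal.ofReal_ne_top, ← lintegral_indicator hset]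
            refine lintegral_congr fun V => ?_
            simp only [hG, Set.indicator, Set.mem_ofPred_eq]
            rfl
  -- step 2: the inner integral in `V₀`
  have step2 : ∀ V, ∫⁻ V₀, G V₀ V ≤ ENNReal.ofReal (Cp κ * (M + 5) * K) *
      ({V : ℝ | 2 * K * s'.im ≤ ‖(V : ℂ) - s‖}.indicator φ V) := by
    intro V
    by_cases hV : 2 * K * s'.im ≤ ‖(V : ℂ) - s‖
    · rw [Set.indicator_of_mem (show V ∈ {V : ℝ | 2 * K * s'.im ≤ ‖(V : ℂ) - s‖} from hV)]
      have hqV := hq0 V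
      have h1 : ∀ V₀, G V₀ V ≤ (Icc (s'.re - q V / (2 * K)) (s'.re + q V / (2 * K))).indicator
          (fun _ => ENNReal.ofReal (Cp κ * K * ((M + 5) * K / q V)) * φ V) V₀ := by
        intro V₀
        simp only [hG]
        split_ifs with h
        · have hdV := hd0 V₀
          have h2 : d V₀ ≤ q V / (2 * K) := by
            rw [le_div_iff₀ (by positivity)]
            linarith [h.1]
          have h3 : |V₀ - s'.re| ≤ d V₀ := by
            have := Complex.abs_re_le_norm ((V₀ : ℂ) - s')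
            rwa [Complex.sub_re, Complex.ofReal_re] at this
          have h4 : V₀ ∈ Icc (s'.re - q V / (2 * K)) (s'.re + q V / (2 * K)) := by
            have h5 := abs_le.1 (h3.trans h2)
            constructor <;> linarith [h5.1, h5.2]
          rw [Set.indicator_of_mem h4]
          gcongr
          rw [div_eq_mul_inv]
          gcongr
          rw [inv_le_comm₀ hdV (by positivity), inv_div, div_le_iff₀ (by positivity)]
          linarith [h.2]
        · exact zero_le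
      calc ∫⁻ V₀, G V₀ V ≤ ∫⁻ V₀, (Icc (s'.re - q V / (2 * K))
            (s'.re + q V / (2 * K))).indicator
            (fun _ => ENNReal.ofReal (Cp κ * K * ((M + 5) * K / q V)) * φ V) V₀ :=
            lintegral_mono h1
        _ = ENNReal.ofReal (Cp κ * K * ((M + 5) * K / q V)) * φ V *
            ENNReal.ofReal (q V / K) := by
            rw [lintegral_indicator measurableSet_Icc, setLIntegral_const, Real.volume_Icc]
            congr 2
            field_simp
            ring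
        _ = _ := by
            rw [mul_right_comm, ← ENNReal.ofReal_mul (by positivity)]
            congr 2
            field_simp
    · have h1 : ∀ V₀, G V₀ V = 0 := by
        intro V₀
        simp only [hG]
        rw [if_neg]
        rintro ⟨h2, _⟩
        apply hV
        have h3 := hdim V₀
        have h4 : K * s'.im ≤ K * d V₀ := by gcongr
        have h5 : q V = ‖(V : ℂ) - s‖ := rfl
        linarith
      simp only [h1]
      rw [lintegral_zero]
      exact zero_le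
  -- assembly
  have hfm : Measurable fun V => ENNReal.ofReal (‖B‖ ^ 2 / d V ^ 2) :=
    (measurable_const.div (hdc.measurable.pow_const 2)).ennreal_ofReal
  calc ∫⁻ V in Z, ENNReal.ofReal (‖B‖ ^ 2 / d V ^ 2) ∂ν
      = ∫⁻ V in Z, ENNReal.ofReal (ρ V) * ENNReal.ofReal (‖B‖ ^ 2 / d V ^ 2) := by
        rw [P.dens, restrict_withDensity hZm,
          lintegral_withDensity_eq_lintegral_mul _ P.meas.ennreal_ofReal hfm]
        rfl
    _ ≤ ∫⁻ V₀ in Z, ∫⁻ V, G V₀ V ∂ν := setLIntegral_mono' hZm step1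
    _ ≤ ∫⁻ V₀, ∫⁻ V, G V₀ V ∂ν := setLIntegral_le_lintegral _ _
    _ = ∫⁻ V, ∫⁻ V₀, G V₀ V ∂volume ∂ν := lintegral_lintegral_swap hGm.aemeasurable
    _ ≤ ∫⁻ V, ENNReal.ofReal (Cp κ * (M + 5) * K) *
      ({V : ℝ | 2 * K * s'.im ≤ ‖(V : ℂ) - s‖}.indicator φ V) ∂ν := lintegral_mono step2
    _ = _ := by
        rw [lintegral_const_mul' _ _ ENNReal.ofReal_ne_top,
          lintegral_indicator (measurableSet_le measurable_const hqc.measurable)]

end

end P365T1.Isl
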