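import Vale.Agent.P365.C937.IslA

/-!
# P365 T1, ISL (note 18390), step (6): upper bound near the pole
-/

set_option linter.all false

namespace P365T1.Isl

open MeasureTheory Set
open scoped ENNReal

variable {F : Type*} [NormedAddCommGroup F] [NormedSpace ℂ F]

section

variable {ν : Measure ℝ} [IsFiniteMeasure ν] {ρ : ℝ → ℝ} {L R κ η₀ δ m : ℝ}

/-- mass of short intervals -/
theorem mass_le (P : PLaw ν ρ L R κ η₀ δ m) {c r : ℝ} (hr : 0 ≤ r) :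
    ν (Icc (c - r) (c + r)) ≤ ENNReal.ofReal (2 * R * r) := by
  have hR := P.hR
  rw [P.dens, withDensity_apply _ measurableSet_Icc]
  calc ∫⁻ v in Icc (c - r) (c + r), ENNReal.ofReal (ρ v)
      ≤ ∫⁻ v in Icc (c - r) (c + r), ENNReal.ofReal R :=
        setLIntegral_mono' measurableSet_Icc fun v _ => ENNReal.ofReal_le_ofReal (P.le v)
    _ = _ := by
        rw [setLIntegral_const, Real.volume_Icc, ← ENNReal.ofReal_mul hR.le]
        congr 1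
        ring

/-- **the non-resonant part** -/
theorem lowerA (P : PLaw ν ρ L R κ η₀ δ m) {s : ℂ} (hs : 0 < s.im) {r₀ Lu : ℝ} (hr0 : 0 ≤ r₀)
    (hr : 4 * r₀ * R ≤ m) (hLu : ∀ V : ℝ, |V| ≤ L → ‖(V : ℂ) - s‖ ≤ Lu) (A B : F) :
    ENNReal.ofReal (‖A‖ ^ 2) ≤ ENNReal.ofReal (8 * Lu ^ 2 / (m * δ ^ 2)) *
      ∫⁻ V in {V : ℝ | r₀ ≤ ‖(V : ℂ) - s‖}, ENNReal.ofReal (‖A + ((V : ℂ) - s)⁻¹ • B‖ ^ 2) ∂ν := by
  have hm := P.hm
  have hδ := P.hδ
  have hL := P.hL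
  obtain ⟨I₁, I₂, m1, m2, h1, h2, b1, b2, hd⟩ := P.spread
  have hLu0 : 0 < Lu := (norm_pos_iff.2 (sub_ne hs 0)).trans_le (hLu 0 (by simpa using hL.le))
  have hqc : Continuous fun V : ℝ => ‖(V : ℂ) - s‖ :=
    (Complex.continuous_ofReal.sub continuous_const).norm
  set Rg : Set ℝ := {V : ℝ | r₀ ≤ ‖(V : ℂ) - s‖} with hRg
  have hRgm : MeasurableSet Rg := measurableSet_le measurable_const hqc.measurable
  -- mass of `I ∩ Rg`
  have hmass : ∀ I : Set ℝ, MeasurableSet I → ENNReal.ofReal m ≤ ν I →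
      ENNReal.ofReal (m / 2) ≤ ν (I ∩ Rg) := by
    intro I hI hmI
    have h3 : ν I ≤ ν (I ∩ Rg) + ν (Icc (s.re - r₀) (s.re + r₀)) := by
      have hsub : I ⊆ (I ∩ Rg) ∪ Icc (s.re - r₀) (s.re + r₀) := by
        intro V hV
        by_cases h : r₀ ≤ ‖(V : ℂ) - s‖
        · exact Or.inl ⟨hV, h⟩
        · right
          push Not at h
          have h4 := Complex.abs_re_le_norm ((V : ℂ) - s)
          rw [Complex.sub_re, Complex.ofReal_re] at h4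
          have h5 := abs_le.1 (h4.trans h.le)
          constructor <;> linarith [h5.1, h5.2]
      exact (measure_mono hsub).trans (measure_union_le _ _)
    have h4 := mass_le P (c := s.re) hr0
    have h5 : ENNReal.ofReal (m / 2) + ENNReal.ofReal (m / 2) ≤
        ν (I ∩ Rg) + ENNReal.ofReal (m / 2) := by
      rw [← ENNReal.ofReal_add (by positivity) (by positivity), add_halves]
      refine hmI.trans (h3.trans (add_le_add le_rfl (h4.trans ?_)))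
      exact ENNReal.ofReal_le_ofReal (by linarith)
    exact (ENNReal.add_le_add_iff_right ENNReal.ofReal_ne_top).1 h5
  -- lower bound from one set
  have hone : ∀ I : Set ℝ, MeasurableSet I → ENNReal.ofReal m ≤ ν I → (∀ V ∈ I, |V| ≤ L) →
      (∀ V ∈ I, ‖A‖ * δ / 2 ≤ ‖((V : ℂ) - s) • A + B‖) →
      ENNReal.ofReal (‖A‖ ^ 2) ≤ ENNReal.ofReal (8 * Lu ^ 2 / (m * δ ^ 2)) *
        ∫⁻ V in Rg, ENNReal.ofReal (‖A + ((V : ℂ) - s)⁻¹ • B‖ ^ 2) ∂ν := by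
    intro I hI hmI hIL hp
    have h3 : ∀ V ∈ I ∩ Rg, ENNReal.ofReal ((‖A‖ * δ / (2 * Lu)) ^ 2) ≤
        ENNReal.ofReal (‖A + ((V : ℂ) - s)⁻¹ • B‖ ^ 2) := by
      intro V hV
      refine ENNReal.ofReal_le_ofReal (pow_le_pow_left₀ (by positivity) ?_ 2)
      have hne := sub_ne hs V
      have h4 : A + ((V : ℂ) - s)⁻¹ • B = ((V : ℂ) - s)⁻¹ • (((V : ℂ) - s) • A + B) := by
        rw [smul_add, smul_smul, inv_mul_cancel₀ hne, one_smul]
      rw [h4, norm_smul, norm_inv]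
      have h5 := hp V hV.1
      have h6 := hLu V (hIL V hV.1)
      have h7 : 0 < ‖(V : ℂ) - s‖ := norm_pos_iff.2 hne
      rw [div_le_iff₀ (by positivity), ← div_eq_inv_mul, div_mul_eq_mul_div, le_div_iff₀ h7]
      calc ‖A‖ * δ * ‖(V : ℂ) - s‖ = (‖A‖ * δ / 2) * (2 * ‖(V : ℂ) - s‖) := by ring
        _ ≤ ‖((V : ℂ) - s) • A + B‖ * (2 * Lu) := by gcongr
    calc ENNReal.ofReal (‖A‖ ^ 2)
        = ENNReal.ofReal (8 * Lu ^ 2 / (m * δ ^ 2)) *
          (ENNReal.ofReal ((‖A‖ * δ / (2 * Lu)) ^ 2) * ENNReal.ofReal (m / 2)) := by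
          rw [← ENNReal.ofReal_mul (by positivity), ← ENNReal.ofReal_mul (by positivity)]
          congr 1
          field_simp
          ring
      _ ≤ ENNReal.ofReal (8 * Lu ^ 2 / (m * δ ^ 2)) *
          (ENNReal.ofReal ((‖A‖ * δ / (2 * Lu)) ^ 2) * ν (I ∩ Rg)) := by
          gcongr
          exact hmass I hI hmI
      _ = ENNReal.ofReal (8 * Lu ^ 2 / (m * δ ^ 2)) *
          ∫⁻ V in I ∩ Rg, ENNReal.ofReal ((‖A‖ * δ / (2 * Lu)) ^ 2) ∂ν := by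
          rw [setLIntegral_const]
      _ ≤ ENNReal.ofReal (8 * Lu ^ 2 / (m * δ ^ 2)) *
          ∫⁻ V in I ∩ Rg, ENNReal.ofReal (‖A + ((V : ℂ) - s)⁻¹ • B‖ ^ 2) ∂ν :=
          mul_le_mul' le_rfl (setLIntegral_mono' (hI.inter hRgm) h3)
      _ ≤ _ := mul_le_mul' le_rfl (lintegral_mono_set inter_subset_right)
  by_cases hA : ∀ V ∈ I₁, ‖A‖ * δ / 2 ≤ ‖((V : ℂ) - s) • A + B‖
  · exact hone I₁ m1 h1 b1 hA
  · push Not at hA
    obtain ⟨V₁, hV₁, hlt⟩ := hA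
    refine hone I₂ m2 h2 b2 fun V₂ hV₂ => ?_
    have h3 := hd V₁ hV₁ V₂ hV₂
    have h4 : ((V₂ : ℂ) - s) • A + B - (((V₁ : ℂ) - s) • A + B) =
        ((V₂ - V₁ : ℝ) : ℂ) • A := by
      rw [add_sub_add_right_eq_sub, ← sub_smul]
      congr 1
      push_cast
      ring
    have h5 : δ * ‖A‖ ≤ ‖((V₂ : ℂ) - s) • A + B‖ + ‖((V₁ : ℂ) - s) • A + B‖ := by
      refine le_trans ?_ (norm_sub_le _ _)
      rw [h4, norm_smul, Complex.norm_real, Real.norm_eq_abs, abs_sub_comm]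
      gcongr
    linarith

/-- **upper bound near the pole** -/
theorem upper (P : PLaw ν ρ L R κ η₀ δ m) {s s' : ℂ} (hs : 0 < s.im) (hs' : 0 < s'.im)
    {K ε Lu : ℝ} (hK : 1 ≤ K) (hε : 0 ≤ ε) (hKε : 30 / κ * (K * ε) ≤ η₀)
    (hr : 4 * (2 * K * s'.im) * R ≤ m) (hLu : ∀ V : ℝ, |V| ≤ L → ‖(V : ℂ) - s‖ ≤ Lu)
    {c : ℝ} (hc : 0 ≤ c) (hcK : c ≤ 5 * K)
    (h5 : ∀ V : ℝ, ‖(V : ℂ) - s‖ ≤ c * ‖(V : ℂ) - s'‖) (A B : F) :
    ∫⁻ V in {V : ℝ | ‖(V : ℂ) - s'‖ ≤ ε},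
        ENNReal.ofReal (‖((V : ℂ) - s) • A + B‖ ^ 2 / ‖(V : ℂ) - s'‖ ^ 2) ∂ν ≤
      ENNReal.ofReal (32 * c ^ 2 * Lu ^ 2 * R * ε / (m * δ ^ 2) + 2 * Cp κ * (30 / κ + 5) * K) *
        ∫⁻ V in {V : ℝ | 2 * K * s'.im ≤ ‖(V : ℂ) - s‖},
          ENNReal.ofReal (‖A + ((V : ℂ) - s)⁻¹ • B‖ ^ 2) ∂ν := by
  have hκ := P.hκ
  have hCp := Cp_pos hκ
  have hR := P.hR
  have hm := P.hm
  have hδ := P.hδ
  have hdc : Continuous fun V : ℝ => ‖(V : ℂ) - s'‖ :=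
    (Complex.continuous_ofReal.sub continuous_const).norm
  set Z : Set ℝ := {V : ℝ | ‖(V : ℂ) - s'‖ ≤ ε} with hZ
  have hZm : MeasurableSet Z := measurableSet_le hdc.measurable measurable_const
  set Q : ℝ≥0∞ := ∫⁻ V in {V : ℝ | 2 * K * s'.im ≤ ‖(V : ℂ) - s‖},
    ENNReal.ofReal (‖A + ((V : ℂ) - s)⁻¹ • B‖ ^ 2) ∂ν with hQ
  have hν : ν Z ≤ ENNReal.ofReal (2 * R * ε) := by
    refine (measure_mono ?_).trans (mass_le P (c := s'.re) hε)
    intro V hV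
    have h4 := Complex.abs_re_le_norm ((V : ℂ) - s')
    rw [Complex.sub_re, Complex.ofReal_re] at h4
    have h6 := abs_le.1 (h4.trans hV)
    constructor <;> linarith [h6.1, h6.2]
  have hA := lowerA P hs (by positivity) hr hLu A B
  have h5' : ∀ V : ℝ, ‖(V : ℂ) - s‖ ≤ 5 * (K * ‖(V : ℂ) - s'‖) := by
    intro V
    refine (h5 V).trans ?_
    rw [← mul_assoc]
    gcongr
  have hB := upperB P hs hs' hK hKε h5' A B
  rw [← hQ] at hA hB
  have hmeas : Measurable fun V : ℝ => ENNReal.ofReal (2 * (‖B‖ ^ 2 / ‖(V : ℂ) - s'‖ ^ 2)) :=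
    ((measurable_const.div (hdc.measurable.pow_const 2)).const_mul 2).ennreal_ofReal
  calc ∫⁻ V in Z, ENNReal.ofReal (‖((V : ℂ) - s) • A + B‖ ^ 2 / ‖(V : ℂ) - s'‖ ^ 2) ∂ν
      ≤ ∫⁻ V in Z, (ENNReal.ofReal (2 * c ^ 2 * ‖A‖ ^ 2) +
          ENNReal.ofReal (2 * (‖B‖ ^ 2 / ‖(V : ℂ) - s'‖ ^ 2))) ∂ν := by
        refine lintegral_mono fun V => ?_
        rw [← ENNReal.ofReal_add (by positivity) (by positivity)]
        refine ENNReal.ofReal_le_ofReal ?_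
        have hd0 : 0 < ‖(V : ℂ) - s'‖ := norm_pos_iff.2 (sub_ne hs' V)
        rw [div_le_iff₀ (by positivity)]
        have h1 : ‖((V : ℂ) - s) • A + B‖ ≤ c * ‖(V : ℂ) - s'‖ * ‖A‖ + ‖B‖ := by
          refine (norm_add_le _ _).trans ?_
          rw [norm_smul]
          have := h5 V
          gcongr
        have h2 := pow_le_pow_left₀ (norm_nonneg _) h1 2
        have h3 : (2 * c ^ 2 * ‖A‖ ^ 2 + 2 * (‖B‖ ^ 2 / ‖(V : ℂ) - s'‖ ^ 2)) *
            ‖(V : ℂ) - s'‖ ^ 2 = 2 * (c * ‖(V : ℂ) - s'‖ * ‖A‖) ^ 2 + 2 * ‖B‖ ^ 2 := by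
          field_simp
        rw [h3]
        nlinarith [sq_nonneg (c * ‖(V : ℂ) - s'‖ * ‖A‖ - ‖B‖)]
    _ = ENNReal.ofReal (2 * c ^ 2 * ‖A‖ ^ 2) * ν Z +
          ENNReal.ofReal 2 * ∫⁻ V in Z, ENNReal.ofReal (‖B‖ ^ 2 / ‖(V : ℂ) - s'‖ ^ 2) ∂ν := by
        rw [lintegral_add_left measurable_const, setLIntegral_const,
          ← lintegral_const_mul' _ _ ENNReal.ofReal_ne_top]
        congr 1
        refine lintegral_congr fun V => ?_
        rw [ENNReal.ofReal_mul (by norm_num)]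
    _ ≤ ENNReal.ofReal (2 * c ^ 2) * (ENNReal.ofReal (8 * Lu ^ 2 / (m * δ ^ 2)) * Q) *
          ENNReal.ofReal (2 * R * ε) +
          ENNReal.ofReal 2 * (ENNReal.ofReal (Cp κ * (30 / κ + 5) * K) * Q) := by
        refine add_le_add ?_ ?_
        · rw [ENNReal.ofReal_mul (by positivity)]
          gcongr
        · gcongr
    _ = _ := by
        have e1 : ∀ a b c : ℝ, 0 ≤ a → 0 ≤ b → ENNReal.ofReal a * (ENNReal.ofReal b * Q) *
            ENNReal.ofReal c = ENNReal.ofReal (a * b * c) * Q := by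
          intro a b c ha hb
          rw [ENNReal.ofReal_mul (mul_nonneg ha hb), ENNReal.ofReal_mul ha]
          ring
        have e2 : ∀ a b : ℝ, 0 ≤ a → ENNReal.ofReal a * (ENNReal.ofReal b * Q) =
            ENNReal.ofReal (a * b) * Q := by
          intro a b ha
          rw [ENNReal.ofReal_mul ha]
          ring
        rw [e1 _ _ _ (by positivity) (by positivity), e2 _ _ (by norm_num), ← add_mul,
          ← ENNReal.ofReal_add (by positivity) (by positivity)]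
        congr 2
        ring

end

end P365T1.Isl
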