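import Vale.Agent.P365.C937.IslA2
import Vale.Agent.P365.ISL.Gain
import Vale.Agent.P365.ISL.H3.Low

/-!
# P365 T1, ISL (note 18390), step (6): THE GAIN ON THE LINE OF THE SINK

Two sites `y, z`, everything else eliminated: the wave is `((V - s) A + B) / ((v - h) (V - s) - τ²)`.
If `y` is insulated when `z` is at its reference (`‖h^{[z]}‖ ≤ η'`), then the mass of `|wave|²` at the
reference of `y` over `{R₁ |V - s_z| ≤ |ζ - s_z|}` is at most `C K (e + 2 η + K⁻²)` times the full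
second moment.
-/

set_option linter.all false

namespace P365T1.Isl

open MeasureTheory Set Complex P365T1.ISL
open scoped ENNReal

variable {F : Type*} [NormedAddCommGroup F] [NormedSpace ℂ F]

/-- the wave at `y` -/
noncomputable def wv (h s τ : ℂ) (A B : F) (ω : ℂ) (V : ℝ) : F :=
  ((ω - h) * ((V : ℂ) - s) - τ ^ 2)⁻¹ • (((V : ℂ) - s) • A + B)

theorem hzz_im_nonneg {h s τ ω ζ : ℂ} (T : Two h s τ ω ζ) : 0 ≤ (hzz h s τ ζ).im := by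
  have h3 : (hzz h s τ ζ).im = h.im + 2 * τ.im * (τ / (ζ - s)).re +
      (-ζ.im + s.im) * ‖τ / (ζ - s)‖ ^ 2 := by
    have h4 : τ ^ 2 / (ζ - s) = τ * (τ / (ζ - s)) := by ring
    set q : ℂ := τ / (ζ - s) with hq
    have h5 : q * (ζ - s) = τ := by rw [hq, div_mul_cancel₀ _ T.ne_z]
    rw [hzz, h4, Complex.add_im, Complex.mul_im, ← Complex.normSq_eq_norm_sq,
      Complex.normSq_apply]
    have h6 := congrArg Complex.re h5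
    have h7 := congrArg Complex.im h5
    rw [Complex.mul_re, Complex.sub_re, Complex.sub_im] at h6
    rw [Complex.mul_im, Complex.sub_re, Complex.sub_im] at h7
    linear_combination (-q.im) * h6 + q.re * h7
  rw [h3]
  set q : ℂ := τ / (ζ - s) with hq
  have h8 : q.re ^ 2 ≤ ‖q‖ ^ 2 := by
    rw [← Complex.normSq_eq_norm_sq, Complex.normSq_apply]
    nlinarith [sq_nonneg q.im]
  have h9 : (2 * τ.im * q.re) ^ 2 ≤ (h.im + s.im * ‖q‖ ^ 2) ^ 2 := by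
    have h10 : τ.im ^ 2 * q.re ^ 2 ≤ (h.im * s.im) * ‖q‖ ^ 2 :=
      mul_le_mul T.hτ h8 (sq_nonneg _) (mul_nonneg T.hh T.hs.le)
    nlinarith [sq_nonneg (h.im - s.im * ‖q‖ ^ 2)]
  have h11 : 0 ≤ h.im + s.im * ‖q‖ ^ 2 := by
    have := mul_nonneg T.hs.le (sq_nonneg ‖q‖)
    linarith [T.hh]
  have h12 := abs_le_of_sq_le_sq' h9 h11
  have h13 : 0 ≤ -ζ.im * ‖q‖ ^ 2 := mul_nonneg (by linarith [T.hζ]) (sq_nonneg _)
  nlinarith [h12.1]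

theorem one_le_hzz {h s τ ω ζ : ℂ} (T : Two h s τ ω ζ) : 1 ≤ ‖ω - hzz h s τ ζ‖ := by
  have h1 := Complex.abs_im_le_norm (ω - hzz h s τ ζ)
  have h2 := hzz_im_nonneg T
  rw [Complex.sub_im, T.hω] at h1
  have h3 : (1 : ℝ) ≤ |-1 - (hzz h s τ ζ).im| := by
    rw [abs_of_nonpos (by linarith)]
    linarith
  linarith

/-- comparison of the two poles -/
theorem pole_cmp {h s τ ω ζ : ℂ} (T : Two h s τ ω ζ) {C : ℝ} (hω2 : ‖ω - h‖ ≤ 2 * C) (V : ℝ) :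
    ‖(V : ℂ) - s‖ ≤ (1 + 2 * C) * ‖(V : ℂ) - szz h s τ ω‖ := by
  have hω1 : 1 ≤ ‖ω - h‖ := T.one_le
  have hω0 : 0 < ‖ω - h‖ := by linarith
  have hs'pos : 0 < (szz h s τ ω).im := T.sz_im_pos
  have h1 : (V : ℂ) - s = ((V : ℂ) - szz h s τ ω) + τ ^ 2 / (ω - h) := by
    rw [szz]
    ring
  have h2 : ‖τ ^ 2 / (ω - h)‖ ≤ 2 * C * ‖(V : ℂ) - szz h s τ ω‖ := by
    rw [norm_div, norm_pow, div_le_iff₀ hω0]
    have h3 := T.ward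
    rw [div_le_iff₀ (by positivity)] at h3
    have h4 := im_le_norm_sub hs'pos V
    calc ‖τ‖ ^ 2 ≤ (szz h s τ ω).im * ‖ω - h‖ ^ 2 := h3
      _ ≤ ‖(V : ℂ) - szz h s τ ω‖ * (2 * C * ‖ω - h‖) := by
        rw [pow_two]
        gcongr
      _ = 2 * C * ‖(V : ℂ) - szz h s τ ω‖ * ‖ω - h‖ := by ring
  rw [h1]
  refine (norm_add_le _ _).trans ?_
  linarith

/-- the reference wave -/
theorem wv_ref_le {h s τ ω ζ : ℂ} (T : Two h s τ ω ζ) (A B : F) (V : ℝ) :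
    ‖wv h s τ A B ω V‖ ^ 2 ≤ ‖((V : ℂ) - s) • A + B‖ ^ 2 / ‖(V : ℂ) - szz h s τ ω‖ ^ 2 := by
  have hω1 : 1 ≤ ‖ω - h‖ := T.one_le
  have h1 : (ω - h) * ((V : ℂ) - s) - τ ^ 2 = (ω - h) * ((V : ℂ) - szz h s τ ω) := by
    rw [szz]
    have := T.ne_w
    field_simp
    ring
  have h2 : 0 < ‖(V : ℂ) - szz h s τ ω‖ := norm_pos_iff.2 (sub_ne T.sz_im_pos V)
  rw [wv, h1, norm_smul, norm_inv, norm_mul, mul_pow, inv_pow, mul_pow, div_eq_inv_mul]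
  gcongr
  nlinarith [one_le_pow₀ hω1 (n := 2), sq_nonneg ‖(V : ℂ) - szz h s τ ω‖]

/-- separation from the pole -/
theorem sep_of {h s τ ω ζ : ℂ} (T : Two h s τ ω ζ) {C K K' : ℝ} (hω2 : ‖ω - h‖ ≤ 2 * C)
    (him : h.im ≤ 1) (hKK : K = K' * (1 + 2 * C ^ 2)) (hK' : 0 < K') :
    K' * (s.im + ‖τ‖ ^ 2) ≤ 2 * K * (szz h s τ ω).im := by
  have hω0 : 0 < ‖ω - h‖ := by linarith [T.one_le]
  have hs'pos : 0 < (szz h s τ ω).im := T.sz_im_pos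
  have h1 := T.w_le
  have h2 := T.ward
  rw [div_le_iff₀ (by positivity)] at h2
  have h3 : ‖ω - h‖ ^ 2 ≤ (2 * C) ^ 2 := pow_le_pow_left₀ hω0.le hω2 2
  have h4 : s.im ≤ 2 * (szz h s τ ω).im := h1.trans (by
    have : 1 + h.im ≤ 2 := by linarith
    gcongr)
  have h5 : ‖τ‖ ^ 2 ≤ (szz h s τ ω).im * (2 * C) ^ 2 := h2.trans (by gcongr)
  calc K' * (s.im + ‖τ‖ ^ 2) ≤ K' * (2 * (szz h s τ ω).im + (szz h s τ ω).im * (2 * C) ^ 2) := by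
        gcongr
    _ = 2 * K * (szz h s τ ω).im := by rw [hKK]; ring

variable {ν : Measure ℝ} [IsFiniteMeasure ν] {ρ : ℝ → ℝ} {L R κ η₀ δ m : ℝ}

theorem supp_null (P : PLaw ν ρ L R κ η₀ δ m) : ν (Icc (-L) L)ᶜ = 0 := by
  rw [P.dens, withDensity_apply _ measurableSet_Icc.compl]
  rw [← lintegral_zero (μ := volume.restrict (Icc (-L) L)ᶜ)]
  refine setLIntegral_congr_fun measurableSet_Icc.compl fun v hv => ?_
  rw [P.supp v, ENNReal.ofReal_zero]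
  by_contra h1
  exact hv (abs_le.1 (not_lt.1 h1))

/-- the lower bound, integrated over the region `2 K Im s' ≤ |V - s|` -/
theorem low_region {νy : Measure ℝ} {ky a : ℝ} (hνy : DensGe ky a νy) (hky : 0 < ky)
    {h s τ ω ζ : ℂ} (T : Two h s τ ω ζ) {C K K' η e : ℝ} (hω2 : ‖ω - h‖ ≤ 2 * C)
    (hhη : ‖h‖ ≤ η) (hη1 : η ≤ 1) (hKK : K = K' * (1 + 2 * C ^ 2)) (hK'1 : 1 ≤ K') (he : 0 < e)
    (ha : η + 1 / K' + (e + 2 * η + 1 / K' ^ 2) ≤ a) (A B : F) (ν : Measure ℝ) :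
    ∫⁻ V in {V : ℝ | 2 * K * (szz h s τ ω).im ≤ ‖(V : ℂ) - s‖},
        ENNReal.ofReal (‖A + ((V : ℂ) - s)⁻¹ • B‖ ^ 2) ∂ν ≤
      ENNReal.ofReal ((e + 2 * η + 1 / K' ^ 2) / ky) *
        ∫⁻ V, ∫⁻ v, ENNReal.ofReal (‖wv h s τ A B ((v : ℂ) - e * I) V‖ ^ 2) ∂νy ∂ν := by
  have him : h.im ≤ 1 := ((le_abs_self _).trans (Complex.abs_im_le_norm h)).trans (hhη.trans hη1)
  have hK'0 : 0 < K' := by linarith
  have hη0 : 0 ≤ η := (norm_nonneg _).trans hhη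
  set q : ℝ := e + 2 * η + 1 / K' ^ 2 with hq
  have hq0 : 0 < q := by positivity
  have hlow : ∀ V ∈ {V : ℝ | 2 * K * (szz h s τ ω).im ≤ ‖(V : ℂ) - s‖},
      ENNReal.ofReal (‖A + ((V : ℂ) - s)⁻¹ • B‖ ^ 2) ≤ ENNReal.ofReal (q / ky) *
        ∫⁻ v, ENNReal.ofReal (‖wv h s τ A B ((v : ℂ) - e * I) V‖ ^ 2) ∂νy := by
    intro V hV
    have hsep : K' * (s.im + ‖τ‖ ^ 2) ≤ ‖(V : ℂ) - s‖ :=
      (sep_of T hω2 him hKK hK'0).trans hV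
    have hlp := Isl3.low_pt (A := A) (B := B) T.hh T.hs.le T.hτ
      (norm_pos_iff.2 (sub_ne T.hs V)) hK'1 hsep hhη ha he hky.le hνy
    calc ENNReal.ofReal (‖A + ((V : ℂ) - s)⁻¹ • B‖ ^ 2)
        = ENNReal.ofReal (q / ky) *
          ENNReal.ofReal (ky / q * ‖A + ((V : ℂ) - s)⁻¹ • B‖ ^ 2) := by
          rw [← ENNReal.ofReal_mul (by positivity)]
          congr 1
          field_simp
      _ ≤ _ := mul_le_mul' le_rfl hlp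
  calc ∫⁻ V in {V : ℝ | 2 * K * (szz h s τ ω).im ≤ ‖(V : ℂ) - s‖},
        ENNReal.ofReal (‖A + ((V : ℂ) - s)⁻¹ • B‖ ^ 2) ∂ν
      ≤ ∫⁻ V in {V : ℝ | 2 * K * (szz h s τ ω).im ≤ ‖(V : ℂ) - s‖},
          ENNReal.ofReal (q / ky) *
          ∫⁻ v, ENNReal.ofReal (‖wv h s τ A B ((v : ℂ) - e * I) V‖ ^ 2) ∂νy ∂ν := by
        refine setLIntegral_mono' ?_ hlow
        exact measurableSet_le measurable_const
          (Complex.continuous_ofReal.sub continuous_const).norm.measurable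
    _ ≤ ∫⁻ V, ENNReal.ofReal (q / ky) *
          ∫⁻ v, ENNReal.ofReal (‖wv h s τ A B ((v : ℂ) - e * I) V‖ ^ 2) ∂νy ∂ν :=
        setLIntegral_le_lintegral _ _
    _ = _ := by rw [lintegral_const_mul' _ _ ENNReal.ofReal_ne_top]

/-- the upper bound, once the zone is inside `|V - s'| ≤ ε` -/
theorem up_region (P : PLaw ν ρ L R κ η₀ δ m) {h s τ ω ζ : ℂ} (T : Two h s τ ω ζ)
    {C K ε Lu : ℝ} (hC1 : 1 ≤ C) (hω2 : ‖ω - h‖ ≤ 2 * C) (hK1 : 1 ≤ K) (hKC : 1 + 2 * C ≤ 5 * K)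
    (hKε : 30 / κ * (K * ε) ≤ η₀) (hKR : 8 * K * ε * R ≤ m)
    (hs'ε : (szz h s τ ω).im ≤ ε) (hLu : ∀ V : ℝ, |V| ≤ L → ‖(V : ℂ) - s‖ ≤ Lu)
    (Z : Set ℝ) (hZ : ∀ V ∈ Z, |V| ≤ L → ‖(V : ℂ) - szz h s τ ω‖ ≤ ε) (A B : F) :
    ∫⁻ V in Z, ENNReal.ofReal (‖wv h s τ A B ω V‖ ^ 2) ∂ν ≤
      ENNReal.ofReal (32 * (1 + 2 * C) ^ 2 * Lu ^ 2 * R * ε / (m * δ ^ 2) +
        2 * Cp κ * (30 / κ + 5) * K) *
      ∫⁻ V in {V : ℝ | 2 * K * (szz h s τ ω).im ≤ ‖(V : ℂ) - s‖},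
          ENNReal.ofReal (‖A + ((V : ℂ) - s)⁻¹ • B‖ ^ 2) ∂ν := by
  have hR := P.hR
  have hs'pos : 0 < (szz h s τ ω).im := T.sz_im_pos
  have hε0 : 0 ≤ ε := hs'pos.le.trans hs'ε
  have hup := upper P T.hs hs'pos hK1 hε0 hKε
    (by
      have h1 : 4 * (2 * K * (szz h s τ ω).im) * R ≤ 8 * K * ε * R := by
        have : 4 * (2 * K * (szz h s τ ω).im) * R = 8 * K * (szz h s τ ω).im * R := by ring
        rw [this]
        gcongr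
      linarith) hLu (c := 1 + 2 * C) (by linarith) hKC (pole_cmp T hω2) A B
  refine le_trans ?_ hup
  calc ∫⁻ V in Z, ENNReal.ofReal (‖wv h s τ A B ω V‖ ^ 2) ∂ν
      ≤ ∫⁻ V in Z,
        ENNReal.ofReal (‖((V : ℂ) - s) • A + B‖ ^ 2 / ‖(V : ℂ) - szz h s τ ω‖ ^ 2) ∂ν :=
        lintegral_mono fun V => ENNReal.ofReal_le_ofReal (wv_ref_le T A B V)
    _ ≤ ∫⁻ V in {V : ℝ | ‖(V : ℂ) - szz h s τ ω‖ ≤ ε} ∪ (Icc (-L) L)ᶜ,
        ENNReal.ofReal (‖((V : ℂ) - s) • A + B‖ ^ 2 / ‖(V : ℂ) - szz h s τ ω‖ ^ 2) ∂ν := by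
        refine lintegral_mono_set fun V hV => ?_
        by_cases h1 : |V| ≤ L
        · exact Or.inl (hZ V hV h1)
        · exact Or.inr fun h2 => h1 (abs_le.2 h2)
    _ ≤ ∫⁻ V in {V : ℝ | ‖(V : ℂ) - szz h s τ ω‖ ≤ ε},
        ENNReal.ofReal (‖((V : ℂ) - s) • A + B‖ ^ 2 / ‖(V : ℂ) - szz h s τ ω‖ ^ 2) ∂ν + 0 := by
        refine (lintegral_union_le _ _ _).trans (add_le_add le_rfl (le_of_eq ?_))
        rw [Measure.restrict_eq_zero.2 (supp_null P), lintegral_zero_measure]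
    _ = _ := add_zero _

/-- **gain on the line of the sink** -/
theorem gain (P : PLaw ν ρ L R κ η₀ δ m) {νy : Measure ℝ} {ky a : ℝ} (hνy : DensGe ky a νy)
    (hky : 0 < ky) {h s τ ω ζ : ℂ} (T : Two h s τ ω ζ) {C η' R₁ K K' ε η e Lu : ℝ}
    (hC : ‖ω - hzz h s τ ζ‖ ≤ C) (hη' : ‖hzz h s τ ζ‖ ≤ η')
    (hR₁ : 2 ≤ R₁) (hε : 2 * (‖ζ‖ + L) ≤ ε * R₁) (hε1 : 4 * C * ε ≤ 1)
    (hη : η = η' + 4 * C ^ 2 * ε) (hη1 : η ≤ 1) (hKK : K = K' * (1 + 2 * C ^ 2)) (hK'1 : 1 ≤ K')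
    (hKε : 30 / κ * (K * ε) ≤ η₀) (hKR : 8 * K * ε * R ≤ m)
    (hLu : Lu = (1 + 2 * C) * (2 * L + ε)) (he : 0 < e)
    (ha : η + 1 / K' + (e + 2 * η + 1 / K' ^ 2) ≤ a) (A B : F) :
    ∫⁻ V in {V : ℝ | R₁ * ‖(V : ℂ) - szz h s τ ω‖ ≤ ‖ζ - szz h s τ ω‖},
        ENNReal.ofReal (‖wv h s τ A B ω V‖ ^ 2) ∂ν ≤
      ENNReal.ofReal ((32 * (1 + 2 * C) ^ 2 * Lu ^ 2 * R * ε / (m * δ ^ 2) +
        2 * Cp κ * (30 / κ + 5) * K) * ((e + 2 * η + 1 / K' ^ 2) / ky)) *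
      ∫⁻ V, ∫⁻ v, ENNReal.ofReal (‖wv h s τ A B ((v : ℂ) - e * I) V‖ ^ 2) ∂νy ∂ν := by
  have hL := P.hL
  have hR := P.hR
  have hκ := P.hκ
  have hm := P.hm
  have hδ := P.hδ
  have hCp := Cp_pos hκ
  set s' := szz h s τ ω with hs'
  have hR0 : 0 < R₁ := by linarith
  have hC1 : 1 ≤ C := (one_le_hzz T).trans hC
  have hε0 : 0 ≤ ε := by
    by_contra h0
    push Not at h0
    have h1 := norm_nonneg ζ
    nlinarith
  have hK'0 : 0 < K' := by linarith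
  have hK1 : 1 ≤ K := by
    rw [hKK]
    nlinarith [sq_nonneg C]
  -- the zone restricted to the support
  have hzone : ∀ V : ℝ, |V| ≤ L → R₁ * ‖(V : ℂ) - s'‖ ≤ ‖ζ - s'‖ → ‖(V : ℂ) - s'‖ ≤ ε := by
    intro V hV hz
    have h1 : ‖ζ - s'‖ ≤ ‖ζ‖ + |V| + ‖(V : ℂ) - s'‖ := by
      have : ζ - s' = (ζ - (V : ℂ)) + ((V : ℂ) - s') := by ring
      rw [this]
      refine (norm_add_le _ _).trans (add_le_add ((norm_sub_le _ _).trans ?_) le_rfl)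
      rw [Complex.norm_real, Real.norm_eq_abs]
    have h2 := norm_nonneg ((V : ℂ) - s')
    refine le_of_mul_le_mul_right ?_ hR0
    nlinarith
  by_cases hne : ∃ V : ℝ, |V| ≤ L ∧ R₁ * ‖(V : ℂ) - s'‖ ≤ ‖ζ - s'‖
  swap
  · -- empty zone
    push Not at hne
    have h1 : ν {V : ℝ | R₁ * ‖(V : ℂ) - s'‖ ≤ ‖ζ - s'‖} = 0 := by
      refine measure_mono_null ?_ (supp_null P)
      intro V hV hV2
      have h3 : |V| ≤ L := abs_le.2 hV2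
      exact absurd hV (not_le.2 (hne V h3))
    rw [Measure.restrict_eq_zero.2 h1, lintegral_zero_measure]
    exact zero_le
  obtain ⟨V₁, hV₁, hz₁⟩ := hne
  have hd₁ := hzone V₁ hV₁ hz₁
  have hs'ε : s'.im ≤ ε := (im_le_norm_sub T.sz_im_pos V₁).trans hd₁
  obtain ⟨hω2, hhh, hτ2⟩ := T.small hC hs'ε hε1
  have hhη : ‖h‖ ≤ η := by
    have h1 : h = (h - hzz h s τ ζ) + hzz h s τ ζ := by ring
    rw [h1]
    refine (norm_add_le _ _).trans ?_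
    rw [hη]
    linarith
  have hLu' : ∀ V : ℝ, |V| ≤ L → ‖(V : ℂ) - s‖ ≤ Lu := by
    intro V hV
    refine (pole_cmp T hω2 V).trans ?_
    rw [hLu]
    gcongr
    have h1 : (V : ℂ) - s' = ((V - V₁ : ℝ) : ℂ) + ((V₁ : ℂ) - s') := by
      push_cast
      ring
    rw [← hs', h1]
    refine (norm_add_le _ _).trans (add_le_add ?_ hd₁)
    rw [Complex.norm_real, Real.norm_eq_abs]
    have h2 := abs_sub V V₁
    linarith
  have hup := up_region P T hC1 hω2 hK1 (by rw [hKK]; nlinarith [sq_nonneg (C - 1)]) hKε hKR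
    hs'ε hLu' {V : ℝ | R₁ * ‖(V : ℂ) - s'‖ ≤ ‖ζ - s'‖} (fun V hV hVL => hzone V hVL hV) A B
  have hlo := low_region hνy hky T hω2 hhη hη1 hKK hK'1 he ha A B ν
  refine hup.trans ((mul_le_mul' le_rfl hlo).trans (le_of_eq ?_))
  rw [← mul_assoc, ← ENNReal.ofReal_mul (by positivity)]

end P365T1.Isl
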