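import Vale.Agent.P365.C937.IslB

/-!
# P365 T1, ISL (note 18390), step (6): the gain in the frame of the potentials `V_y`, `V_z`
(755's form: `w t = (t - E) - i e_z`, reference `-i` at both sites, `x₀` real)
-/

set_option linter.all false

namespace P365T1.Isl

open MeasureTheory Set Complex P365T1.ISL
open scoped ENNReal

/-- shift of the law of the centre -/
theorem densGe_shift {νy : Measure ℝ} {ky ay : ℝ} (hν : DensGe ky ay νy) (c : ℝ) :
    DensGe ky (ay - |c|) (νy.map (MeasurableEquiv.subRight c)) := by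
  unfold DensGe at *
  have hvol : (volume : Measure ℝ).map (MeasurableEquiv.subRight c) = volume :=
    map_sub_right_eq_self volume c
  have h1 : (volume : Measure ℝ).restrict (Icc (-(ay - |c|)) (ay - |c|)) =
      ((volume : Measure ℝ).restrict (Icc (c - (ay - |c|)) (c + (ay - |c|)))).map
        (MeasurableEquiv.subRight c) := by
    have h2 := Measure.restrict_map (μ := (volume : Measure ℝ))
      (MeasurableEquiv.subRight c).measurable
      (measurableSet_Icc : MeasurableSet (Icc (-(ay - |c|)) (ay - |c|)))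
    rw [hvol] at h2
    rw [h2]
    congr 2
    ext u
    have hsr : (MeasurableEquiv.subRight c) u = u - c := rfl
    rw [Set.mem_preimage, hsr, Set.mem_Icc, Set.mem_Icc]
    constructor <;> rintro ⟨h3, h4⟩ <;> constructor <;> linarith
  rw [h1, ← Measure.map_smul]
  refine Measure.map_mono (le_trans ?_ hν) (MeasurableEquiv.subRight c).measurable
  refine Measure.le_iff.2 fun s hs => ?_
  rw [Measure.smul_apply, Measure.smul_apply]
  have hc := abs_le.1 (le_refl |c|)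
  have hsub : Icc (c - (ay - |c|)) (c + (ay - |c|)) ⊆ Icc (-ay) ay :=
    Icc_subset_Icc (by linarith [hc.1]) (by linarith [hc.2])
  gcongr

/-- **gain on the line of the sink, in the frame of the potentials** -/
theorem gain_abs {νz : Measure ℝ} [IsFiniteMeasure νz] {ρ : ℝ → ℝ} {L R κ η₀ δ m : ℝ}
    (P : PLaw νz ρ L R κ η₀ δ m) {νy : Measure ℝ} {ky ay : ℝ} (hνy : DensGe ky ay νy)
    (hky : 0 < ky) {E ez ey x₀ η₁ C R₁ K K' ε η Lu : ℝ} (hez : 0 < ez) (hez2 : ez ≤ 1 / 2)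
    (hey : 0 < ey) (hC : 1 + |x₀| + η₁ ≤ C)
    (hR₁ : 2 ≤ R₁) (hε : 2 * (1 + |E| + L) ≤ ε * R₁) (hε1 : 4 * C * ε ≤ 1)
    (hη : η = η₁ + 4 * C ^ 2 * ε) (hη1 : η ≤ 1) (hKK : K = K' * (1 + 2 * C ^ 2)) (hK'1 : 1 ≤ K')
    (hKε : 30 / κ * (K * ε) ≤ η₀) (hKR : 8 * K * ε * R ≤ m)
    (hLu : Lu = (1 + 2 * C) * (2 * L + ε))
    (ha : |E + x₀| + η + 1 / K' + (ey + 2 * η + 1 / K' ^ 2) ≤ ay) :
    ∀ h s τ A B : ℂ, 0 ≤ h.im → 0 ≤ s.im → τ.im ^ 2 ≤ h.im * s.im →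
      ‖h + τ ^ 2 / (-I - s) - (x₀ : ℂ)‖ ≤ η₁ →
      ∫⁻ t in {t : ℝ | R₁ < ‖(-I - (s + τ ^ 2 / (-I - h))) /
          ((((t - E : ℝ) : ℂ) - (ez : ℂ) * I) - (s + τ ^ 2 / (-I - h)))‖},
        ENNReal.ofReal (‖(((((t - E : ℝ) : ℂ) - (ez : ℂ) * I) - s) * A + B) /
          ((-I - h) * ((((t - E : ℝ) : ℂ) - (ez : ℂ) * I) - s) - τ ^ 2)‖ ^ 2) ∂νz ≤
      ENNReal.ofReal ((32 * (1 + 2 * C) ^ 2 * Lu ^ 2 * R * ε / (m * δ ^ 2) +
        2 * Cp κ * (30 / κ + 5) * K) * ((ey + 2 * η + 1 / K' ^ 2) / ky)) *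
      ∫⁻ t, ∫⁻ u, ENNReal.ofReal (‖(((((t - E : ℝ) : ℂ) - (ez : ℂ) * I) - s) * A + B) /
          (((((u - E : ℝ) : ℂ) - (ey : ℂ) * I) - h) *
            ((((t - E : ℝ) : ℂ) - (ez : ℂ) * I) - s) - τ ^ 2)‖ ^ 2) ∂νy ∂νz := by
  intro h s τ A B hh hs hτ hsmall
  set h' : ℂ := h - (x₀ : ℂ) with hh'
  set s' : ℂ := s + (E : ℂ) + (ez : ℂ) * I with hs'
  set ω : ℂ := -I - (x₀ : ℂ) with hω
  set ζ : ℂ := -I + (E : ℂ) + (ez : ℂ) * I with hζ
  have him : h'.im = h.im := by simp [hh']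
  have sim : s'.im = s.im + ez := by simp [hs']
  have T : Two h' s' τ ω ζ := by
    refine ⟨by rw [him]; exact hh, by rw [sim]; linarith, ?_, by simp [hω], ?_⟩
    · rw [him, sim]
      nlinarith
    · simp [hζ]
      linarith
  have e1 : ζ - s' = -I - s := by rw [hζ, hs']; ring
  have e2 : ω - h' = -I - h := by rw [hω, hh']; ring
  have e3 : hzz h' s' τ ζ = h + τ ^ 2 / (-I - s) - (x₀ : ℂ) := by
    rw [hzz, e1, hh']
    ring
  have hC' : ‖ω - hzz h' s' τ ζ‖ ≤ C := by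
    refine (norm_sub_le _ _).trans ?_
    rw [e3]
    have h1 : ‖ω‖ ≤ 1 + |x₀| := by
      rw [hω]
      refine (norm_sub_le _ _).trans ?_
      rw [norm_neg, norm_I, Complex.norm_real, Real.norm_eq_abs]
    linarith
  have hη' : ‖hzz h' s' τ ζ‖ ≤ η₁ := by rw [e3]; exact hsmall
  have hζn : ‖ζ‖ ≤ 1 + |E| := by
    have h1 : ζ = (E : ℂ) + ((-(1 - ez) : ℝ) : ℂ) * I := by
      rw [hζ]
      push_cast
      ring
    rw [h1]
    refine (norm_add_le _ _).trans ?_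
    have h2 : |-(1 - ez)| = 1 - ez := by rw [abs_neg, abs_of_nonneg (by linarith)]
    rw [norm_mul, norm_I, mul_one, Complex.norm_real, Complex.norm_real, Real.norm_eq_abs,
      Real.norm_eq_abs, h2]
    linarith
  have hε0 : 0 ≤ ε := by
    by_contra h0
    push Not at h0
    have := P.hL
    have := abs_nonneg E
    nlinarith
  have g := gain P (densGe_shift hνy (E + x₀)) hky T hC' hη' hR₁
    (by nlinarith [P.hL]) hε1 hη hη1 hKK hK'1 hKε hKR hLu hey (by linarith) A B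
  have e4 : ∀ t : ℝ, (t : ℂ) - s' = (((t - E : ℝ) : ℂ) - (ez : ℂ) * I) - s := by
    intro t
    rw [hs']
    push_cast
    ring
  have e5 : szz h' s' τ ω = (s + τ ^ 2 / (-I - h)) + (E : ℂ) + (ez : ℂ) * I := by
    rw [szz, e2, hs']
    ring
  have e6 : ∀ t : ℝ, (t : ℂ) - szz h' s' τ ω =
      (((t - E : ℝ) : ℂ) - (ez : ℂ) * I) - (s + τ ^ 2 / (-I - h)) := by
    intro t
    rw [e5]
    push_cast
    ring
  have e7 : ζ - szz h' s' τ ω = -I - (s + τ ^ 2 / (-I - h)) := by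
    rw [e5, hζ]
    ring
  have hsub : {t : ℝ | R₁ < ‖(-I - (s + τ ^ 2 / (-I - h))) /
      ((((t - E : ℝ) : ℂ) - (ez : ℂ) * I) - (s + τ ^ 2 / (-I - h)))‖} ⊆
      {V : ℝ | R₁ * ‖(V : ℂ) - szz h' s' τ ω‖ ≤ ‖ζ - szz h' s' τ ω‖} := by
    intro t ht
    rw [Set.mem_ofPred_eq] at ht ⊢
    rw [e6, e7]
    have h1 : 0 < ‖(((t - E : ℝ) : ℂ) - (ez : ℂ) * I) - (s + τ ^ 2 / (-I - h))‖ := by
      rw [← e6]
      exact norm_pos_iff.2 (sub_ne T.sz_im_pos t)
    rw [norm_div, lt_div_iff₀ h1] at ht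
    exact ht.le
  have hl : ∀ t : ℝ, ‖wv h' s' τ A B ω t‖ = ‖(((((t - E : ℝ) : ℂ) - (ez : ℂ) * I) - s) * A + B) /
      ((-I - h) * ((((t - E : ℝ) : ℂ) - (ez : ℂ) * I) - s) - τ ^ 2)‖ := by
    intro t
    rw [wv, e4, e2, smul_eq_mul, smul_eq_mul, div_eq_inv_mul]
  have hr : ∀ t u : ℝ, ‖wv h' s' τ A B (((u - (E + x₀) : ℝ) : ℂ) - ey * I) t‖ =
      ‖(((((t - E : ℝ) : ℂ) - (ez : ℂ) * I) - s) * A + B) /
          (((((u - E : ℝ) : ℂ) - (ey : ℂ) * I) - h) *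
            ((((t - E : ℝ) : ℂ) - (ez : ℂ) * I) - s) - τ ^ 2)‖ := by
    intro t u
    rw [wv, e4, smul_eq_mul, smul_eq_mul, div_eq_inv_mul]
    congr 4
    rw [hh']
    push_cast
    ring
  simp only [hl] at g
  refine (lintegral_mono_set hsub).trans (g.trans (le_of_eq ?_))
  congr 1
  refine lintegral_congr fun t => ?_
  rw [lintegral_map_equiv]
  refine lintegral_congr fun u => ?_
  have hsr : (MeasurableEquiv.subRight (E + x₀)) u = u - (E + x₀) := rfl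
  rw [hsr, hr]

end P365T1.Isl
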