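import Vale.Agent.P365.C937.IslC

/-!
# P365 T1, ISL (note 18390), step (6): clean form of the gain on the line
-/

set_option linter.all false

namespace P365T1.Isl

open MeasureTheory Set Complex P365T1.ISL
open scoped ENNReal

/-- a sum of nonnegative terms at most one -/
theorem six_le {p₁ p₂ p₃ p₄ p₅ t D : ℝ} (h1 : 0 ≤ p₁) (h2 : 0 ≤ p₂) (h3 : 0 ≤ p₃)
    (h4 : 0 ≤ p₄) (h5 : 0 ≤ p₅) (ht : 0 < t) (hD : D = p₁ + p₂ + p₃ + p₄ + p₅ + 1)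
    (hDt : D * t ≤ 1) :
    p₁ * t ≤ 1 ∧ p₂ * t ≤ 1 ∧ p₃ * t ≤ 1 ∧ p₄ * t ≤ 1 ∧ p₅ * t ≤ 1 ∧ t ≤ 1 := by
  have e : D * t = p₁ * t + p₂ * t + p₃ * t + p₄ * t + p₅ * t + t := by rw [hD]; ring
  have n1 := mul_nonneg h1 ht.le
  have n2 := mul_nonneg h2 ht.le
  have n3 := mul_nonneg h3 ht.le
  have n4 := mul_nonneg h4 ht.le
  have n5 := mul_nonneg h5 ht.le
  refine ⟨?_, ?_, ?_, ?_, ?_, ?_⟩ <;> linarith

/-- the side conditions of `gain_abs` -/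
theorem side_all {C b a₁ κ η₀ m R g t D : ℝ} (hC : 0 ≤ C) (hb : 0 ≤ b) (ha : 0 ≤ a₁)
    (hκ : 0 < κ) (hη₀ : 0 < η₀) (hm : 0 < m) (hR : 0 < R) (hg : 0 < g) (ht : 0 < t)
    (hD : D = 4 * C * b + a₁ + 30 / κ * (1 + 2 * C ^ 2) * b / η₀ +
      8 * R * (1 + 2 * C ^ 2) * b / m + (3 * a₁ + 3) / g + 1) (hDt : D * t ≤ 1) :
    (4 * C * b) * t ≤ 1 ∧ a₁ * t ≤ 1 ∧ 30 / κ * (1 + 2 * C ^ 2) * b * t ≤ η₀ ∧
      8 * R * (1 + 2 * C ^ 2) * b * t ≤ m ∧ (3 * a₁ + 3) * t ≤ g ∧ t ≤ 1 := by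
  obtain ⟨k1, k2, k3, k4, k5, k6⟩ := six_le (p₁ := 4 * C * b) (p₂ := a₁)
    (p₃ := 30 / κ * (1 + 2 * C ^ 2) * b / η₀) (p₄ := 8 * R * (1 + 2 * C ^ 2) * b / m)
    (p₅ := (3 * a₁ + 3) / g) (by positivity) ha (by positivity) (by positivity) (by positivity)
    ht hD hDt
  refine ⟨k1, k2, ?_, ?_, ?_, k6⟩
  · rwa [div_mul_eq_mul_div, div_le_one hη₀] at k3
  · rwa [div_mul_eq_mul_div, div_le_one hm] at k4
  · rwa [div_mul_eq_mul_div, div_le_one hg] at k5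

/-- the final constant -/
theorem fin_const {C b a₁ κ R L m δ ky t q ey η₁ : ℝ} (hC : 1 ≤ C) (hb : 0 ≤ b)
    (hκ : 0 < κ) (hR : 0 < R) (hL : 0 < L) (hm : 0 < m) (hδ : 0 < δ) (hky : 0 < ky)
    (ha₁ : a₁ = 1 + 4 * C ^ 2 * b) (ht : 0 < t) (ht1 : t ≤ 1) (hq : t * t = q)
    (hbq : b * q ≤ 1) (hey : 0 ≤ ey) (hη₁ : 0 ≤ η₁) (hs : ey + η₁ ≤ q) :
    (32 * (1 + 2 * C) ^ 2 * ((1 + 2 * C) * (2 * L + b * q)) ^ 2 * R * (b * q) / (m * δ ^ 2) +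
        2 * Cp κ * (30 / κ + 5) * (1 / t * (1 + 2 * C ^ 2))) *
        ((ey + 2 * (η₁ + 4 * C ^ 2 * (b * q)) + q) / ky) ≤
      (32 * (1 + 2 * C) ^ 2 * ((1 + 2 * C) * (2 * L + 1)) ^ 2 * R / (m * δ ^ 2) +
        2 * Cp κ * (30 / κ + 5) * (1 + 2 * C ^ 2)) * ((2 + 2 * a₁) / ky) * t := by
  have hCp := Cp_pos hκ
  have hq0 : 0 < q := by rw [← hq]; positivity
  obtain ⟨c₁, hc₁⟩ : ∃ c₁ : ℝ,
    c₁ = 32 * (1 + 2 * C) ^ 2 * ((1 + 2 * C) * (2 * L + 1)) ^ 2 * R / (m * δ ^ 2) := ⟨_, rfl⟩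
  obtain ⟨c₂, hc₂⟩ : ∃ c₂ : ℝ, c₂ = 2 * Cp κ * (30 / κ + 5) * (1 + 2 * C ^ 2) := ⟨_, rfl⟩
  have hc₁0 : 0 ≤ c₁ := by rw [hc₁]; positivity
  have hc₂0 : 0 ≤ c₂ := by rw [hc₂]; positivity
  have hbq0 : 0 ≤ b * q := mul_nonneg hb hq0.le
  have hin : (1 + 2 * C) * (2 * L + b * q) ≤ (1 + 2 * C) * (2 * L + 1) :=
    mul_le_mul_of_nonneg_left (by linarith) (by linarith)
  have hin0 : 0 ≤ (1 + 2 * C) * (2 * L + b * q) := mul_nonneg (by linarith) (by linarith)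
  have hsq : ((1 + 2 * C) * (2 * L + b * q)) ^ 2 ≤ ((1 + 2 * C) * (2 * L + 1)) ^ 2 :=
    pow_le_pow_left₀ hin0 hin 2
  have u1 : 32 * (1 + 2 * C) ^ 2 * ((1 + 2 * C) * (2 * L + b * q)) ^ 2 * R * (b * q) /
      (m * δ ^ 2) ≤ c₁ := by
    rw [hc₁]
    refine div_le_div_of_nonneg_right ?_ (by positivity)
    have h1 : 32 * (1 + 2 * C) ^ 2 * ((1 + 2 * C) * (2 * L + b * q)) ^ 2 * R ≤
        32 * (1 + 2 * C) ^ 2 * ((1 + 2 * C) * (2 * L + 1)) ^ 2 * R :=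
      mul_le_mul_of_nonneg_right (mul_le_mul_of_nonneg_left hsq (by positivity)) hR.le
    have h2 : 0 ≤ 32 * (1 + 2 * C) ^ 2 * ((1 + 2 * C) * (2 * L + b * q)) ^ 2 * R := by positivity
    exact (mul_le_of_le_one_right h2 hbq).trans h1
  have u1' : c₁ ≤ c₁ / t := by
    rw [le_div_iff₀ ht]
    exact mul_le_of_le_one_right hc₁0 ht1
  have u2 : 2 * Cp κ * (30 / κ + 5) * (1 / t * (1 + 2 * C ^ 2)) = c₂ / t := by
    rw [hc₂, div_eq_mul_one_div (2 * Cp κ * (30 / κ + 5) * (1 + 2 * C ^ 2)) t]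
    ring
  have u3 : ey + 2 * (η₁ + 4 * C ^ 2 * (b * q)) + q ≤ (2 + 2 * a₁) * q := by
    rw [ha₁]
    have e : (2 + 2 * (1 + 4 * C ^ 2 * b)) * q = 4 * q + 8 * C ^ 2 * (b * q) := by ring
    rw [e]
    linarith
  have u0 : 0 ≤ ey + 2 * (η₁ + 4 * C ^ 2 * (b * q)) + q := by positivity
  rw [u2, ← hc₁, ← hc₂]
  calc _ ≤ (c₁ / t + c₂ / t) * (((2 + 2 * a₁) * q) / ky) := by
        refine mul_le_mul (add_le_add (u1.trans u1') le_rfl)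
          (div_le_div_of_nonneg_right u3 hky.le) (div_nonneg u0 hky.le) (by positivity)
    _ = (c₁ + c₂) * ((2 + 2 * a₁) / ky) * t := by
        rw [← hq]
        have ht' := ht.ne'
        have hk' := hky.ne'
        field_simp

/-- the clean form for one `t = √q` -/
theorem gain_at {νz : Measure ℝ} [IsFiniteMeasure νz] {ρ : ℝ → ℝ} {L R κ η₀ δ m : ℝ}
    (P : PLaw νz ρ L R κ η₀ δ m) {νy : Measure ℝ} {ky ay : ℝ} (hνy : DensGe ky ay νy)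
    (hky : 0 < ky) {X g C b a₁ : ℝ} (hX : 0 ≤ X) (hC : C = 2 + X) (hb : b = 2 * (1 + X + L))
    (ha₁ : a₁ = 1 + 4 * C ^ 2 * b) {t q : ℝ} (ht : 0 < t) (hq : t * t = q)
    (k1 : (4 * C * b) * t ≤ 1) (k2 : a₁ * t ≤ 1) (k3 : 30 / κ * (1 + 2 * C ^ 2) * b * t ≤ η₀)
    (k4 : 8 * R * (1 + 2 * C ^ 2) * b * t ≤ m) (k5 : (3 * a₁ + 3) * t ≤ g) (ht1 : t ≤ 1)
    {E ez ey x₀ η₁ R₁ : ℝ} (hE : |E| ≤ X) (hx₀ : |x₀| ≤ X) (hay : |E + x₀| + g ≤ ay)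
    (hez : 0 < ez) (hez2 : ez ≤ 1 / 2) (hey : 0 < ey) (hη₁ : 0 ≤ η₁) (hs : ey + η₁ ≤ q)
    (hR₁ : 1 / q ≤ R₁) (hR₁2 : 2 ≤ R₁) :
    ∀ h s τ A B : ℂ, 0 ≤ h.im → 0 ≤ s.im → τ.im ^ 2 ≤ h.im * s.im →
      ‖h + τ ^ 2 / (-I - s) - (x₀ : ℂ)‖ ≤ η₁ →
      ∫⁻ t in {t : ℝ | R₁ < ‖(-I - (s + τ ^ 2 / (-I - h))) /
          ((((t - E : ℝ) : ℂ) - (ez : ℂ) * I) - (s + τ ^ 2 / (-I - h)))‖},
        ENNReal.ofReal (‖(((((t - E : ℝ) : ℂ) - (ez : ℂ) * I) - s) * A + B) /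
          ((-I - h) * ((((t - E : ℝ) : ℂ) - (ez : ℂ) * I) - s) - τ ^ 2)‖ ^ 2) ∂νz ≤
      ENNReal.ofReal ((32 * (1 + 2 * C) ^ 2 * ((1 + 2 * C) * (2 * L + b * q)) ^ 2 * R *
          (b * q) / (m * δ ^ 2) + 2 * Cp κ * (30 / κ + 5) * (1 / t * (1 + 2 * C ^ 2))) *
        ((ey + 2 * (η₁ + 4 * C ^ 2 * (b * q)) + q) / ky)) *
      ∫⁻ t, ∫⁻ u, ENNReal.ofReal (‖(((((t - E : ℝ) : ℂ) - (ez : ℂ) * I) - s) * A + B) /
          (((((u - E : ℝ) : ℂ) - (ey : ℂ) * I) - h) *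
            ((((t - E : ℝ) : ℂ) - (ez : ℂ) * I) - s) - τ ^ 2)‖ ^ 2) ∂νy ∂νz := by
  have hL := P.hL
  have hq0 : 0 < q := by rw [← hq]; positivity
  have hC1 : 1 ≤ C := by linarith
  have hb0 : 0 < b := by rw [hb]; linarith
  have ha₁0 : 0 < a₁ := by rw [ha₁]; positivity
  have hqt : q ≤ t := by rw [← hq]; exact mul_le_of_le_one_right ht.le ht1
  have hq1 : q ≤ 1 := hqt.trans ht1
  have hη₁q : η₁ ≤ q := by linarith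
  have heyq : ey ≤ q := by linarith
  have haq : a₁ * q ≤ a₁ * t := mul_le_mul_of_nonneg_left hqt ha₁0.le
  have hηle : η₁ + 4 * C ^ 2 * (b * q) ≤ a₁ * q := by
    have e : a₁ * q = q + 4 * C ^ 2 * (b * q) := by rw [ha₁]; ring
    linarith
  have hK' : (1 : ℝ) ≤ 1 / t := by
    rw [le_div_iff₀ ht]
    linarith
  have e1 : 1 / (1 / t) = t := by rw [one_div_one_div]
  have e2 : 1 / (1 / t) ^ 2 = q := by
    rw [one_div_pow, one_div_one_div, ← hq]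
    ring
  have hKe : (1 / t * (1 + 2 * C ^ 2)) * (b * q) = (1 + 2 * C ^ 2) * b * t := by
    rw [← hq]
    have ht' := ht.ne'
    field_simp
  have s1 : 2 * (1 + |E| + L) ≤ b * q * R₁ := by
    have h1 : 1 ≤ q * R₁ := by
      rw [div_le_iff₀ hq0] at hR₁
      linarith
    have h2 : 2 * (1 + |E| + L) ≤ b := by rw [hb]; linarith
    have h3 : b * 1 ≤ b * (q * R₁) := mul_le_mul_of_nonneg_left h1 hb0.le
    have h4 : b * (q * R₁) = b * q * R₁ := by ring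
    linarith
  have s2 : 4 * C * (b * q) ≤ 1 := by
    have h1 : 4 * C * (b * q) = (4 * C * b) * q := by ring
    have h2 : (4 * C * b) * q ≤ (4 * C * b) * t := mul_le_mul_of_nonneg_left hqt (by positivity)
    linarith
  have s3 : 30 / κ * ((1 / t * (1 + 2 * C ^ 2)) * (b * q)) ≤ η₀ := by
    rw [hKe]
    refine le_trans (le_of_eq ?_) k3
    ring
  have s4 : 8 * (1 / t * (1 + 2 * C ^ 2)) * (b * q) * R ≤ m := by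
    have h1 : 8 * (1 / t * (1 + 2 * C ^ 2)) * (b * q) * R =
        8 * R * ((1 / t * (1 + 2 * C ^ 2)) * (b * q)) := by ring
    rw [h1, hKe]
    refine le_trans (le_of_eq ?_) k4
    ring
  have s5 : |E + x₀| + (η₁ + 4 * C ^ 2 * (b * q)) + 1 / (1 / t) +
      (ey + 2 * (η₁ + 4 * C ^ 2 * (b * q)) + 1 / (1 / t) ^ 2) ≤ ay := by
    rw [e1, e2]
    have h1 : (3 * a₁ + 3) * t = 3 * (a₁ * t) + 3 * t := by ring
    linarith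
  have G := gain_abs P hνy hky (E := E) (ez := ez) (ey := ey) (x₀ := x₀) (η₁ := η₁) (C := C)
    (R₁ := R₁) (K := 1 / t * (1 + 2 * C ^ 2)) (K' := 1 / t) (ε := b * q)
    (η := η₁ + 4 * C ^ 2 * (b * q)) (Lu := (1 + 2 * C) * (2 * L + b * q)) hez hez2 hey
    (by linarith) hR₁2 s1 s2 rfl (by linarith) rfl hK' s3 s4 rfl s5
  rw [e2] at G
  exact G

/-- **the gain on the line of the sink, clean form**: constants depend on the law data only -/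
theorem gain_clean {L R κ η₀ δ m ky ay X g : ℝ} (hL : 0 < L) (hR : 0 < R) (hκ : 0 < κ)
    (hη₀ : 0 < η₀) (hδ : 0 < δ) (hm : 0 < m) (hky : 0 < ky) (hX : 0 ≤ X) (hg : 0 < g) :
    ∃ Cg c₀ : ℝ, 0 < Cg ∧ 0 < c₀ ∧ ∀ (νz νy : Measure ℝ) [IsFiniteMeasure νz] (ρ : ℝ → ℝ),
      PLaw νz ρ L R κ η₀ δ m → DensGe ky ay νy → ∀ E ez ey x₀ η₁ R₁ q : ℝ, |E| ≤ X → |x₀| ≤ X →
      |E + x₀| + g ≤ ay → 0 < ez → ez ≤ 1 / 2 → 0 < ey → 0 ≤ η₁ → ey + η₁ ≤ q → q ≤ c₀ →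
      1 / q ≤ R₁ → 2 ≤ R₁ →
      ∀ h s τ A B : ℂ, 0 ≤ h.im → 0 ≤ s.im → τ.im ^ 2 ≤ h.im * s.im →
      ‖h + τ ^ 2 / (-I - s) - (x₀ : ℂ)‖ ≤ η₁ →
      ∫⁻ t in {t : ℝ | R₁ < ‖(-I - (s + τ ^ 2 / (-I - h))) /
          ((((t - E : ℝ) : ℂ) - (ez : ℂ) * I) - (s + τ ^ 2 / (-I - h)))‖},
        ENNReal.ofReal (‖(((((t - E : ℝ) : ℂ) - (ez : ℂ) * I) - s) * A + B) /
          ((-I - h) * ((((t - E : ℝ) : ℂ) - (ez : ℂ) * I) - s) - τ ^ 2)‖ ^ 2) ∂νz ≤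
      ENNReal.ofReal (Cg * √q) *
      ∫⁻ t, ∫⁻ u, ENNReal.ofReal (‖(((((t - E : ℝ) : ℂ) - (ez : ℂ) * I) - s) * A + B) /
          (((((u - E : ℝ) : ℂ) - (ey : ℂ) * I) - h) *
            ((((t - E : ℝ) : ℂ) - (ez : ℂ) * I) - s) - τ ^ 2)‖ ^ 2) ∂νy ∂νz := by
  obtain ⟨C, hC⟩ : ∃ C : ℝ, C = 2 + X := ⟨_, rfl⟩
  obtain ⟨b, hb⟩ : ∃ b : ℝ, b = 2 * (1 + X + L) := ⟨_, rfl⟩
  have hC1 : 1 ≤ C := by linarith
  have hb0 : 0 < b := by rw [hb]; linarith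
  obtain ⟨a₁, ha₁⟩ : ∃ a₁ : ℝ, a₁ = 1 + 4 * C ^ 2 * b := ⟨_, rfl⟩
  have ha₁0 : 0 < a₁ := by rw [ha₁]; positivity
  obtain ⟨D, hD⟩ : ∃ D : ℝ, D = 4 * C * b + a₁ + 30 / κ * (1 + 2 * C ^ 2) * b / η₀ +
    8 * R * (1 + 2 * C ^ 2) * b / m + (3 * a₁ + 3) / g + 1 := ⟨_, rfl⟩
  have hD0 : 0 < D := by rw [hD]; positivity
  have hCp := Cp_pos hκ
  refine ⟨(32 * (1 + 2 * C) ^ 2 * ((1 + 2 * C) * (2 * L + 1)) ^ 2 * R / (m * δ ^ 2) +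
    2 * Cp κ * (30 / κ + 5) * (1 + 2 * C ^ 2)) * ((2 + 2 * a₁) / ky), (1 / D) ^ 2,
    by positivity, by positivity, ?_⟩
  intro νz νy _ ρ P hνy E ez ey x₀ η₁ R₁ q hE hx₀ hay hez hez2 hey hη₁ hq hqc hR₁ hR₁2
    h s τ A B hh hs hτ hsm
  have hq0 : 0 < q := by linarith
  obtain ⟨t, ht⟩ : ∃ t : ℝ, t = √q := ⟨_, rfl⟩
  have ht0 : 0 < t := by rw [ht]; exact Real.sqrt_pos.2 hq0
  have htt : t * t = q := by rw [ht]; exact Real.mul_self_sqrt hq0.le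
  have htD : t ≤ 1 / D := by
    rw [ht]
    exact Real.sqrt_le_iff.2 ⟨by positivity, hqc⟩
  have hDt : D * t ≤ 1 := by
    rw [le_div_iff₀ hD0] at htD
    linarith
  obtain ⟨k1, k2, k3, k4, k5, k6⟩ := side_all (by linarith) hb0.le ha₁0.le hκ hη₀ hm hR hg ht0
    hD hDt
  have hbq : b * q ≤ 1 := by
    have hqt : q ≤ t := by rw [← htt]; exact mul_le_of_le_one_right ht0.le k6
    have h1 : b * q ≤ b * t := mul_le_mul_of_nonneg_left hqt hb0.le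
    have h2 : b * t ≤ 4 * C * b * t := by
      have h3 : 0 ≤ b * t := by positivity
      have h4 : 4 * C * b * t = (4 * C) * (b * t) := by ring
      rw [h4]
      exact le_mul_of_one_le_left h3 (by linarith)
    linarith
  refine (gain_at P hνy hky hX hC hb ha₁ ht0 htt k1 k2 k3 k4 k5 k6 hE hx₀ hay hez hez2 hey hη₁ hq
    hR₁ hR₁2 h s τ A B hh hs hτ hsm).trans (mul_le_mul' (ENNReal.ofReal_le_ofReal ?_) le_rfl)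
  rw [← ht]
  exact fin_const hC1 hb0.le hκ hR hL hm hδ hky ha₁ ht0 k6 htt hbq hey.le hη₁ hq

end P365T1.Isl
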