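import Vale.Agent.P365.C937.IslD
import Vale.Agent.P365.ISL.Line755

/-!
# P365 T1, ISL (note 18390), step (6): the line inequality `AbsLine` of helper755
-/

set_option linter.all false

namespace P365T1.Isl

open MeasureTheory Set Complex P365T1.ISL P365T1.ISL755
open scoped ENNReal

/-- **`AbsLine` for a port law**: constants depend on the data of the law only -/
theorem absLine_clean {μp : Measure ℝ} [IsFiniteMeasure μp] {ρ : ℝ → ℝ} {L R κ η₀ δ m : ℝ}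
    (P : PLaw μp ρ L R κ η₀ δ m) {ky ay X g E : ℝ} (hky : 0 < ky) (hg : 0 < g) (hE : |E| ≤ X) :
    ∃ Cg c₀ : ℝ, 0 < Cg ∧ 0 < c₀ ∧ ∀ νy : Measure ℝ, DensGe ky ay νy →
      ∀ x₀ ez ey q η₁ R₁ : ℝ, |x₀| ≤ X → |E + x₀| + g ≤ ay → 0 < ez → ez ≤ 1 / 2 → 0 < ey →
      0 ≤ η₁ → ey + η₁ ≤ q → q ≤ c₀ → 1 / q ≤ R₁ →
      AbsLine μp νy E ez ey x₀ η₁ R₁ (ENNReal.ofReal (Cg * √q)) := by
  have hX : 0 ≤ X := (abs_nonneg E).trans hE
  obtain ⟨Cg, c₀, h1, h2, H⟩ := gain_clean (L := L) (R := R) (κ := κ) (η₀ := η₀) (δ := δ) (m := m)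
    (ky := ky) (ay := ay) (X := X) (g := g) P.hL P.hR P.hκ P.hη P.hδ P.hm hky hX hg
  refine ⟨Cg, min c₀ (1 / 2), h1, lt_min h2 (by norm_num), ?_⟩
  intro νy hνy x₀ ez ey q η₁ R₁ hx₀ hay hez hez2 hey hη₁ hq hqc hR₁
  have hq0 : 0 < q := by linarith
  have hq2 : q ≤ 1 / 2 := hqc.trans (min_le_right _ _)
  have hR2 : 2 ≤ R₁ := by
    refine le_trans ?_ hR₁
    rw [le_div_iff₀ hq0]
    linarith
  intro h s τ α β hh hs hτ hsm
  exact H μp νy ρ P hνy E ez ey x₀ η₁ R₁ q hE hx₀ hay hez hez2 hey hη₁ hq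
    (hqc.trans (min_le_left _ _)) hR₁ hR2 h s τ α β hh hs hτ hsm

end P365T1.Isl
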