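import Vale.Agent.P365.C937.SwitchLab

/-!
# P365 T1: label switching with a region which depends on the labels (switch half of NORMAL)

`K l` = region to be switched (it contains every non-good site near `x`), stable under its own
switch.  `∑_{l ∈ S} P(l) E_l Y_x ≤ C^n ∑_{l'} P(l') ∑_{z ∈ K l'} E_{l'} Y_z`, `l' = swf (K l) g l`.
-/

set_option linter.all false

namespace P365T1.Switch

open P365L P365O P365T1 P365T1.OneVar Matrix Complex MeasureTheory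
open scoped ComplexConjugate ENNReal

variable {ι : Type*} [Fintype ι] [DecidableEq ι] {A : Matrix ι ι ℝ} {W : ι → ℂ}
variable {F : Type*} [NormedAddCommGroup F] [NormedSpace ℂ F]
variable {Λ : Type*} [Fintype Λ] [DecidableEq Λ]

omit [Fintype ι] [DecidableEq Λ] [Fintype Λ] in
theorem swf_idem {R : Finset ι} {g : Λ} {l l' : ι → Λ} (h : swf R g l = l') :
    swf R g l' = l' := by
  rw [← h]
  funext x
  by_cases hx : x ∈ R
  · rw [swf_in hx, swf_in hx]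
  · rw [swf_out hx]

/-- the constants -/
theorem sw_const {n c : ℕ} (hcn : c ≤ n) {C0 Kk pg : ℝ} (hC0 : 1 ≤ C0) (hpg : 1 / 2 ≤ pg) :
    2 * ENNReal.ofReal C0 ^ c * ENNReal.ofReal (1 / pg) ^ c * ENNReal.ofReal Kk ^ (c - 1) ≤
      ENNReal.ofReal (2 * (2 * C0 * max 1 Kk) ^ n) := by
  have h1 : ENNReal.ofReal (1 / pg) ≤ ENNReal.ofReal 2 := by
    refine ENNReal.ofReal_le_ofReal ?_
    rw [div_le_iff₀ (by linarith)]
    linarith
  have hm1 : 1 ≤ max 1 Kk := le_max_left _ _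
  have h2 : ENNReal.ofReal Kk ^ (c - 1) ≤ ENNReal.ofReal (max 1 Kk) ^ c := by
    refine (pow_le_pow_left' (ENNReal.ofReal_le_ofReal (le_max_right 1 Kk)) _).trans ?_
    exact pow_le_pow_right₀ (by rw [← ENNReal.ofReal_one]; exact ENNReal.ofReal_le_ofReal hm1)
      (Nat.sub_le _ _)
  calc 2 * ENNReal.ofReal C0 ^ c * ENNReal.ofReal (1 / pg) ^ c * ENNReal.ofReal Kk ^ (c - 1)
      ≤ 2 * ENNReal.ofReal C0 ^ c * ENNReal.ofReal 2 ^ c * ENNReal.ofReal (max 1 Kk) ^ c := by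
        gcongr
    _ = ENNReal.ofReal (2 * (2 * C0 * max 1 Kk) ^ c) := by
        rw [ENNReal.ofReal_mul (by norm_num), ENNReal.ofReal_pow (by positivity),
          ENNReal.ofReal_mul (by positivity), ENNReal.ofReal_mul (by norm_num), mul_pow, mul_pow]
        rw [show ENNReal.ofReal 2 = (2 : ℝ≥0∞) by norm_num]
        ring
    _ ≤ ENNReal.ofReal (2 * (2 * C0 * max 1 Kk) ^ n) := by
        refine ENNReal.ofReal_le_ofReal (mul_le_mul_of_nonneg_left ?_ (by norm_num))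
        refine pow_le_pow_right₀ ?_ hcn
        have h3 : 1 * 1 ≤ (2 * C0) * max 1 Kk := mul_le_mul (by linarith) hm1 (by norm_num)
          (by linarith)
        linarith

/-- switch of all the labels of the fibre of one switched configuration -/
theorem switch_fib (hA : A.IsSymm) (T : (ι → ℂ) →ₗ[ℂ] F) {ν : Λ → Measure ℝ}
    [∀ k, IsProbabilityMeasure (ν k)] {p : Λ → ℝ} (hp : ∀ k, 0 ≤ p k) {E L κ a : ℝ} {D : Λ → ℝ}
    {e : (ι → Λ) → ι → ℝ} (he : ∀ l z, 0 < e l z) {K : Finset ι} {g : Λ} (hg : 1 / 2 ≤ p g)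
    {S : Finset (ι → Λ)} {l' : ι → Λ} (hS : ∀ l ∈ S, swf K g l = l')
    (hloc : ∀ l ∈ S, ∀ z ∉ K, e l z = e l' z)
    {x : ι} (hx : x ∈ K) {n : ℕ} (hn : K.card ≤ n)
    (hD : ∀ k, DensLe (D k) (ν k))
    (hL₁ : ∀ l ∈ S, ∀ z ∈ K, ∀ᵐ u ∂ν (l z), |u - E| + e l z ≤ L)
    (hG : DensGe κ a (ν g)) (hκ : 0 < κ) (ha : 0 < a)
    (hL₀ : ∀ z ∈ K, a + |E| + e l' z ≤ L) {C0 : ℝ} (hC0 : 1 ≤ C0)
    (hB : ∑ b, ENNReal.ofReal (p b) * CuE L (D b) ≤ ENNReal.ofReal C0) :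
    ∑ l ∈ S, ENNReal.ofReal (∏ z, p (l z)) *
        ∫⁻ v, ENNReal.ofReal (Yv A (WV E (e l) v) T x) ∂Measure.pi (fun z => ν (l z)) ≤
      ENNReal.ofReal (2 * (2 * C0 * max 1 (Kd L κ a)) ^ n) *
        (ENNReal.ofReal (∏ z, p (l' z)) *
        ∑ z ∈ K, ∫⁻ v, ENNReal.ofReal (Yv A (WV E (e l') v) T z)
          ∂Measure.pi (fun z => ν (l' z))) := by
  have hg0 : 0 < p g := by linarith
  have him : S.image (swf K g) ⊆ {l'} := by
    intro m hm
    obtain ⟨l, hl, rfl⟩ := Finset.mem_image.1 hm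
    rw [hS l hl]
    exact Finset.mem_singleton_self _
  have h := switch_sum (ν := ν) (p := p) (D := D) hA T hp he (R := K) hg0 (S := S)
    (fun l hl z hz => by rw [hS l hl]; exact hloc l hl z hz) hx (fun l _ k _ => hD (l k)) hL₁ hG hκ
    ha (fun l hl k hk => by rw [hS l hl]; exact hL₀ k hk)
    (B := (∑ b, ENNReal.ofReal (p b) * CuE L (D b)) ^ K.card)
    (fun m _ => inside_le S m)
  refine h.trans (mul_le_mul' ?_ ?_)
  · refine le_trans ?_ (sw_const hn hC0 hg)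
    gcongr
  · refine (Finset.sum_le_sum_of_subset him).trans (le_of_eq ?_)
    rw [Finset.sum_singleton]

/-- **label switching with a label-dependent region** -/
theorem switch_nrm (hA : A.IsSymm) {ν : Λ → Measure ℝ}
    [∀ k, IsProbabilityMeasure (ν k)] {p : Λ → ℝ} (hp : ∀ k, 0 ≤ p k) {E L κ a : ℝ} {D : Λ → ℝ}
    {e : (ι → Λ) → ι → ℝ} (he : ∀ l z, 0 < e l z) {g : Λ} (hg : 1 / 2 ≤ p g)
    {S : Finset (ι → Λ)} (K : (ι → Λ) → Finset ι) (T : (ι → Λ) → (ι → ℂ) →ₗ[ℂ] F)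
    (hK : ∀ l ∈ S, K (swf (K l) g l) = K l) (hT : ∀ l ∈ S, T (swf (K l) g l) = T l)
    (hloc : ∀ l ∈ S, ∀ z ∉ K l, e l z = e (swf (K l) g l) z)
    {x : ι} (hx : ∀ l ∈ S, x ∈ K l) {n : ℕ} (hn : ∀ l ∈ S, (K l).card ≤ n)
    (hD : ∀ k, DensLe (D k) (ν k))
    (hL₁ : ∀ l ∈ S, ∀ z ∈ K l, ∀ᵐ u ∂ν (l z), |u - E| + e l z ≤ L)
    (hG : DensGe κ a (ν g)) (hκ : 0 < κ) (ha : 0 < a)
    (hL₀ : ∀ l ∈ S, ∀ z ∈ K l, a + |E| + e (swf (K l) g l) z ≤ L) {C0 : ℝ} (hC0 : 1 ≤ C0)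
    (hB : ∑ b, ENNReal.ofReal (p b) * CuE L (D b) ≤ ENNReal.ofReal C0) :
    ∑ l ∈ S, ENNReal.ofReal (∏ z, p (l z)) *
        ∫⁻ v, ENNReal.ofReal (Yv A (WV E (e l) v) (T l) x) ∂Measure.pi (fun z => ν (l z)) ≤
      ENNReal.ofReal (2 * (2 * C0 * max 1 (Kd L κ a)) ^ n) *
        ∑ l' ∈ S.image (fun l => swf (K l) g l), ENNReal.ofReal (∏ z, p (l' z)) *
        ∑ z ∈ K l', ∫⁻ v, ENNReal.ofReal (Yv A (WV E (e l') v) (T l') z)
          ∂Measure.pi (fun z => ν (l' z)) := by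
  rw [← Finset.sum_fiberwise_of_maps_to (g := fun l => swf (K l) g l)
    (t := S.image (fun l => swf (K l) g l)) (fun l hl => Finset.mem_image_of_mem _ hl),
    Finset.mul_sum]
  refine Finset.sum_le_sum fun l' hl' => ?_
  obtain ⟨l₀, hl₀, hl₀'⟩ := Finset.mem_image.1 hl'
  have hl₀'' : swf (K l₀) g l₀ = l' := hl₀'
  have key : ∀ l ∈ S.filter (fun l => swf (K l) g l = l'), l ∈ S ∧ swf (K l') g l = l' ∧
      K l = K l' ∧ T l = T l' := by
    intro l hl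
    have h1 := (Finset.mem_filter.1 hl).1
    have h2 := (Finset.mem_filter.1 hl).2
    have h3 := hK l h1
    have h4 := hT l h1
    rw [h2] at h3 h4
    exact ⟨h1, by rw [h3]; exact h2, h3.symm, h4.symm⟩
  have hK' : K l' = K l₀ := by
    have := hK l₀ hl₀
    rwa [hl₀''] at this
  have hfib := switch_fib (ν := ν) (p := p) (D := D) hA (T l') hp he (K := K l') hg
    (S := S.filter (fun l => swf (K l) g l = l')) (l' := l') (fun l hl => (key l hl).2.1)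
    (fun l hl z hz => by
      have h5 := hloc l (key l hl).1 z (by rw [(key l hl).2.2.1]; exact hz)
      rwa [(key l hl).2.2.1, (key l hl).2.1] at h5)
    (x := x) (by rw [hK']; exact hx l₀ hl₀) (n := n) (by rw [hK']; exact hn l₀ hl₀) hD
    (fun l hl z hz => hL₁ l (key l hl).1 z (by rw [(key l hl).2.2.1]; exact hz)) hG hκ ha
    (fun z hz => by
      have h6 := hL₀ l₀ hl₀ z (by rw [← hK']; exact hz)
      rwa [hl₀''] at h6) hC0 hB
  refine le_trans (le_of_eq ?_) hfib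
  refine Finset.sum_congr rfl fun l hl => ?_
  rw [(key l hl).2.2.2]

end P365T1.Switch
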