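import Vale.Agent.P365.C937.Trap

/-!
# P365 T1, shield steps (2) and (4): separable resolvent and weighted Neumann windows

* `sep_resolvent`: resolvent of `H₁ ⊗ 1 + 1 ⊗ H₂`;
* `window`: stability of an inverse with (exponentially) decaying entries under a small diagonal
  perturbation.
-/

open Matrix

namespace Vale.Agent.P365.C937

section Sep

variable {ι κ : Type*} [Fintype ι] [DecidableEq ι] [Fintype κ] [DecidableEq κ]

/-- the separable operator `H₁ ⊗ 1 + 1 ⊗ H₂` -/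
def sepM (H₁ : Matrix ι ι ℝ) (H₂ : Matrix κ κ ℝ) : Matrix (ι × κ) (ι × κ) ℝ :=
  fun p q => H₁ p.1 q.1 * (if p.2 = q.2 then 1 else 0) + (if p.1 = q.1 then 1 else 0) * H₂ p.2 q.2

omit [DecidableEq ι] [DecidableEq κ] in
theorem sum_prod_mul (f : ι → ℝ) (g : κ → ℝ) :
    ∑ z : ι × κ, f z.1 * g z.2 = (∑ x, f x) * ∑ y, g y := by
  rw [Fintype.sum_prod_type, Finset.sum_mul_sum]

theorem sep_mul {H₁ : Matrix ι ι ℝ} (hH : H₁.IsHermitian) {H₂ : Matrix κ κ ℝ} {E : ℝ}
    (h : ∀ j, IsUnit (H₂ - (E - hH.eigenvalues j) • (1 : Matrix κ κ ℝ))) :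
    (sepM H₁ H₂ - E • (1 : Matrix (ι × κ) (ι × κ) ℝ)) *
      (Matrix.of fun p q => ∑ j, ev hH j p.1 * ev hH j q.1 *
        (H₂ - (E - hH.eigenvalues j) • (1 : Matrix κ κ ℝ))⁻¹ p.2 q.2) = 1 := by
  ext p b
  rw [mul_apply, one_apply]
  set G : ι → Matrix κ κ ℝ := fun j => (H₂ - (E - hH.eigenvalues j) • (1 : Matrix κ κ ℝ))⁻¹
    with hG
  have hGj : ∀ j x y, ∑ z, H₂ x z * G j z y
      = (if x = y then 1 else 0) + (E - hH.eigenvalues j) * G j x y := by
    intro j x y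
    have h1 : (H₂ - (E - hH.eigenvalues j) • (1 : Matrix κ κ ℝ)) * G j = 1 :=
      mul_nonsing_inv _ ((isUnit_iff_isUnit_det _).mp (h j))
    have h2 := congrFun (congrFun h1 x) y
    rw [sub_mul, Matrix.sub_apply, mul_apply, one_apply, smul_mul, one_mul, Matrix.smul_apply,
      smul_eq_mul] at h2
    linarith
  have hEj : ∀ j x, ∑ z, H₁ x z * ev hH j z = hH.eigenvalues j * ev hH j x := by
    intro j x
    have := congrFun (mulVec_ev hH j) x
    simpa only [mulVec, dotProduct, Pi.smul_apply, smul_eq_mul] using this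
  have hj : ∀ j, ∑ z : ι × κ, (sepM H₁ H₂ - E • (1 : Matrix (ι × κ) (ι × κ) ℝ)) p z *
      (ev hH j z.1 * G j z.2 b.2) = ev hH j p.1 * (if p.2 = b.2 then 1 else 0) := by
    intro j
    have e1 : ∀ z : ι × κ, (sepM H₁ H₂ - E • (1 : Matrix (ι × κ) (ι × κ) ℝ)) p z *
        (ev hH j z.1 * G j z.2 b.2)
        = (H₁ p.1 z.1 * ev hH j z.1) * ((if p.2 = z.2 then 1 else 0) * G j z.2 b.2)
          + ((if p.1 = z.1 then 1 else 0) * ev hH j z.1) * (H₂ p.2 z.2 * G j z.2 b.2)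
          - E * (((if p.1 = z.1 then 1 else 0) * ev hH j z.1)
              * ((if p.2 = z.2 then 1 else 0) * G j z.2 b.2)) := by
      intro z
      rw [Matrix.sub_apply, Matrix.smul_apply, smul_eq_mul, one_apply, sepM]
      have : (if p = z then (1 : ℝ) else 0)
          = (if p.1 = z.1 then 1 else 0) * (if p.2 = z.2 then 1 else 0) := by
        by_cases h1 : p.1 = z.1 <;> by_cases h2 : p.2 = z.2 <;> simp [Prod.ext_iff, h1, h2]
      rw [this]
      ring
    simp_rw [e1]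
    rw [Finset.sum_sub_distrib, Finset.sum_add_distrib, ← Finset.mul_sum]
    have s1 : ∑ z : ι × κ, (H₁ p.1 z.1 * ev hH j z.1)
        * ((if p.2 = z.2 then 1 else 0) * G j z.2 b.2)
        = hH.eigenvalues j * ev hH j p.1 * G j p.2 b.2 := by
      refine (sum_prod_mul (fun x => H₁ p.1 x * ev hH j x)
        (fun y => (if p.2 = y then 1 else 0) * G j y b.2)).trans ?_
      rw [hEj]
      simp
    have s2 : ∑ z : ι × κ, ((if p.1 = z.1 then 1 else 0) * ev hH j z.1)
        * (H₂ p.2 z.2 * G j z.2 b.2)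
        = ev hH j p.1 * ((if p.2 = b.2 then 1 else 0)
            + (E - hH.eigenvalues j) * G j p.2 b.2) := by
      refine (sum_prod_mul (fun x => (if p.1 = x then 1 else 0) * ev hH j x)
        (fun y => H₂ p.2 y * G j y b.2)).trans ?_
      rw [hGj]
      simp
    have s3 : ∑ z : ι × κ, (((if p.1 = z.1 then (1 : ℝ) else 0) * ev hH j z.1)
        * ((if p.2 = z.2 then 1 else 0) * G j z.2 b.2))
        = ev hH j p.1 * G j p.2 b.2 := by
      refine (sum_prod_mul (fun x => (if p.1 = x then 1 else 0) * ev hH j x)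
        (fun y => (if p.2 = y then 1 else 0) * G j y b.2)).trans ?_
      simp
    rw [s1, s2, s3]
    ring
  calc ∑ z, (sepM H₁ H₂ - E • (1 : Matrix (ι × κ) (ι × κ) ℝ)) p z *
        (Matrix.of fun p q => ∑ j, ev hH j p.1 * ev hH j q.1 * G j p.2 q.2) z b
      = ∑ z, ∑ j, (sepM H₁ H₂ - E • (1 : Matrix (ι × κ) (ι × κ) ℝ)) p z *
          (ev hH j z.1 * G j z.2 b.2) * ev hH j b.1 := by
        refine Finset.sum_congr rfl fun z _ => ?_
        rw [of_apply, Finset.mul_sum]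
        exact Finset.sum_congr rfl fun j _ => by ring
    _ = ∑ j, (ev hH j p.1 * (if p.2 = b.2 then 1 else 0)) * ev hH j b.1 := by
        rw [Finset.sum_comm]
        exact Finset.sum_congr rfl fun j _ => by rw [← Finset.sum_mul, hj j]
    _ = (∑ j, ev hH j p.1 * ev hH j b.1) * (if p.2 = b.2 then 1 else 0) := by
        rw [Finset.sum_mul]
        exact Finset.sum_congr rfl fun j _ => by ring
    _ = if p = b then 1 else 0 := by
        rw [sum_ev']
        by_cases h1 : p.1 = b.1 <;> by_cases h2 : p.2 = b.2 <;> simp [Prod.ext_iff, h1, h2]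

/-- **Separable resolvent.** -/
theorem sep_resolvent {H₁ : Matrix ι ι ℝ} (hH : H₁.IsHermitian) {H₂ : Matrix κ κ ℝ} {E : ℝ}
    (h : ∀ j, IsUnit (H₂ - (E - hH.eigenvalues j) • (1 : Matrix κ κ ℝ))) :
    IsUnit (sepM H₁ H₂ - E • (1 : Matrix (ι × κ) (ι × κ) ℝ)) ∧
    ∀ p q, (sepM H₁ H₂ - E • (1 : Matrix (ι × κ) (ι × κ) ℝ))⁻¹ p q
      = ∑ j, ev hH j p.1 * ev hH j q.1 *
        (H₂ - (E - hH.eigenvalues j) • (1 : Matrix κ κ ℝ))⁻¹ p.2 q.2 :=
  ⟨IsUnit.of_mul_eq_one _ (sep_mul hH h), fun p q => by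
    rw [inv_eq_right_inv (sep_mul hH h), of_apply]⟩

theorem abs_ev_le {H₁ : Matrix ι ι ℝ} (hH : H₁.IsHermitian) (j x : ι) : |ev hH j x| ≤ 1 := by
  have h1 := sum_ev hH j j
  rw [if_pos rfl] at h1
  have h2 : ev hH j x * ev hH j x ≤ 1 := by
    rw [← h1]
    exact Finset.single_le_sum (f := fun x => ev hH j x * ev hH j x)
      (fun y _ => mul_self_nonneg _) (Finset.mem_univ x)
  have h3 : |ev hH j x| * |ev hH j x| ≤ 1 := by rwa [abs_mul_abs_self]
  nlinarith [abs_nonneg (ev hH j x)]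

/-- the entries of the separable resolvent are at most the sum over the eigenvalues -/
theorem sep_abs_le {H₁ : Matrix ι ι ℝ} (hH : H₁.IsHermitian) {H₂ : Matrix κ κ ℝ} {E : ℝ}
    (h : ∀ j, IsUnit (H₂ - (E - hH.eigenvalues j) • (1 : Matrix κ κ ℝ))) (p q : ι × κ) :
    |(sepM H₁ H₂ - E • (1 : Matrix (ι × κ) (ι × κ) ℝ))⁻¹ p q|
      ≤ ∑ j, |(H₂ - (E - hH.eigenvalues j) • (1 : Matrix κ κ ℝ))⁻¹ p.2 q.2| := by
  rw [(sep_resolvent hH h).2]
  refine (Finset.abs_sum_le_sum_abs _ _).trans (Finset.sum_le_sum fun j _ => ?_)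
  rw [abs_mul, abs_mul]
  have h1 := abs_ev_le hH j p.1
  have h2 := abs_ev_le hH j q.1
  calc |ev hH j p.1| * |ev hH j q.1| * |(H₂ - (E - hH.eigenvalues j) • (1 : Matrix κ κ ℝ))⁻¹
        p.2 q.2| ≤ 1 * 1 * |(H₂ - (E - hH.eigenvalues j) • (1 : Matrix κ κ ℝ))⁻¹ p.2 q.2| := by
        gcongr
    _ = _ := by ring

end Sep

section Window

variable {ι : Type*} [Fintype ι] [DecidableEq ι] {F : Type*} [NormedField F]

/-- **Windows.** An inverse with entries `≤ C₀ w x b`, `w` sub-multiplicative and `≤ 1`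
(e.g. `w x b = exp (-c d(x,b))`), is stable under diagonal perturbations of size
`u ≤ 1 / (2 n C₀)`. -/
theorem window {M : Matrix ι ι F} (hM : IsUnit M) {w : ι → ι → ℝ} (hw0 : ∀ x b, 0 < w x b)
    (hw1 : ∀ x b, w x b ≤ 1) (hw : ∀ x z b, w x z * w z b ≤ w x b) {C₀ u : ℝ} (hC : 0 < C₀)
    (hu : 0 ≤ u) (hB : ∀ x b, ‖M⁻¹ x b‖ ≤ C₀ * w x b) {U : ι → F} (hU : ∀ x, ‖U x‖ ≤ u)
    (hsmall : Fintype.card ι * (C₀ * u) ≤ 1 / 2) :
    IsUnit (M + diagonal U) ∧ ∀ x b, ‖(M + diagonal U)⁻¹ x b‖ ≤ 2 * C₀ * w x b := by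
  have hdet := (isUnit_iff_isUnit_det _).mp hM
  have hBM : M⁻¹ * M = 1 := nonsing_inv_mul _ hdet
  -- injectivity
  have hinj : ∀ v : ι → F, (M + diagonal U) *ᵥ v = 0 → v = 0 := by
    intro v hv
    have h1 : v = - (M⁻¹ *ᵥ (fun x => U x * v x)) := by
      have h2 : M⁻¹ *ᵥ ((M + diagonal U) *ᵥ v) = 0 := by rw [hv, mulVec_zero]
      rw [add_mulVec, mulVec_add, mulVec_mulVec, hBM, one_mulVec] at h2
      have h3 : diagonal U *ᵥ v = fun x => U x * v x := by
        ext x; rw [mulVec_diagonal]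
      rw [h3] at h2
      exact eq_neg_of_add_eq_zero_left h2
    by_contra hv0
    obtain ⟨x0, hx0⟩ := Function.ne_iff.mp hv0
    obtain ⟨x, -, hx⟩ := Finset.exists_max_image Finset.univ (fun x => ‖v x‖)
      ⟨x0, Finset.mem_univ _⟩
    have hpos : 0 < ‖v x‖ := lt_of_lt_of_le (norm_pos_iff.mpr hx0) (hx x0 (Finset.mem_univ _))
    have h4 : ‖v x‖ ≤ ‖v x‖ / 2 := by
      calc ‖v x‖ = ‖∑ z, M⁻¹ x z * (U z * v z)‖ := by
            conv_lhs => rw [h1]
            rw [Pi.neg_apply, norm_neg]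
            rfl
        _ ≤ ∑ z, ‖M⁻¹ x z * (U z * v z)‖ := norm_sum_le _ _
        _ ≤ ∑ _z : ι, C₀ * (u * ‖v x‖) := by
            refine Finset.sum_le_sum fun z _ => ?_
            rw [norm_mul, norm_mul]
            have e1 : ‖M⁻¹ x z‖ ≤ C₀ := by
              calc _ ≤ C₀ * w x z := hB x z
                _ ≤ C₀ * 1 := by gcongr; exact hw1 x z
                _ = C₀ := mul_one _
            have e2 := hU z
            have e3 := hx z (Finset.mem_univ _)
            gcongr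
        _ = Fintype.card ι * (C₀ * u) * ‖v x‖ := by
            rw [Finset.sum_const, Finset.card_univ, nsmul_eq_mul]; ring
        _ ≤ 1 / 2 * ‖v x‖ := by gcongr
        _ = _ := by ring
    linarith
  have hunit : IsUnit (M + diagonal U) := by
    rw [← mulVec_injective_iff_isUnit]
    intro v v' hvv
    have : (M + diagonal U) *ᵥ (v - v') = 0 := by
      rw [mulVec_sub]; exact sub_eq_zero.mpr hvv
    exact sub_eq_zero.mp (hinj _ this)
  refine ⟨hunit, ?_⟩
  set G := (M + diagonal U)⁻¹ with hG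
  have hMG : (M + diagonal U) * G = 1 :=
    mul_nonsing_inv _ ((isUnit_iff_isUnit_det _).mp hunit)
  have hres : ∀ x b, G x b = M⁻¹ x b - ∑ z, M⁻¹ x z * (U z * G z b) := by
    intro x b
    have h1 : M⁻¹ * ((M + diagonal U) * G) = M⁻¹ := by rw [hMG, mul_one]
    rw [add_mul, mul_add, ← mul_assoc, hBM, one_mul] at h1
    have h2 := congrFun (congrFun h1 x) b
    rw [Matrix.add_apply, mul_apply] at h2
    simp_rw [diagonal_mul] at h2
    rw [← h2]; ring
  -- a priori bound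
  by_cases hne : Nonempty ι
  swap
  · intro x; exact absurd ⟨x⟩ hne
  obtain ⟨p, -, hp⟩ := Finset.exists_max_image (Finset.univ : Finset (ι × ι))
    (fun p => ‖G p.1 p.2‖ / w p.1 p.2) ⟨(hne.some, hne.some), Finset.mem_univ _⟩
  set S := ‖G p.1 p.2‖ / w p.1 p.2 with hS
  have hS0 : 0 ≤ S := div_nonneg (norm_nonneg _) (hw0 _ _).le
  have hGS : ∀ x b, ‖G x b‖ ≤ S * w x b := by
    intro x b
    have := hp (x, b) (Finset.mem_univ _)
    rwa [div_le_iff₀ (hw0 x b)] at this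
  have hbound : ‖G p.1 p.2‖ ≤ (C₀ + S / 2) * w p.1 p.2 := by
    rw [hres]
    calc ‖M⁻¹ p.1 p.2 - ∑ z, M⁻¹ p.1 z * (U z * G z p.2)‖
        ≤ ‖M⁻¹ p.1 p.2‖ + ‖∑ z, M⁻¹ p.1 z * (U z * G z p.2)‖ := norm_sub_le _ _
      _ ≤ C₀ * w p.1 p.2 + ∑ z, ‖M⁻¹ p.1 z * (U z * G z p.2)‖ := by
          gcongr
          · exact hB _ _
          · exact norm_sum_le _ _
      _ ≤ C₀ * w p.1 p.2 + ∑ _z : ι, C₀ * u * S * w p.1 p.2 := by
          gcongr with z _
          rw [norm_mul, norm_mul]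
          calc ‖M⁻¹ p.1 z‖ * (‖U z‖ * ‖G z p.2‖)
              ≤ (C₀ * w p.1 z) * (u * (S * w z p.2)) := by
                have e1 := hB p.1 z
                have e2 := hU z
                have e3 := hGS z p.2
                have e4 := (hw0 p.1 z).le
                gcongr
            _ = C₀ * u * S * (w p.1 z * w z p.2) := by ring
            _ ≤ C₀ * u * S * w p.1 p.2 := by
                gcongr
                exact hw _ _ _
      _ = (C₀ + Fintype.card ι * (C₀ * u) * S) * w p.1 p.2 := by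
          rw [Finset.sum_const, Finset.card_univ, nsmul_eq_mul]; ring
      _ ≤ (C₀ + 1 / 2 * S) * w p.1 p.2 := by
          have e5 := (hw0 p.1 p.2).le
          gcongr
      _ = _ := by ring
  have hS2 : S ≤ 2 * C₀ := by
    have h1 : S ≤ C₀ + S / 2 := by
      rw [hS, div_le_iff₀ (hw0 _ _)]
      rw [← hS]
      exact hbound
    linarith
  intro x b
  calc ‖G x b‖ ≤ S * w x b := hGS x b
    _ ≤ 2 * C₀ * w x b := by
        have := (hw0 x b).le
        gcongr

end Window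

end Vale.Agent.P365.C937
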