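import Vale.Agent.P365.T1.OneVar
import Vale.Agent.P365.T1.Defs

/-!
# P365 T1: label switching at one site (note 18109 of helper185)

`GV A W Λ x = Λ (G_x·)` for an arbitrary linear map `Λ`; `W k = -i` is the reference value.
* (up) from any law with density at most `D` at `k` to the reference value;
* (down) from the reference value to any law with density at least `κ` on `[-a, a]`.
-/

set_option linter.all false

namespace P365T1.Switch

open P365L P365O P365T1 P365T1.OneVar Matrix Complex MeasureTheory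
open scoped ComplexConjugate ENNReal

variable {ι : Type*} [Fintype ι] [DecidableEq ι] {A : Matrix ι ι ℝ} {W : ι → ℂ}
variable {F : Type*} [NormedAddCommGroup F] [NormedSpace ℂ F]

/-- far energy of `x` -/
noncomputable def MV (A : Matrix ι ι ℝ) (W : ι → ℂ) (Λ : (ι → ℂ) →ₗ[ℂ] F) (x : ι) : ℝ≥0∞ :=
  ENNReal.ofReal (‖GV A W Λ x‖ ^ 2)

theorem one_le_norm {s : ℂ} (hs : 0 ≤ s.im) : 1 + ‖s‖ ^ 2 ≤ ‖-I - s‖ ^ 2 := by
  rw [← Complex.normSq_eq_norm_sq, ← Complex.normSq_eq_norm_sq, Complex.normSq_apply,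
    Complex.normSq_apply]
  simp
  nlinarith

theorem ref_ne {s : ℂ} (hs : 0 ≤ s.im) : -I - s ≠ 0 := by
  intro h
  have := one_le_norm hs
  rw [h, norm_zero] at this
  nlinarith [sq_nonneg ‖s‖]

theorem negI_im : ((-I : ℂ)).im < 0 := by simp

/-- `MV` at the reference value is at most the off-resonant energy -/
theorem MV_ref_le (hA : A.IsSymm) (hW : ∀ x, (W x).im < 0) (Λ : (ι → ℂ) →ₗ[ℂ] F) (z : ι) :
    MV A (Function.update W z (-I)) Λ z ≤ ENNReal.ofReal (Yv A W Λ z) := by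
  rw [MV, GV_update_self hA hW Λ negI_im, norm_smul, norm_inv, mul_pow, inv_pow, Yv]
  refine ENNReal.ofReal_le_ofReal ?_
  have hs := sg_im_nonneg hA hW z
  have h1 := one_le_norm hs
  rw [← div_eq_inv_mul]
  exact div_le_div_of_nonneg_left (sq_nonneg _) (by positivity) h1

theorem Yv_le_MV (hA : A.IsSymm) (hW : ∀ x, (W x).im < 0) (Λ : (ι → ℂ) →ₗ[ℂ] F) (z : ι) :
    ENNReal.ofReal (Yv A W Λ z) ≤ 2 * MV A (Function.update W z (-I)) Λ z := by
  have h := Yv_le hA hW Λ z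
  rw [MV, show (2 : ℝ≥0∞) = ENNReal.ofReal 2 by simp, ← ENNReal.ofReal_mul (by norm_num)]
  exact ENNReal.ofReal_le_ofReal h

/-- the value at `ζ` in terms of the reference value -/
theorem GV_switch (hA : A.IsSymm) (hW : ∀ x, (W x).im < 0) (Λ : (ι → ℂ) →ₗ[ℂ] F) (k z : ι)
    {ζ : ℂ} (hζ : ζ.im < 0) :
    GV A (Function.update W k ζ) Λ z = GV A (Function.update W k (-I)) Λ z -
      (gw A W k z * (ζ + I) / (ζ - sg A W k)) • GV A (Function.update W k (-I)) Λ k := by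
  have hs := sg_im_nonneg hA hW k
  have h0 := ref_ne hs
  have h1 : ζ - sg A W k ≠ 0 := by
    intro h
    have := congrArg Complex.im h
    rw [Complex.sub_im, Complex.zero_im] at this
    linarith
  rw [GV_update hA hW Λ hζ, GV_update hA hW Λ negI_im, GV_update_self hA hW Λ negI_im, smul_smul,
    add_sub_assoc, ← sub_smul]
  congr 2
  field_simp
  ring

/-- **up step, pointwise** -/
theorem up_pt (hA : A.IsSymm) (hW : ∀ x, (W x).im < 0) (Λ : (ι → ℂ) →ₗ[ℂ] F) {k z : ι}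
    (hkz : k ≠ z) (hWz : (W z).im = -1) {ζ : ℂ} (hζ : ζ.im < 0) {L : ℝ} (hL : ‖ζ‖ ≤ L) :
    ‖GV A (Function.update W k ζ) Λ z‖ ^ 2 ≤
      2 * ‖GV A (Function.update W k (-I)) Λ z‖ ^ 2 +
      (2 * (L + 1) ^ 2 * ‖GV A (Function.update W k (-I)) Λ k‖ ^ 2) *
        ((sg A W k).im / ‖ζ - sg A W k‖ ^ 2) := by
  rw [GV_switch hA hW Λ k z hζ]
  set X := GV A (Function.update W k (-I)) Λ z
  set Y := GV A (Function.update W k (-I)) Λ k
  set s := sg A W k with hs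
  have hg : ‖gw A W k z‖ ^ 2 ≤ s.im := by
    have h1 : (-(W k).im) * ‖gw A W k k‖ ^ 2 + (-(W z).im) * ‖gw A W k z‖ ^ 2 ≤ Sf A W k := by
      rw [← Finset.sum_pair hkz (f := fun a => (-(W a).im) * ‖gw A W k a‖ ^ 2)]
      exact Finset.sum_le_sum_of_subset_of_nonneg (Finset.subset_univ _)
        fun a _ _ => mul_nonneg (by linarith [hW a]) (sq_nonneg _)
    rw [gw_self hA hW, norm_one, hWz] at h1
    rw [hs, sg_im hA hW]
    linarith
  have h2 : ‖X - (gw A W k z * (ζ + I) / (ζ - s)) • Y‖ ^ 2 ≤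
      2 * ‖X‖ ^ 2 + 2 * ‖(gw A W k z * (ζ + I) / (ζ - s)) • Y‖ ^ 2 := by
    have h3 := norm_sub_le X ((gw A W k z * (ζ + I) / (ζ - s)) • Y)
    have h4 := pow_le_pow_left₀ (norm_nonneg _) h3 2
    nlinarith [sq_nonneg (‖X‖ - ‖(gw A W k z * (ζ + I) / (ζ - s)) • Y‖)]
  refine h2.trans ?_
  have h5 : ‖(gw A W k z * (ζ + I) / (ζ - s)) • Y‖ ^ 2 =
      ‖gw A W k z‖ ^ 2 * ‖ζ + I‖ ^ 2 / ‖ζ - s‖ ^ 2 * ‖Y‖ ^ 2 := by
    rw [norm_smul, norm_div, norm_mul]
    ring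
  have h6 : ‖ζ + I‖ ^ 2 ≤ (L + 1) ^ 2 := by
    refine pow_le_pow_left₀ (norm_nonneg _) ?_ 2
    refine (norm_add_le _ _).trans ?_
    rw [norm_I]
    linarith
  have h7 : ‖gw A W k z‖ ^ 2 * ‖ζ + I‖ ^ 2 / ‖ζ - s‖ ^ 2 * ‖Y‖ ^ 2 ≤
      s.im * (L + 1) ^ 2 / ‖ζ - s‖ ^ 2 * ‖Y‖ ^ 2 := by
    gcongr
    exact (sq_nonneg _).trans hg
  rw [h5]
  have h8 : s.im * (L + 1) ^ 2 / ‖ζ - s‖ ^ 2 * ‖Y‖ ^ 2 =
      (L + 1) ^ 2 * ‖Y‖ ^ 2 * (s.im / ‖ζ - s‖ ^ 2) := by ring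
  rw [h8] at h7
  linarith

/-- Cauchy kernel against a law with bounded density -/
theorem cauchy_le {ν : Measure ℝ} {D : ℝ} (hD : DensLe D ν) {t : ℝ} (ht : 0 < t) {s : ℂ}
    (hs : 0 ≤ s.im) (E : ℝ) :
    ∫⁻ u, ENNReal.ofReal (s.im / ‖(((u - E : ℝ) : ℂ) - (t : ℂ) * I) - s‖ ^ 2) ∂ν ≤
      ENNReal.ofReal (Real.pi * D) := by
  set p : ℝ := E + s.re with hp
  set q : ℝ := t + s.im with hq
  have hq0 : 0 < q := by linarith
  have h1 : ∀ u : ℝ, s.im / ‖(((u - E : ℝ) : ℂ) - (t : ℂ) * I) - s‖ ^ 2 ≤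
      q⁻¹ * (1 + ((u - p) / q) ^ 2)⁻¹ := by
    intro u
    have h2 : ‖(((u - E : ℝ) : ℂ) - (t : ℂ) * I) - s‖ ^ 2 = (u - p) ^ 2 + q ^ 2 := by
      rw [← Complex.normSq_eq_norm_sq, Complex.normSq_apply]
      simp [hp, hq]
      ring
    rw [h2]
    have h3 : q⁻¹ * (1 + ((u - p) / q) ^ 2)⁻¹ = q / ((u - p) ^ 2 + q ^ 2) := by
      field_simp
      ring
    rw [h3]
    gcongr
    linarith
  have hI : Integrable fun u : ℝ => q⁻¹ * (1 + ((u - p) / q) ^ 2)⁻¹ := by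
    have h4 := (integrable_inv_one_add_sq.comp_div hq0.ne').comp_sub_right p
    exact h4.const_mul _
  have hval : ∫ u : ℝ, q⁻¹ * (1 + ((u - p) / q) ^ 2)⁻¹ = Real.pi := by
    rw [integral_const_mul, integral_sub_right_eq_self (fun u : ℝ => (1 + (u / q) ^ 2)⁻¹) p,
      Measure.integral_comp_div (fun u : ℝ => (1 + u ^ 2)⁻¹) q, integral_univ_inv_one_add_sq,
      smul_eq_mul, abs_of_pos hq0]
    field_simp
  calc ∫⁻ u, ENNReal.ofReal (s.im / ‖(((u - E : ℝ) : ℂ) - (t : ℂ) * I) - s‖ ^ 2) ∂ν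
      ≤ ∫⁻ u, ENNReal.ofReal (q⁻¹ * (1 + ((u - p) / q) ^ 2)⁻¹) ∂ν :=
        lintegral_mono fun u => ENNReal.ofReal_le_ofReal (h1 u)
    _ ≤ ∫⁻ u, ENNReal.ofReal (q⁻¹ * (1 + ((u - p) / q) ^ 2)⁻¹)
          ∂(ENNReal.ofReal D • (volume : Measure ℝ)) := lintegral_mono' hD le_rfl
    _ = ENNReal.ofReal D * ENNReal.ofReal Real.pi := by
        rw [lintegral_smul_measure, smul_eq_mul, ← hval,
          ofReal_integral_eq_lintegral_ofReal hI (Filter.Eventually.of_forall fun u => by positivity)]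
    _ = ENNReal.ofReal (Real.pi * D) := by
        rw [mul_comm, ← ENNReal.ofReal_mul Real.pi_pos.le]

theorem zeta_im {t : ℝ} (ht : 0 < t) (u E : ℝ) :
    ((((u - E : ℝ) : ℂ) - (t : ℂ) * I)).im < 0 := by
  simpa using ht

theorem zeta_norm {t u E L : ℝ} (ht : 0 < t) (h : |u - E| + t ≤ L) :
    ‖(((u - E : ℝ) : ℂ) - (t : ℂ) * I)‖ ≤ L := by
  refine (norm_sub_le _ _).trans ?_
  rw [norm_mul, norm_I, mul_one, Complex.norm_real, Complex.norm_real, Real.norm_eq_abs,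
    Real.norm_eq_abs, abs_of_pos ht]
  exact h

/-- constant of the up step -/
noncomputable def Cu (L D : ℝ) : ℝ := 2 + 2 * Real.pi * D * (L + 1) ^ 2

/-- **up step** -/
theorem up_int (hA : A.IsSymm) (hW : ∀ x, (W x).im < 0) (Λ : (ι → ℂ) →ₗ[ℂ] F) {k z : ι}
    (hkz : k ≠ z) (hWz : (W z).im = -1) {ν : Measure ℝ} [IsProbabilityMeasure ν] {D E t L : ℝ}
    (hD : DensLe D ν) (ht : 0 < t) (hL : ∀ᵐ u ∂ν, |u - E| + t ≤ L) :
    ∫⁻ u, MV A (Function.update W k (((u - E : ℝ) : ℂ) - (t : ℂ) * I)) Λ z ∂ν ≤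
      2 * MV A (Function.update W k (-I)) Λ z +
      ENNReal.ofReal (2 * Real.pi * D * (L + 1) ^ 2) * MV A (Function.update W k (-I)) Λ k := by
  have hs := sg_im_nonneg hA hW k
  set x := ‖GV A (Function.update W k (-I)) Λ z‖ ^ 2 with hx
  set y := ‖GV A (Function.update W k (-I)) Λ k‖ ^ 2 with hy
  have hx0 : 0 ≤ x := sq_nonneg _
  have hy0 : 0 ≤ y := sq_nonneg _
  have h1 : ∀ᵐ u ∂ν, MV A (Function.update W k (((u - E : ℝ) : ℂ) - (t : ℂ) * I)) Λ z ≤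
      ENNReal.ofReal (2 * x) + ENNReal.ofReal (2 * (L + 1) ^ 2 * y) *
        ENNReal.ofReal ((sg A W k).im / ‖(((u - E : ℝ) : ℂ) - (t : ℂ) * I) - sg A W k‖ ^ 2) := by
    filter_upwards [hL] with u hu
    have h2 : 0 ≤ 2 * (L + 1) ^ 2 * y := mul_nonneg (by positivity) hy0
    have h3 : 0 ≤ (sg A W k).im / ‖(((u - E : ℝ) : ℂ) - (t : ℂ) * I) - sg A W k‖ ^ 2 :=
      div_nonneg hs (sq_nonneg _)
    rw [← ENNReal.ofReal_mul h2, ← ENNReal.ofReal_add (by linarith) (mul_nonneg h2 h3)]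
    exact ENNReal.ofReal_le_ofReal (up_pt hA hW Λ hkz hWz (zeta_im ht u E) (zeta_norm ht hu))
  calc ∫⁻ u, MV A (Function.update W k (((u - E : ℝ) : ℂ) - (t : ℂ) * I)) Λ z ∂ν
      ≤ ∫⁻ u, (ENNReal.ofReal (2 * x) + ENNReal.ofReal (2 * (L + 1) ^ 2 * y) *
        ENNReal.ofReal ((sg A W k).im /
          ‖(((u - E : ℝ) : ℂ) - (t : ℂ) * I) - sg A W k‖ ^ 2)) ∂ν := lintegral_mono_ae h1
    _ = ENNReal.ofReal (2 * x) + ENNReal.ofReal (2 * (L + 1) ^ 2 * y) *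
        ∫⁻ u, ENNReal.ofReal ((sg A W k).im /
          ‖(((u - E : ℝ) : ℂ) - (t : ℂ) * I) - sg A W k‖ ^ 2) ∂ν := by
        rw [lintegral_add_left measurable_const, lintegral_const, measure_univ, mul_one,
          lintegral_const_mul' _ _ ENNReal.ofReal_ne_top]
    _ ≤ ENNReal.ofReal (2 * x) + ENNReal.ofReal (2 * (L + 1) ^ 2 * y) *
        ENNReal.ofReal (Real.pi * D) := by
        gcongr
        exact cauchy_le hD ht hs E
    _ = _ := by
        have e1 : ENNReal.ofReal (2 * (L + 1) ^ 2 * y) * ENNReal.ofReal (Real.pi * D) =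
            ENNReal.ofReal (2 * Real.pi * D * (L + 1) ^ 2) * ENNReal.ofReal y := by
          have h2 : 0 ≤ 2 * (L + 1) ^ 2 * y := mul_nonneg (by positivity) hy0
          rw [← ENNReal.ofReal_mul h2, ← ENNReal.ofReal_mul' hy0]
          congr 1
          ring
        have e2 : ENNReal.ofReal (2 * x) = 2 * ENNReal.ofReal x := by
          rw [ENNReal.ofReal_mul (by norm_num)]
          simp
        rw [MV, MV, ← hx, ← hy, e1, e2]

/-! ### the down step -/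

/-- the square mean of an affine function controls its value at any point -/
theorem affine_le (α β : F) {a : ℝ} (ha : 0 < a) {τ : ℂ} {T : ℝ} (hτ : ‖τ‖ ≤ T) :
    ENNReal.ofReal (‖α + τ • β‖ ^ 2) ≤ ENNReal.ofReal (1 / a + 3 * T ^ 2 / a ^ 3) *
      ∫⁻ u in Set.Icc (-a) a, ENNReal.ofReal (‖α + (u : ℂ) • β‖ ^ 2) := by
  set f : ℝ → ℝ := fun u => ‖α + (u : ℂ) • β‖ ^ 2 with hf
  have hfc : Continuous f :=
    ((continuous_const.add (Complex.continuous_ofReal.smul continuous_const)).norm).pow 2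
  have hf0 : ∀ u, 0 ≤ f u := fun u => sq_nonneg _
  obtain ⟨J, hJ⟩ : ∃ J, J = ∫ u in (-a)..a, f u := ⟨_, rfl⟩
  have hneg : ∫ u in (-a)..a, f (-u) = ∫ u in (-a)..a, f u := by
    rw [intervalIntegral.integral_comp_neg, neg_neg]
  have hJ2 : 2 * J = ∫ u in (-a)..a, (f u + f (-u)) := by
    have hadd := intervalIntegral.integral_add (μ := volume) (a := -a) (b := a) (f := f)
      (g := fun u => f (-u)) (hfc.intervalIntegrable _ _)
      ((hfc.comp continuous_neg).intervalIntegrable _ _)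
    rw [hadd, hneg, hJ]
    ring
  have hJ0 : 0 ≤ J := by
    rw [hJ]
    exact intervalIntegral.integral_nonneg (by linarith) fun u _ => hf0 u
  have hp : ∀ u : ℝ, 2 * ‖α‖ ^ 2 ≤ f u + f (-u) ∧ 2 * u ^ 2 * ‖β‖ ^ 2 ≤ f u + f (-u) := by
    intro u
    have h1 : ‖(2 : ℂ) • α‖ ≤ ‖α + (u : ℂ) • β‖ + ‖α + ((-u : ℝ) : ℂ) • β‖ := by
      refine le_trans (le_of_eq ?_) (norm_add_le _ _)
      congr 1
      push_cast
      rw [two_smul, neg_smul]
      abel
    have h2 : ‖(2 * u : ℂ) • β‖ ≤ ‖α + (u : ℂ) • β‖ + ‖α + ((-u : ℝ) : ℂ) • β‖ := by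
      refine le_trans (le_of_eq ?_) (norm_sub_le _ _)
      congr 1
      push_cast
      rw [mul_smul, two_smul, neg_smul]
      abel
    rw [norm_smul, Complex.norm_ofNat] at h1
    rw [norm_smul, norm_mul, Complex.norm_ofNat, Complex.norm_real, Real.norm_eq_abs] at h2
    have h3 := pow_le_pow_left₀ (by positivity) h1 2
    have h4 := pow_le_pow_left₀ (by positivity) h2 2
    have h5 : (2 * |u| * ‖β‖) ^ 2 = 4 * (u ^ 2 * ‖β‖ ^ 2) := by
      rw [mul_pow, mul_pow, sq_abs]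
      ring
    have h6 := sq_nonneg (‖α + (u : ℂ) • β‖ - ‖α + ((-u : ℝ) : ℂ) • β‖)
    have h7 : f u + f (-u) = ‖α + (u : ℂ) • β‖ ^ 2 + ‖α + ((-u : ℝ) : ℂ) • β‖ ^ 2 := rfl
    rw [h7]
    constructor <;> nlinarith
  have hint : IntervalIntegrable (fun u => f u + f (-u)) volume (-a) a :=
    (hfc.add (hfc.comp continuous_neg)).intervalIntegrable _ _
  have h1 : 2 * a * ‖α‖ ^ 2 ≤ J := by
    have h2 : ∫ u in (-a)..a, 2 * ‖α‖ ^ 2 ≤ ∫ u in (-a)..a, (f u + f (-u)) :=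
      intervalIntegral.integral_mono_on (by linarith) (by simp) hint fun u _ => (hp u).1
    rw [intervalIntegral.integral_const, smul_eq_mul, ← hJ2] at h2
    linarith
  have h2 : 2 * a ^ 3 / 3 * ‖β‖ ^ 2 ≤ J := by
    have h3 : ∫ u in (-a)..a, 2 * u ^ 2 * ‖β‖ ^ 2 ≤ ∫ u in (-a)..a, (f u + f (-u)) :=
      intervalIntegral.integral_mono_on (by linarith)
        ((by fun_prop : Continuous fun u : ℝ => 2 * u ^ 2 * ‖β‖ ^ 2).intervalIntegrable _ _)
        hint fun u _ => (hp u).2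
    rw [intervalIntegral.integral_mul_const, intervalIntegral.integral_const_mul, integral_pow,
      ← hJ2] at h3
    norm_num at h3
    nlinarith
  have h3 : ‖α + τ • β‖ ^ 2 ≤ (1 / a + 3 * T ^ 2 / a ^ 3) * J := by
    have h4 : ‖α + τ • β‖ ≤ ‖α‖ + T * ‖β‖ := by
      refine (norm_add_le _ _).trans ?_
      rw [norm_smul]
      gcongr
    have h5 := pow_le_pow_left₀ (norm_nonneg _) h4 2
    have h6 : ‖α‖ ^ 2 ≤ J / (2 * a) := by
      rw [le_div_iff₀ (by positivity)]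
      linarith
    have h7 : ‖β‖ ^ 2 ≤ 3 * J / (2 * a ^ 3) := by
      rw [le_div_iff₀ (by positivity)]
      linarith
    have h8 : T ^ 2 * ‖β‖ ^ 2 ≤ T ^ 2 * (3 * J / (2 * a ^ 3)) := by gcongr
    have h9 : (1 / a + 3 * T ^ 2 / a ^ 3) * J = 2 * (J / (2 * a)) +
        2 * (T ^ 2 * (3 * J / (2 * a ^ 3))) := by
      field_simp
    rw [h9]
    nlinarith [sq_nonneg (‖α‖ - T * ‖β‖)]
  have h4 : ENNReal.ofReal J = ∫⁻ u in Set.Icc (-a) a, ENNReal.ofReal (f u) := by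
    rw [hJ, intervalIntegral.integral_of_le (by linarith), ← integral_Icc_eq_integral_Ioc,
      ofReal_integral_eq_lintegral_ofReal (hfc.integrableOn_Icc)
        (Filter.Eventually.of_forall hf0)]
  calc ENNReal.ofReal (‖α + τ • β‖ ^ 2) ≤ ENNReal.ofReal ((1 / a + 3 * T ^ 2 / a ^ 3) * J) :=
        ENNReal.ofReal_le_ofReal h3
    _ = _ := by rw [ENNReal.ofReal_mul (by positivity), h4]

/-- constant of the down step -/
noncomputable def Kd (L κ a : ℝ) : ℝ := (1 / a + 3 * (L + 1) ^ 2 / a ^ 3) * (L + 1) ^ 2 / κ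

theorem Kd_nonneg {L κ a : ℝ} (hκ : 0 < κ) (ha : 0 < a) : 0 ≤ Kd L κ a := by
  unfold Kd
  positivity

theorem Kd_ge_one {L κ a : ℝ} (hκ : 0 < κ) (hκ1 : κ ≤ 1) (ha : 0 < a) (haL : a ≤ L) :
    1 ≤ Kd L κ a := by
  unfold Kd
  rw [le_div_iff₀ hκ, one_mul]
  refine hκ1.trans ?_
  have h1 : 1 / a * (L + 1) ^ 2 ≤ (1 / a + 3 * (L + 1) ^ 2 / a ^ 3) * (L + 1) ^ 2 := by
    gcongr
    have : 0 ≤ 3 * (L + 1) ^ 2 / a ^ 3 := by positivity
    linarith
  refine le_trans ?_ h1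
  rw [one_div, ← div_eq_inv_mul, le_div_iff₀ ha, one_mul]
  nlinarith

/-- **down step** -/
theorem down_int (hA : A.IsSymm) (hW : ∀ x, (W x).im < 0) (Λ : (ι → ℂ) →ₗ[ℂ] F) (k z : ι)
    {ν : Measure ℝ} {κ a E t L : ℝ} (hG : DensGe κ a ν) (hκ : 0 < κ) (ha : 0 < a) (ht : 0 < t)
    (hL : a + |E| + t ≤ L) :
    MV A (Function.update W k (-I)) Λ z ≤ ENNReal.ofReal (Kd L κ a) *
      ∫⁻ u, MV A (Function.update W k (((u - E : ℝ) : ℂ) - (t : ℂ) * I)) Λ z ∂ν := by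
  have hs := sg_im_nonneg hA hW k
  set s := sg A W k with hsd
  set X := Λ (fun b => Gi A W k z b) with hX
  set Y := Λ (fun b => gw A W k b) with hY
  set g := gw A W k z with hg
  have href := one_le_norm hs
  have hrn := ref_ne hs
  have hrpos : 0 < ‖-I - s‖ := norm_pos_iff.2 hrn
  have hL0 : 0 ≤ L := by
    have := abs_nonneg E
    linarith
  have hz : ∀ u : ℝ, (((u - E : ℝ) : ℂ) - (t : ℂ) * I) - s ≠ 0 := by
    intro u h
    have h1 := congrArg Complex.im h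
    rw [Complex.sub_im, Complex.zero_im] at h1
    have h2 := zeta_im ht u E
    linarith
  set α : F := ((((-E : ℝ) : ℂ) - (t : ℂ) * I) - s) • X + g • Y with hα
  have e1 : ∀ u : ℝ, ((((u - E : ℝ) : ℂ) - (t : ℂ) * I) - s) •
      GV A (Function.update W k (((u - E : ℝ) : ℂ) - (t : ℂ) * I)) Λ z = α + (u : ℂ) • X := by
    intro u
    rw [GV_update hA hW Λ (zeta_im ht u E), smul_add, smul_smul, ← hsd, ← hg, ← hX, ← hY,
      mul_left_comm, mul_inv_cancel₀ (hz u), mul_one, hα]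
    push_cast
    module
  have e2 : (-I - s) • GV A (Function.update W k (-I)) Λ z =
      α + (-I + (E : ℂ) + (t : ℂ) * I) • X := by
    rw [GV_update hA hW Λ negI_im, smul_add, smul_smul, ← hsd, ← hg, ← hX, ← hY,
      mul_left_comm, mul_inv_cancel₀ hrn, mul_one, hα]
    push_cast
    module
  have hτ : ‖-I + (E : ℂ) + (t : ℂ) * I‖ ≤ L + 1 := by
    refine (norm_add_le _ _).trans ?_
    have h1 : ‖-I + (E : ℂ)‖ ≤ 1 + |E| := by
      refine (norm_add_le _ _).trans ?_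
      rw [norm_neg, norm_I, Complex.norm_real, Real.norm_eq_abs]
    rw [norm_mul, norm_I, mul_one, Complex.norm_real, Real.norm_eq_abs, abs_of_pos ht]
    linarith
  have hb : ∀ u ∈ Set.Icc (-a) a, ‖(((u - E : ℝ) : ℂ) - (t : ℂ) * I) - s‖ ≤
      (L + 1) * ‖-I - s‖ := by
    intro u hu
    have h1 : |u - E| + t ≤ L := by
      have h2 : |u| ≤ a := abs_le.2 hu
      have h3 : |u - E| ≤ |u| + |E| := abs_sub _ _
      linarith
    have h2 := zeta_norm ht h1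
    refine (norm_sub_le _ _).trans ?_
    have h3 : 1 ≤ ‖-I - s‖ := by
      nlinarith [sq_nonneg ‖s‖]
    have h4 : ‖s‖ ≤ ‖-I - s‖ := by
      refine (pow_le_pow_iff_left₀ (norm_nonneg _) hrpos.le two_ne_zero).1 ?_
      linarith
    nlinarith
  have h1 := affine_le α X ha hτ
  rw [← e2, norm_smul, mul_pow] at h1
  simp only [← e1] at h1
  set K0 : ℝ := 1 / a + 3 * (L + 1) ^ 2 / a ^ 3 with hK0
  have hK00 : 0 ≤ K0 := by positivity
  have h2 : ∫⁻ u in Set.Icc (-a) a, ENNReal.ofReal (‖((((u - E : ℝ) : ℂ) - (t : ℂ) * I) - s) •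
      GV A (Function.update W k (((u - E : ℝ) : ℂ) - (t : ℂ) * I)) Λ z‖ ^ 2) ≤
      ENNReal.ofReal ((L + 1) ^ 2 * ‖-I - s‖ ^ 2) * ∫⁻ u in Set.Icc (-a) a,
        MV A (Function.update W k (((u - E : ℝ) : ℂ) - (t : ℂ) * I)) Λ z := by
    rw [← lintegral_const_mul' _ _ ENNReal.ofReal_ne_top]
    refine setLIntegral_mono' measurableSet_Icc fun u hu => ?_
    rw [MV, ← ENNReal.ofReal_mul (by positivity)]
    refine ENNReal.ofReal_le_ofReal ?_
    rw [norm_smul, mul_pow, ← mul_pow (L + 1)]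
    gcongr
    exact hb u hu
  have h3 : ∫⁻ u in Set.Icc (-a) a,
      MV A (Function.update W k (((u - E : ℝ) : ℂ) - (t : ℂ) * I)) Λ z ≤
      ENNReal.ofReal (1 / κ) *
        ∫⁻ u, MV A (Function.update W k (((u - E : ℝ) : ℂ) - (t : ℂ) * I)) Λ z ∂ν := by
    calc ∫⁻ u in Set.Icc (-a) a,
          MV A (Function.update W k (((u - E : ℝ) : ℂ) - (t : ℂ) * I)) Λ z
        = ENNReal.ofReal (1 / κ) * ∫⁻ u,
          MV A (Function.update W k (((u - E : ℝ) : ℂ) - (t : ℂ) * I)) Λ z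
          ∂(ENNReal.ofReal κ • (volume : Measure ℝ).restrict (Set.Icc (-a) a)) := by
          rw [lintegral_smul_measure, smul_eq_mul, ← mul_assoc,
            ← ENNReal.ofReal_mul (by positivity), one_div, inv_mul_cancel₀ hκ.ne',
            ENNReal.ofReal_one, one_mul]
      _ ≤ _ := by
          gcongr
          exact hG
  have e3 : MV A (Function.update W k (-I)) Λ z = ENNReal.ofReal ((‖-I - s‖ ^ 2)⁻¹) *
      ENNReal.ofReal (‖-I - s‖ ^ 2 * ‖GV A (Function.update W k (-I)) Λ z‖ ^ 2) := by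
    rw [MV, ← ENNReal.ofReal_mul (by positivity), ← mul_assoc, inv_mul_cancel₀ (by positivity),
      one_mul]
  calc MV A (Function.update W k (-I)) Λ z
      ≤ ENNReal.ofReal ((‖-I - s‖ ^ 2)⁻¹) * (ENNReal.ofReal K0 *
        (ENNReal.ofReal ((L + 1) ^ 2 * ‖-I - s‖ ^ 2) * (ENNReal.ofReal (1 / κ) *
          ∫⁻ u, MV A (Function.update W k (((u - E : ℝ) : ℂ) - (t : ℂ) * I)) Λ z ∂ν))) := by
        rw [e3]
        gcongr
        refine h1.trans ?_
        gcongr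
        refine h2.trans ?_
        gcongr
    _ = _ := by
        rw [← mul_assoc, ← mul_assoc, ← mul_assoc, ← ENNReal.ofReal_mul (by positivity),
          ← ENNReal.ofReal_mul (by positivity), ← ENNReal.ofReal_mul (by positivity)]
        congr 2
        rw [Kd, ← hK0]
        field_simp

end P365T1.Switch
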