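import Vale.Agent.P365.C937.Switch
import Vale.Agent.P365.Bdl.B1

/-!
# P365 T1: label switching on a finite set of sites (note 18109 of helper185)

`Q` = set of switched sites, `x ∈ Q`.  Two families of laws `ν₁, ν₀` and absorptions `e₁, e₀` which
agree off `Q`.  Then `E₁ Y_x ≤ C^{|Q|} ∑_{z ∈ Q} E₀ Y_z` for the off-resonant energies `Y`.
-/

set_option linter.all false

namespace P365T1.Switch

open P365L P365O P365T1 P365T1.OneVar Matrix Complex MeasureTheory
open scoped ComplexConjugate ENNReal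

variable {ι : Type*} [Fintype ι] [DecidableEq ι] {A : Matrix ι ι ℝ} {W : ι → ℂ}
variable {F : Type*} [NormedAddCommGroup F] [NormedSpace ℂ F]

/-! ### marginals -/

section marg

variable {μ : ι → Measure ℝ} [∀ z, IsProbabilityMeasure (μ z)]

theorem lmarginal_lin {f g : (ι → ℝ) → ℝ≥0∞} (hf : Measurable f) (hg : Measurable g)
    (a b : ℝ≥0∞) (s : Finset ι) (v : ι → ℝ) :
    (∫⋯∫⁻_s, (fun x => a * f x + b * g x) ∂μ) v =
      a * (∫⋯∫⁻_s, f ∂μ) v + b * (∫⋯∫⁻_s, g ∂μ) v := by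
  have hf' : Measurable fun y : ∀ i : s, ℝ => f (Function.updateFinset v s y) :=
    hf.comp measurable_updateFinset
  have hg' : Measurable fun y : ∀ i : s, ℝ => g (Function.updateFinset v s y) :=
    hg.comp measurable_updateFinset
  unfold lmarginal
  rw [lintegral_add_left (hf'.const_mul a), lintegral_const_mul a hf', lintegral_const_mul b hg']

theorem lmarginal_cmul (f : (ι → ℝ) → ℝ≥0∞) {a : ℝ≥0∞} (ha : a ≠ ⊤) (s : Finset ι) (v : ι → ℝ) :
    (∫⋯∫⁻_s, (fun x => a * f x) ∂μ) v = a * (∫⋯∫⁻_s, f ∂μ) v := by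
  unfold lmarginal
  rw [lintegral_const_mul' _ _ ha]

theorem lmarginal_of_indep {H : (ι → ℝ) → ℝ≥0∞} {s : Finset ι}
    (hc : ∀ v v', (∀ z ∉ s, v z = v' z) → H v = H v') : ∫⋯∫⁻_s, H ∂μ = H := by
  ext v
  have h1 : ∀ y : ∀ i : s, ℝ, H (Function.updateFinset v s y) = H v := by
    intro y
    refine hc _ _ fun z hz => ?_
    simp [Function.updateFinset, hz]
  unfold lmarginal
  simp only [h1]
  rw [lintegral_const, measure_univ, mul_one]

theorem lint_lmarginal (s : Finset ι) {f : (ι → ℝ) → ℝ≥0∞} (hf : Measurable f) :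
    ∫⁻ v, (∫⋯∫⁻_s, f ∂μ) v ∂Measure.pi μ = ∫⁻ v, f v ∂Measure.pi μ :=
  lintegral_eq_of_lmarginal_eq s (hf.lmarginal μ) hf
    (lmarginal_of_indep fun v v' h => lmarginal_congr μ f h)

theorem lint_eq_compl {Q : Finset ι} {H : (ι → ℝ) → ℝ≥0∞} (hH : Measurable H)
    (hc : ∀ v v', (∀ z ∉ Q, v z = v' z) → H v = H v') (v : ι → ℝ) :
    ∫⁻ v, H v ∂Measure.pi μ = (∫⋯∫⁻_Qᶜ, H ∂μ) v := by
  rw [lintegral_eq_lmarginal_univ v]
  have h1 : (Finset.univ : Finset ι) = Qᶜ ∪ Q := by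
    rw [Finset.union_comm, Finset.union_compl]
  rw [h1, lmarginal_union μ H hH disjoint_compl_left, lmarginal_of_indep hc]

end marg

/-- integrals of functions which do not see `Q` do not see the laws on `Q` -/
theorem lint_congr_off {μ₁ μ₀ : ι → Measure ℝ} [∀ z, IsProbabilityMeasure (μ₁ z)]
    [∀ z, IsProbabilityMeasure (μ₀ z)] {Q : Finset ι} (h : ∀ z ∉ Q, μ₁ z = μ₀ z)
    {H : (ι → ℝ) → ℝ≥0∞} (hH : Measurable H)
    (hc : ∀ v v', (∀ z ∉ Q, v z = v' z) → H v = H v') :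
    ∫⁻ v, H v ∂Measure.pi μ₁ = ∫⁻ v, H v ∂Measure.pi μ₀ := by
  rw [lint_eq_compl hH hc 0, lint_eq_compl hH hc 0]
  unfold lmarginal
  have h1 : (fun i : (Qᶜ : Finset ι) => μ₁ i) = fun i : (Qᶜ : Finset ι) => μ₀ i := by
    funext i
    exact h i (Finset.mem_compl.1 i.2)
  rw [h1]

/-! ### configurations with reference values on `Q` -/

/-- reference value `-i` on `Q` -/
noncomputable def cf (Q : Finset ι) (W : ι → ℂ) : ι → ℂ := fun z => if z ∈ Q then -I else W z

theorem cf_neg (Q : Finset ι) (hW : ∀ x, (W x).im < 0) (x : ι) : (cf Q W x).im < 0 := by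
  unfold cf
  split_ifs
  · exact negI_im
  · exact hW x

theorem cf_im {Q : Finset ι} {z : ι} (hz : z ∈ Q) : (cf Q W z).im = -1 := by
  simp [cf, hz]

theorem update_cf {Q : Finset ι} {k : ι} (hk : k ∈ Q) :
    Function.update (cf Q W) k (-I) = cf Q W := by
  have : (-I : ℂ) = cf Q W k := by simp [cf, hk]
  rw [this, Function.update_eq_self]

theorem cf_erase_update {Q : Finset ι} {k : ι} (hk : k ∈ Q) (ζ : ℂ) :
    cf (Q.erase k) (Function.update W k ζ) = Function.update (cf Q W) k ζ := by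
  funext z
  by_cases hz : z = k
  · subst hz
    simp [cf]
  · rw [Function.update_of_ne hz]
    simp only [cf, Finset.mem_erase, ne_eq, hz, not_false_eq_true, true_and]
    split_ifs
    · rfl
    · rw [Function.update_of_ne hz]

theorem cf_singleton (x : ι) : cf {x} W = Function.update W x (-I) := by
  funext z
  by_cases hz : z = x
  · subst hz
    simp [cf]
  · rw [Function.update_of_ne hz]
    simp [cf, hz]

omit [Fintype ι] in
theorem WV_update (E : ℝ) (e v : ι → ℝ) (k : ι) (u : ℝ) : WV E e (Function.update v k u) =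
    Function.update (WV E e v) k (((u - E : ℝ) : ℂ) - (e k : ℂ) * I) := by
  funext z
  by_cases hz : z = k
  · subst hz
    simp [WV]
  · rw [Function.update_of_ne hz]
    simp [WV, Function.update_of_ne hz]

theorem WV_neg {E : ℝ} {e : ι → ℝ} (he : ∀ z, 0 < e z) (v : ι → ℝ) (x : ι) :
    (WV E e v x).im < 0 := by
  simp [WV, he x]

theorem cf_congr {Q : Finset ι} {E : ℝ} {e e' v v' : ι → ℝ} (he : ∀ z ∉ Q, e z = e' z)
    (hv : ∀ z ∉ Q, v z = v' z) : cf Q (WV E e v) = cf Q (WV E e' v') := by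
  funext z
  unfold cf WV
  split_ifs with h
  · rfl
  · rw [he z h, hv z h]

theorem measurable_MV {Ω : Type*} [MeasurableSpace Ω] (Λ : (ι → ℂ) →ₗ[ℂ] F) (V : Ω → ι → ℂ)
    (hV : ∀ x, Measurable fun ω => V ω x) (x : ι) : Measurable fun ω => MV A (V ω) Λ x := by
  have h1 : Measurable fun ω => fun a => Gr A (V ω) x a :=
    measurable_pi_iff.2 fun a => measurable_Gr V hV x a
  have h2 : Measurable fun g : ι → ℂ => ‖Λ g‖ := by
    have : Continuous fun g : ι → ℂ => ‖Λ g‖ :=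
      (LinearMap.continuous_of_finiteDimensional Λ).norm
    exact this.measurable
  exact ((h2.comp h1).pow_const 2).ennreal_ofReal

theorem measurable_cfWV (Q : Finset ι) (E : ℝ) (e : ι → ℝ) (x : ι) :
    Measurable fun v : ι → ℝ => cf Q (WV E e v) x := by
  unfold cf WV
  split_ifs
  · exact measurable_const
  · have h1 : Measurable fun v : ι → ℝ => v x - E := by fun_prop
    exact (Complex.measurable_ofReal.comp h1).sub_const _

theorem measurable_MV_cf (Λ : (ι → ℂ) →ₗ[ℂ] F) (Q : Finset ι) (E : ℝ) (e : ι → ℝ) (z : ι) :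
    Measurable fun v : ι → ℝ => MV A (cf Q (WV E e v)) Λ z :=
  measurable_MV Λ _ (measurable_cfWV Q E e) z

/-- constant of one up step -/
noncomputable def CuE (L D : ℝ) : ℝ≥0∞ := 2 + ENNReal.ofReal (2 * Real.pi * D * (L + 1) ^ 2)

theorem CuE_eq {L D : ℝ} (hD : 0 ≤ D) : CuE L D = ENNReal.ofReal (Cu L D) := by
  have := Real.pi_pos.le
  rw [CuE, Cu, ENNReal.ofReal_add (by norm_num) (by positivity)]
  simp

/-- **up**: from the laws on `R` to the reference values -/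
theorem up_all (hA : A.IsSymm) (Λ : (ι → ℂ) →ₗ[ℂ] F) {ν : ι → Measure ℝ}
    [∀ z, IsProbabilityMeasure (ν z)] {E L : ℝ} {D e : ι → ℝ} (he : ∀ z, 0 < e z)
    {Q R : Finset ι} (hR : R ⊆ Q) (hD : ∀ k ∈ R, DensLe (D k) (ν k))
    (hL : ∀ k ∈ R, ∀ᵐ u ∂ν k, |u - E| + e k ≤ L) {z : ι} (hz : z ∈ Q) (hzR : z ∉ R)
    (v : ι → ℝ) :
    (∫⋯∫⁻_R, (fun v => MV A (cf (Q \ R) (WV E e v)) Λ z) ∂ν) v ≤
      (∏ k ∈ R, CuE L (D k)) * ∑ w ∈ Q, MV A (cf Q (WV E e v)) Λ w := by
  induction R using Finset.induction_on generalizing z with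
  | empty =>
    rw [lmarginal_empty, Finset.prod_empty, one_mul, Finset.sdiff_empty]
    exact Finset.single_le_sum (f := fun w => MV A (cf Q (WV E e v)) Λ w)
      (fun _ _ => zero_le) hz
  | insert k R hk ih =>
    have hkQ : k ∈ Q := hR (Finset.mem_insert_self _ _)
    have hRQ : R ⊆ Q := fun y hy => hR (Finset.mem_insert_of_mem hy)
    have hzk : k ≠ z := fun h => hzR (h ▸ Finset.mem_insert_self _ _)
    have hzR' : z ∉ R := fun h => hzR (Finset.mem_insert_of_mem h)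
    have hkQR : k ∈ Q \ R := Finset.mem_sdiff.2 ⟨hkQ, hk⟩
    have h1 : Q \ insert k R = (Q \ R).erase k := by
      ext y
      simp only [Finset.mem_sdiff, Finset.mem_insert, Finset.mem_erase, not_or]
      tauto
    rw [lmarginal_insert' _ (measurable_MV_cf Λ _ E e z) hk]
    have key : (fun x => ∫⁻ u, MV A (cf (Q \ insert k R) (WV E e (Function.update x k u))) Λ z
        ∂ν k) ≤ fun x => 2 * MV A (cf (Q \ R) (WV E e x)) Λ z +
          ENNReal.ofReal (2 * Real.pi * D k * (L + 1) ^ 2) *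
            MV A (cf (Q \ R) (WV E e x)) Λ k := by
      intro x
      simp only [WV_update, h1, cf_erase_update hkQR]
      have h2 := up_int hA (cf_neg (Q \ R) (WV_neg (E := E) he x)) Λ hzk
        (cf_im (Finset.mem_sdiff.2 ⟨hz, hzR'⟩)) (hD k (Finset.mem_insert_self _ _)) (he k)
        (hL k (Finset.mem_insert_self _ _))
      rwa [update_cf hkQR] at h2
    refine (lmarginal_mono key v).trans ?_
    rw [lmarginal_lin (measurable_MV_cf Λ _ E e z) (measurable_MV_cf Λ _ E e k)]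
    have i1 := ih hRQ (fun k' h => hD k' (Finset.mem_insert_of_mem h))
      (fun k' h => hL k' (Finset.mem_insert_of_mem h)) hz hzR'
    have i2 := ih hRQ (fun k' h => hD k' (Finset.mem_insert_of_mem h))
      (fun k' h => hL k' (Finset.mem_insert_of_mem h)) hkQ hk
    refine (add_le_add (mul_le_mul' le_rfl i1) (mul_le_mul' le_rfl i2)).trans (le_of_eq ?_)
    rw [Finset.prod_insert hk, CuE]
    ring

/-- **down**: from the reference values to the laws on `R` -/
theorem down_all (hA : A.IsSymm) (Λ : (ι → ℂ) →ₗ[ℂ] F) {ν : ι → Measure ℝ}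
    [∀ z, IsProbabilityMeasure (ν z)] {E L κ a : ℝ} {e : ι → ℝ} (he : ∀ z, 0 < e z)
    {Q R : Finset ι} (hR : R ⊆ Q) (hG : ∀ k ∈ R, DensGe κ a (ν k)) (hκ : 0 < κ) (ha : 0 < a)
    (hL : ∀ k ∈ R, a + |E| + e k ≤ L) (z : ι) (v : ι → ℝ) :
    MV A (cf Q (WV E e v)) Λ z ≤ ENNReal.ofReal (Kd L κ a) ^ R.card *
      (∫⋯∫⁻_R, (fun v => MV A (cf (Q \ R) (WV E e v)) Λ z) ∂ν) v := by
  induction R using Finset.induction_on with
  | empty =>
    rw [lmarginal_empty, Finset.card_empty, pow_zero, one_mul, Finset.sdiff_empty]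
  | insert k R hk ih =>
    have hkQ : k ∈ Q := hR (Finset.mem_insert_self _ _)
    have hRQ : R ⊆ Q := fun y hy => hR (Finset.mem_insert_of_mem hy)
    have hkQR : k ∈ Q \ R := Finset.mem_sdiff.2 ⟨hkQ, hk⟩
    have h1 : Q \ insert k R = (Q \ R).erase k := by
      ext y
      simp only [Finset.mem_sdiff, Finset.mem_insert, Finset.mem_erase, not_or]
      tauto
    have i1 := ih hRQ (fun k' h => hG k' (Finset.mem_insert_of_mem h))
      (fun k' h => hL k' (Finset.mem_insert_of_mem h))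
    rw [lmarginal_insert' _ (measurable_MV_cf Λ _ E e z) hk, Finset.card_insert_of_notMem hk,
      pow_succ, mul_assoc]
    refine i1.trans (mul_le_mul' le_rfl ?_)
    rw [← lmarginal_cmul _ ENNReal.ofReal_ne_top]
    refine lmarginal_mono (fun x => ?_) v
    simp only [WV_update, h1, cf_erase_update hkQR]
    have h2 := down_int hA (cf_neg (Q \ R) (WV_neg (E := E) he x)) Λ k z
      (hG k (Finset.mem_insert_self _ _)) hκ ha (he k) (hL k (Finset.mem_insert_self _ _))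
    rwa [update_cf hkQR] at h2

/-- **Label switching** (helper185's RESULT).  The laws and absorptions agree off `Q ∋ x`; the laws
`ν₁ k` have density at most `D k`, the laws `ν₀ k` have density at least `κ` on `[-a, a]`. -/
theorem switch (hA : A.IsSymm) (Λ : (ι → ℂ) →ₗ[ℂ] F) {ν₁ ν₀ : ι → Measure ℝ}
    [∀ z, IsProbabilityMeasure (ν₁ z)] [∀ z, IsProbabilityMeasure (ν₀ z)] {E L κ a : ℝ}
    {D e₁ e₀ : ι → ℝ} (he₁ : ∀ z, 0 < e₁ z) (he₀ : ∀ z, 0 < e₀ z) {Q : Finset ι}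
    (hν : ∀ z ∉ Q, ν₁ z = ν₀ z) (he : ∀ z ∉ Q, e₁ z = e₀ z) {x : ι} (hx : x ∈ Q)
    (hD : ∀ k ∈ Q.erase x, DensLe (D k) (ν₁ k))
    (hL₁ : ∀ k ∈ Q.erase x, ∀ᵐ u ∂ν₁ k, |u - E| + e₁ k ≤ L)
    (hG : ∀ k ∈ Q, DensGe κ a (ν₀ k)) (hκ : 0 < κ) (ha : 0 < a)
    (hL₀ : ∀ k ∈ Q, a + |E| + e₀ k ≤ L) :
    ∫⁻ v, ENNReal.ofReal (Yv A (WV E e₁ v) Λ x) ∂Measure.pi ν₁ ≤
      2 * ((∏ k ∈ Q.erase x, CuE L (D k)) * (ENNReal.ofReal (Kd L κ a) ^ (Q.card - 1) *
        ∑ z ∈ Q, ∫⁻ v, ENNReal.ofReal (Yv A (WV E e₀ v) Λ z) ∂Measure.pi ν₀)) := by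
  -- to the reference value at `x`
  have s1 : ∫⁻ v, ENNReal.ofReal (Yv A (WV E e₁ v) Λ x) ∂Measure.pi ν₁ ≤
      2 * ∫⁻ v, MV A (cf (Q \ Q.erase x) (WV E e₁ v)) Λ x ∂Measure.pi ν₁ := by
    have h1 : Q \ Q.erase x = {x} := by
      ext y
      simp only [Finset.mem_sdiff, Finset.mem_erase, Finset.mem_singleton]
      constructor
      · intro h
        by_contra h2
        exact h.2 ⟨h2, h.1⟩
      · rintro rfl
        exact ⟨hx, fun h => h.1 rfl⟩
    rw [← lintegral_const_mul' _ _ (by simp)]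
    refine lintegral_mono fun v => ?_
    rw [h1, cf_singleton]
    exact Yv_le_MV hA (WV_neg he₁ v) Λ x
  -- up
  have s2 : ∫⁻ v, MV A (cf (Q \ Q.erase x) (WV E e₁ v)) Λ x ∂Measure.pi ν₁ ≤
      (∏ k ∈ Q.erase x, CuE L (D k)) *
        ∑ w ∈ Q, ∫⁻ v, MV A (cf Q (WV E e₁ v)) Λ w ∂Measure.pi ν₁ := by
    rw [← lint_lmarginal (Q.erase x) (measurable_MV_cf Λ _ E e₁ x),
      ← lintegral_finset_sum _ (fun w _ => measurable_MV_cf Λ Q E e₁ w),
      ← lintegral_const_mul _ (Finset.measurable_sum _ fun w _ => measurable_MV_cf Λ Q E e₁ w)]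
    refine lintegral_mono fun v => ?_
    exact up_all hA Λ he₁ (Finset.erase_subset _ _) hD hL₁ hx (Finset.notMem_erase _ _) v
  -- change the laws on `Q`
  have s3 : ∀ w, ∫⁻ v, MV A (cf Q (WV E e₁ v)) Λ w ∂Measure.pi ν₁ =
      ∫⁻ v, MV A (cf Q (WV E e₀ v)) Λ w ∂Measure.pi ν₀ := by
    intro w
    rw [lint_congr_off hν (measurable_MV_cf Λ Q E e₁ w)
      (fun v v' h => by rw [cf_congr (fun _ _ => rfl) h])]
    refine lintegral_congr fun v => ?_
    rw [cf_congr he (fun _ _ => rfl)]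
  -- down
  have s4 : ∀ w ∈ Q, ∫⁻ v, MV A (cf Q (WV E e₀ v)) Λ w ∂Measure.pi ν₀ ≤
      ENNReal.ofReal (Kd L κ a) ^ (Q.card - 1) *
        ∫⁻ v, ENNReal.ofReal (Yv A (WV E e₀ v) Λ w) ∂Measure.pi ν₀ := by
    intro w hw
    have h1 : Q \ Q.erase w = {w} := by
      ext y
      simp only [Finset.mem_sdiff, Finset.mem_erase, Finset.mem_singleton]
      constructor
      · intro h
        by_contra h2
        exact h.2 ⟨h2, h.1⟩
      · rintro rfl
        exact ⟨hw, fun h => h.1 rfl⟩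
    calc ∫⁻ v, MV A (cf Q (WV E e₀ v)) Λ w ∂Measure.pi ν₀
        ≤ ∫⁻ v, ENNReal.ofReal (Kd L κ a) ^ (Q.card - 1) *
          (∫⋯∫⁻_(Q.erase w), (fun v => MV A (cf (Q \ Q.erase w) (WV E e₀ v)) Λ w) ∂ν₀) v
          ∂Measure.pi ν₀ := by
          refine lintegral_mono fun v => ?_
          have := down_all hA Λ he₀ (Finset.erase_subset w Q)
            (fun k h => hG k (Finset.mem_of_mem_erase h)) hκ ha
            (fun k h => hL₀ k (Finset.mem_of_mem_erase h)) w v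
          rwa [Finset.card_erase_of_mem hw] at this
      _ = ENNReal.ofReal (Kd L κ a) ^ (Q.card - 1) *
          ∫⁻ v, MV A (cf (Q \ Q.erase w) (WV E e₀ v)) Λ w ∂Measure.pi ν₀ := by
          rw [lintegral_const_mul' _ _ (ENNReal.pow_ne_top ENNReal.ofReal_ne_top),
            lint_lmarginal _ (measurable_MV_cf Λ _ E e₀ w)]
      _ ≤ _ := by
          refine mul_le_mul' le_rfl (lintegral_mono fun v => ?_)
          rw [h1, cf_singleton]
          exact MV_ref_le hA (WV_neg he₀ v) Λ w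
  refine s1.trans (mul_le_mul' le_rfl ?_)
  refine s2.trans (mul_le_mul' le_rfl ?_)
  rw [Finset.mul_sum]
  refine Finset.sum_le_sum fun w hw => ?_
  rw [s3]
  exact s4 w hw

end P365T1.Switch
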