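import Vale.Agent.P365.C937.SwitchAll

/-!
# P365 T1: label switching summed over label configurations

`R` = switched region, `g` = the good label, `swf R g l` = `l` with `R` rewritten by `g`.  For a set
`S` of label configurations whose profile off `R` is the profile of the switched configuration:
`∑_{l ∈ S} P(l) E_l Y_x ≤ C ∑_{l'} P(l') ∑_{z ∈ R} E_{l'} Y_z`, `l'` running over the switched
configurations.
-/

set_option linter.all false

namespace P365T1.Switch

open P365L P365O P365T1 P365T1.OneVar Matrix Complex MeasureTheory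
open scoped ComplexConjugate ENNReal

variable {ι : Type*} [Fintype ι] [DecidableEq ι] {A : Matrix ι ι ℝ} {W : ι → ℂ}
variable {F : Type*} [NormedAddCommGroup F] [NormedSpace ℂ F]
variable {Λ : Type*} [Fintype Λ] [DecidableEq Λ]

/-- `R` switched to the label `g` -/
def swf (R : Finset ι) (g : Λ) (l : ι → Λ) : ι → Λ := fun x => if x ∈ R then g else l x

omit [Fintype ι] [Fintype Λ] [DecidableEq Λ] in
theorem swf_in {R : Finset ι} {g : Λ} {l : ι → Λ} {x : ι} (hx : x ∈ R) : swf R g l x = g := by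
  simp [swf, hx]

omit [Fintype ι] [Fintype Λ] [DecidableEq Λ] in
theorem swf_out {R : Finset ι} {g : Λ} {l : ι → Λ} {x : ι} (hx : x ∉ R) :
    swf R g l x = l x := by
  simp [swf, hx]

theorem one_le_CuE (L D : ℝ) : 1 ≤ CuE L D := by
  unfold CuE
  calc (1 : ℝ≥0∞) ≤ 2 := by norm_num
    _ ≤ _ := le_self_add

theorem CuE_ne_top (L D : ℝ) : CuE L D ≠ ⊤ := by
  unfold CuE
  exact ENNReal.add_ne_top.2 ⟨by simp, ENNReal.ofReal_ne_top⟩

/-- **label switching, one label configuration** -/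
theorem switch_one (hA : A.IsSymm) (T : (ι → ℂ) →ₗ[ℂ] F) {ν : Λ → Measure ℝ}
    [∀ k, IsProbabilityMeasure (ν k)] {E L κ a : ℝ} {D : Λ → ℝ} {e : (ι → Λ) → ι → ℝ}
    (he : ∀ l z, 0 < e l z) {R : Finset ι} {g : Λ} {l : ι → Λ}
    (hloc : ∀ z ∉ R, e l z = e (swf R g l) z) {x : ι} (hx : x ∈ R)
    (hD : ∀ k ∈ R, DensLe (D (l k)) (ν (l k)))
    (hL₁ : ∀ k ∈ R, ∀ᵐ u ∂ν (l k), |u - E| + e l k ≤ L)
    (hG : DensGe κ a (ν g)) (hκ : 0 < κ) (ha : 0 < a)
    (hL₀ : ∀ k ∈ R, a + |E| + e (swf R g l) k ≤ L) :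
    ∫⁻ v, ENNReal.ofReal (Yv A (WV E (e l) v) T x) ∂Measure.pi (fun z => ν (l z)) ≤
      2 * ((∏ k ∈ R, CuE L (D (l k))) * (ENNReal.ofReal (Kd L κ a) ^ (R.card - 1) *
        ∑ z ∈ R, ∫⁻ v, ENNReal.ofReal (Yv A (WV E (e (swf R g l)) v) T z)
          ∂Measure.pi (fun z => ν (swf R g l z)))) := by
  have h := switch (ν₁ := fun z => ν (l z)) (ν₀ := fun z => ν (swf R g l z))
    (D := fun k => D (l k)) hA T (he l) (he (swf R g l)) (Q := R)
    (fun z hz => by rw [swf_out hz]) hloc hx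
    (fun k hk => hD k (Finset.mem_of_mem_erase hk))
    (fun k hk => hL₁ k (Finset.mem_of_mem_erase hk))
    (fun k hk => by rw [swf_in hk]; exact hG) hκ ha hL₀
  refine h.trans (mul_le_mul' le_rfl (mul_le_mul' ?_ le_rfl))
  exact Finset.prod_le_prod_of_subset_of_one_le' (Finset.erase_subset _ _) fun k _ _ =>
    one_le_CuE _ _

/-- **label switching, summed over a set of label configurations**.  `B` bounds the total weight of
the inside configurations. -/
theorem switch_sum (hA : A.IsSymm) (T : (ι → ℂ) →ₗ[ℂ] F) {ν : Λ → Measure ℝ}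
    [∀ k, IsProbabilityMeasure (ν k)] {p : Λ → ℝ} (hp : ∀ k, 0 ≤ p k) {E L κ a : ℝ} {D : Λ → ℝ}
    {e : (ι → Λ) → ι → ℝ} (he : ∀ l z, 0 < e l z) {R : Finset ι} {g : Λ} (hg : 0 < p g)
    {S : Finset (ι → Λ)} (hloc : ∀ l ∈ S, ∀ z ∉ R, e l z = e (swf R g l) z)
    {x : ι} (hx : x ∈ R)
    (hD : ∀ l ∈ S, ∀ k ∈ R, DensLe (D (l k)) (ν (l k)))
    (hL₁ : ∀ l ∈ S, ∀ k ∈ R, ∀ᵐ u ∂ν (l k), |u - E| + e l k ≤ L)
    (hG : DensGe κ a (ν g)) (hκ : 0 < κ) (ha : 0 < a)
    (hL₀ : ∀ l ∈ S, ∀ k ∈ R, a + |E| + e (swf R g l) k ≤ L) {B : ℝ≥0∞}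
    (hB : ∀ l' ∈ S.image (swf R g), ∑ l ∈ S.filter (fun l => swf R g l = l'),
      ∏ k ∈ R, (ENNReal.ofReal (p (l k)) * CuE L (D (l k))) ≤ B) :
    ∑ l ∈ S, ENNReal.ofReal (∏ z, p (l z)) *
        ∫⁻ v, ENNReal.ofReal (Yv A (WV E (e l) v) T x) ∂Measure.pi (fun z => ν (l z)) ≤
      (2 * B * ENNReal.ofReal (1 / p g) ^ R.card * ENNReal.ofReal (Kd L κ a) ^ (R.card - 1)) *
      ∑ l' ∈ S.image (swf R g), ENNReal.ofReal (∏ z, p (l' z)) *
        ∑ z ∈ R, ∫⁻ v, ENNReal.ofReal (Yv A (WV E (e l') v) T z)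
          ∂Measure.pi (fun z => ν (l' z)) := by
  rw [← Finset.sum_fiberwise_of_maps_to (g := swf R g) (t := S.image (swf R g))
    (fun l hl => Finset.mem_image_of_mem _ hl), Finset.mul_sum]
  refine Finset.sum_le_sum fun l' hl' => ?_
  set G : ℝ≥0∞ := ∑ z ∈ R, ∫⁻ v, ENNReal.ofReal (Yv A (WV E (e l') v) T z)
    ∂Measure.pi (fun z => ν (l' z)) with hGd
  have hl'R : ∀ k ∈ R, l' k = g := by
    obtain ⟨l, _, rfl⟩ := Finset.mem_image.1 hl'
    exact fun k hk => swf_in hk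
  set P : ℝ≥0∞ := ∏ k ∈ Rᶜ, ENNReal.ofReal (p (l' k)) with hP
  -- weights
  have hw : ∀ l ∈ S.filter (fun l => swf R g l = l'),
      ENNReal.ofReal (∏ z, p (l z)) = P * ∏ k ∈ R, ENNReal.ofReal (p (l k)) := by
    intro l hl
    have h1 := (Finset.mem_filter.1 hl).2
    rw [ENNReal.ofReal_prod_of_nonneg (fun k _ => hp _), ← Finset.prod_mul_prod_compl R, mul_comm,
      hP]
    congr 1
    refine Finset.prod_congr rfl fun k hk => ?_
    rw [← h1, swf_out (Finset.mem_compl.1 hk)]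
  have hw' : P = ENNReal.ofReal (1 / p g) ^ R.card * ENNReal.ofReal (∏ z, p (l' z)) := by
    have e1 : ∏ k ∈ R, ENNReal.ofReal (p (l' k)) = ENNReal.ofReal (p g) ^ R.card := by
      rw [← Finset.prod_const]
      exact Finset.prod_congr rfl fun k hk => by rw [hl'R k hk]
    have e2 : ENNReal.ofReal (1 / p g) * ENNReal.ofReal (p g) = 1 := by
      rw [← ENNReal.ofReal_mul (by positivity), one_div, inv_mul_cancel₀ hg.ne',
        ENNReal.ofReal_one]
    rw [ENNReal.ofReal_prod_of_nonneg (fun k _ => hp _), ← Finset.prod_mul_prod_compl R, ← hP,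
      e1, ← mul_assoc, ← mul_pow, e2, one_pow, one_mul]
  calc ∑ l ∈ S.filter (fun l => swf R g l = l'), ENNReal.ofReal (∏ z, p (l z)) *
        ∫⁻ v, ENNReal.ofReal (Yv A (WV E (e l) v) T x) ∂Measure.pi (fun z => ν (l z))
      ≤ ∑ l ∈ S.filter (fun l => swf R g l = l'),
        (P * 2 * (ENNReal.ofReal (Kd L κ a) ^ (R.card - 1) * G)) *
          ∏ k ∈ R, (ENNReal.ofReal (p (l k)) * CuE L (D (l k))) := by
        refine Finset.sum_le_sum fun l hl => ?_
        have hlS := (Finset.mem_filter.1 hl).1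
        have h1 := (Finset.mem_filter.1 hl).2
        have h2 := switch_one hA T he (hloc l hlS) hx (hD l hlS) (hL₁ l hlS) hG hκ ha (hL₀ l hlS)
        rw [h1, ← hGd] at h2
        rw [hw l hl, Finset.prod_mul_distrib]
        calc P * (∏ k ∈ R, ENNReal.ofReal (p (l k))) *
              ∫⁻ v, ENNReal.ofReal (Yv A (WV E (e l) v) T x) ∂Measure.pi (fun z => ν (l z))
            ≤ P * (∏ k ∈ R, ENNReal.ofReal (p (l k))) *
              (2 * ((∏ k ∈ R, CuE L (D (l k))) * (ENNReal.ofReal (Kd L κ a) ^ (R.card - 1) * G))) :=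
              mul_le_mul' le_rfl h2
          _ = _ := by ring
    _ = (P * 2 * (ENNReal.ofReal (Kd L κ a) ^ (R.card - 1) * G)) *
          ∑ l ∈ S.filter (fun l => swf R g l = l'),
            ∏ k ∈ R, (ENNReal.ofReal (p (l k)) * CuE L (D (l k))) := (Finset.mul_sum _ _ _).symm
    _ ≤ (P * 2 * (ENNReal.ofReal (Kd L κ a) ^ (R.card - 1) * G)) * B :=
        mul_le_mul' le_rfl (hB l' hl')
    _ = _ := by
        rw [hw']
        ring

omit [Fintype ι] in
/-- sums over configurations which agree off `R` -/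
theorem sum_prod_le (q : Λ → ℝ≥0∞) {R : Finset ι} (S : Finset (ι → Λ))
    (hS : ∀ l ∈ S, ∀ m ∈ S, ∀ z ∉ R, l z = m z) :
    ∑ l ∈ S, ∏ k ∈ R, q (l k) ≤ (∑ b, q b) ^ R.card := by
  have h1 : ∑ l ∈ S, ∏ k ∈ R, q (l k) ≤
      ∑ t ∈ Fintype.piFinset (fun _ : R => (Finset.univ : Finset Λ)), ∏ k : R, q (t k) := by
    have h2 : ∀ l ∈ S, ∏ k ∈ R, q (l k) = ∏ k : R, q ((fun k : R => l k) k) := by
      intro l _
      rw [← Finset.prod_coe_sort]
    rw [Finset.sum_congr rfl h2]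
    have hinj : Set.InjOn (fun l : ι → Λ => fun k : R => l k) (S : Set (ι → Λ)) := by
      intro l hl m hm hlm
      funext z
      by_cases hz : z ∈ R
      · exact congrFun hlm ⟨z, hz⟩
      · exact hS l (Finset.mem_coe.1 hl) m (Finset.mem_coe.1 hm) z hz
    rw [← Finset.sum_image (f := fun t : R → Λ => ∏ k : R, q (t k)) hinj]
    refine Finset.sum_le_sum_of_subset ?_
    intro t _
    simp
  refine h1.trans (le_of_eq ?_)
  rw [← Finset.prod_univ_sum, Finset.prod_const, Finset.card_univ, Fintype.card_coe]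

omit [Fintype ι] in
/-- the default value of `B`: all inside configurations -/
theorem inside_le {p : Λ → ℝ} {L : ℝ} {D : Λ → ℝ} {R : Finset ι} {g : Λ}
    (S : Finset (ι → Λ)) (l' : ι → Λ) [DecidablePred fun l => swf R g l = l'] :
    ∑ l ∈ S.filter (fun l => swf R g l = l'),
      ∏ k ∈ R, (ENNReal.ofReal (p (l k)) * CuE L (D (l k))) ≤
      (∑ b, ENNReal.ofReal (p b) * CuE L (D b)) ^ R.card := by
  refine sum_prod_le (fun b => ENNReal.ofReal (p b) * CuE L (D b)) _ fun l hl m hm z hz => ?_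
  have e3 : swf R g l z = swf R g m z := by
    rw [(Finset.mem_filter.1 hl).2, (Finset.mem_filter.1 hm).2]
  rwa [swf_out hz, swf_out hz] at e3

omit [Fintype ι] in
/-- the value of `B` if the labels on `R' ⊆ R` are prescribed (matched blocks): the product of the
probabilities of the prescribed labels, times the default on the rest of `R` -/
theorem inside_le_pat {p : Λ → ℝ} {L : ℝ} {D : Λ → ℝ} {R R' : Finset ι} (hR : R' ⊆ R) {g : Λ}
    (S : Finset (ι → Λ)) (pat : ι → Λ) (hS : ∀ l ∈ S, ∀ z ∈ R', l z = pat z) (l' : ι → Λ)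
    [DecidablePred fun l => swf R g l = l'] :
    ∑ l ∈ S.filter (fun l => swf R g l = l'),
      ∏ k ∈ R, (ENNReal.ofReal (p (l k)) * CuE L (D (l k))) ≤
      (∏ k ∈ R', (ENNReal.ofReal (p (pat k)) * CuE L (D (pat k)))) *
        (∑ b, ENNReal.ofReal (p b) * CuE L (D b)) ^ (R \ R').card := by
  have h1 : ∀ l ∈ S.filter (fun l => swf R g l = l'),
      ∏ k ∈ R, (ENNReal.ofReal (p (l k)) * CuE L (D (l k))) =
      (∏ k ∈ R', (ENNReal.ofReal (p (pat k)) * CuE L (D (pat k)))) *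
        ∏ k ∈ R \ R', (ENNReal.ofReal (p (l k)) * CuE L (D (l k))) := by
    intro l hl
    rw [← Finset.prod_sdiff hR, mul_comm]
    congr 1
    exact Finset.prod_congr rfl fun k hk => by rw [hS l (Finset.mem_filter.1 hl).1 k hk]
  rw [Finset.sum_congr rfl h1, ← Finset.mul_sum]
  refine mul_le_mul' le_rfl (sum_prod_le (fun b => ENNReal.ofReal (p b) * CuE L (D b)) _
    fun l hl m hm z hz => ?_)
  by_cases hzR : z ∈ R
  · have hz' : z ∈ R' := by
      by_contra h
      exact hz (Finset.mem_sdiff.2 ⟨hzR, h⟩)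
    rw [hS l (Finset.mem_filter.1 hl).1 z hz', hS m (Finset.mem_filter.1 hm).1 z hz']
  · have e3 : swf R g l z = swf R g m z := by
      rw [(Finset.mem_filter.1 hl).2, (Finset.mem_filter.1 hm).2]
    rwa [swf_out hzR, swf_out hzR] at e3

end P365T1.Switch
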