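import Mathlib

/-!
# P365 T1, shield step (3): the trap resonance obtained by an energy shift (abstract matrices)

* `exists_eigpair`: an approximate eigenvector supported in `S` gives an eigenvalue near `0`
  whose eigenvector is not small at some point of `S`;
* `volume_bad`: near an eigenvalue the diagonal resolvent entry is large for most energies;
* `exists_shift`: a good shift outside an arbitrary small set;
* `removed_*`: the resolvent with one site removed.
-/

open MeasureTheory Matrix Set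

namespace Vale.Agent.P365.C937

section Spectral

variable {ι : Type*} [Fintype ι] [DecidableEq ι]

/-- the `k`-th eigenvector as a function -/
noncomputable def ev {N : Matrix ι ι ℝ} (hH : N.IsHermitian) (k : ι) : ι → ℝ :=
  fun x => hH.eigenvectorBasis k x

theorem mulVec_ev {N : Matrix ι ι ℝ} (hH : N.IsHermitian) (k : ι) :
    N *ᵥ ev hH k = hH.eigenvalues k • ev hH k :=
  hH.mulVec_eigenvectorBasis k

/-- orthonormality of the columns -/
theorem sum_ev {N : Matrix ι ι ℝ} (hH : N.IsHermitian) (k l : ι) :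
    ∑ x, ev hH k x * ev hH l x = if k = l then 1 else 0 := by
  have h := (orthonormal_iff_ite.mp hH.eigenvectorBasis.orthonormal) k l
  rw [PiLp.inner_apply] at h
  rw [← h]
  exact Finset.sum_congr rfl fun x _ => by simp [ev, mul_comm]

/-- completeness -/
theorem sum_ev' {N : Matrix ι ι ℝ} (hH : N.IsHermitian) (x y : ι) :
    ∑ k, ev hH k x * ev hH k y = if x = y then 1 else 0 := by
  set U : Matrix ι ι ℝ := fun x k => ev hH k x with hU
  have h1 : Uᵀ * U = 1 := by
    ext k l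
    rw [mul_apply, one_apply, ← sum_ev hH k l]
    rfl
  have h2 : U * Uᵀ = 1 := mul_eq_one_comm.mp h1
  have := congrFun (congrFun h2 x) y
  rw [mul_apply, one_apply] at this
  exact this

/-- expansion of a vector -/
theorem sum_coeff {N : Matrix ι ι ℝ} (hH : N.IsHermitian) (ψ : ι → ℝ) :
    ∑ k, (ev hH k ⬝ᵥ ψ) ^ 2 = ψ ⬝ᵥ ψ := by
  have : ∀ k, (ev hH k ⬝ᵥ ψ) ^ 2 = ∑ x, ∑ y, (ev hH k x * ev hH k y) * (ψ x * ψ y) := by
    intro k
    rw [pow_two, dotProduct, Finset.sum_mul_sum]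
    exact Finset.sum_congr rfl fun x _ => Finset.sum_congr rfl fun y _ => by ring
  simp_rw [this]
  rw [Finset.sum_comm]
  rw [dotProduct]
  refine Finset.sum_congr rfl fun x _ => ?_
  rw [Finset.sum_comm]
  simp_rw [← Finset.sum_mul, sum_ev' hH]
  simp

/-- the coefficients of `N ψ` -/
theorem coeff_mulVec {N : Matrix ι ι ℝ} (hH : N.IsHermitian) (ψ : ι → ℝ) (k : ι) :
    ev hH k ⬝ᵥ (N *ᵥ ψ) = hH.eigenvalues k * (ev hH k ⬝ᵥ ψ) := by
  have hT : Nᵀ = N := by
    have := hH.eq
    rwa [conjTranspose_eq_transpose_of_trivial] at this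
  rw [dotProduct_mulVec, ← mulVec_transpose, hT, mulVec_ev, smul_dotProduct, smul_eq_mul]

/-- **(a)** An approximate null vector supported in `S` gives an eigenpair. -/
theorem exists_eigpair {N : Matrix ι ι ℝ} (hH : N.IsHermitian) {ρ : ℝ} (hρ : 0 < ρ)
    {ψ : ι → ℝ} (h0 : ψ ≠ 0) {S : Finset ι} (hS : ∀ x, x ∉ S → ψ x = 0)
    (h : (N *ᵥ ψ) ⬝ᵥ (N *ᵥ ψ) ≤ ρ ^ 2 * (ψ ⬝ᵥ ψ)) :
    ∃ k, |hH.eigenvalues k| ≤ 2 * ρ ∧ ∃ y ∈ S,
      3 / (4 * (Fintype.card ι * S.card)) ≤ ev hH k y ^ 2 := by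
  classical
  set c : ι → ℝ := fun k => ev hH k ⬝ᵥ ψ with hc
  set A : Finset ι := Finset.univ.filter fun k => |hH.eigenvalues k| ≤ 2 * ρ with hA
  have hpp : 0 < ψ ⬝ᵥ ψ := by
    rcases (show 0 ≤ ψ ⬝ᵥ ψ by simpa using dotProduct_self_star_nonneg ψ).lt_or_eq with h1 | h1
    · exact h1
    · exact absurd (dotProduct_self_eq_zero.mp h1.symm) h0
  have hsum : ∑ k, c k ^ 2 = ψ ⬝ᵥ ψ := sum_coeff hH ψ
  have hsumN : ∑ k, (hH.eigenvalues k * c k) ^ 2 = (N *ᵥ ψ) ⬝ᵥ (N *ᵥ ψ) := by
    rw [← sum_coeff hH (N *ᵥ ψ)]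
    exact Finset.sum_congr rfl fun k _ => by rw [coeff_mulVec]
  -- the mass outside `A`
  have hout : ∑ k ∈ Finset.univ.filter (fun k => ¬ |hH.eigenvalues k| ≤ 2 * ρ), c k ^ 2
      ≤ (ψ ⬝ᵥ ψ) / 4 := by
    have h1 : ∑ k ∈ Finset.univ.filter (fun k => ¬ |hH.eigenvalues k| ≤ 2 * ρ),
        (2 * ρ) ^ 2 * c k ^ 2 ≤ (N *ᵥ ψ) ⬝ᵥ (N *ᵥ ψ) := by
      rw [← hsumN]
      calc _ ≤ ∑ k ∈ Finset.univ.filter (fun k => ¬ |hH.eigenvalues k| ≤ 2 * ρ),
            (hH.eigenvalues k * c k) ^ 2 := by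
            refine Finset.sum_le_sum fun k hk => ?_
            rw [Finset.mem_filter] at hk
            have hk2 := not_le.mp hk.2
            rw [mul_pow (hH.eigenvalues k), ← sq_abs (hH.eigenvalues k)]
            exact mul_le_mul_of_nonneg_right (pow_le_pow_left₀ (by positivity) hk2.le 2)
              (sq_nonneg _)
        _ ≤ _ := Finset.sum_le_sum_of_subset_of_nonneg (Finset.filter_subset _ _)
            fun k _ _ => sq_nonneg _
    rw [← Finset.mul_sum] at h1
    have h2 := h1.trans h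
    have hρ2 : 0 < ρ ^ 2 := by positivity
    nlinarith
  have hin : 3 / 4 * (ψ ⬝ᵥ ψ) ≤ ∑ k ∈ A, c k ^ 2 := by
    have := Finset.sum_filter_add_sum_filter_not Finset.univ
      (fun k => |hH.eigenvalues k| ≤ 2 * ρ) (fun k => c k ^ 2)
    rw [hsum] at this
    linarith
  have hcard : (0 : ℝ) < Fintype.card ι := by
    obtain ⟨x0, -⟩ := Function.ne_iff.mp h0
    exact_mod_cast Fintype.card_pos_iff.mpr ⟨x0⟩
  obtain ⟨k, hkA, hk⟩ : ∃ k ∈ A, 3 / 4 * (ψ ⬝ᵥ ψ) / Fintype.card ι ≤ c k ^ 2 := by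
    by_contra hcon
    push Not at hcon
    have hAne : A.Nonempty := by
      by_contra hne
      rw [Finset.not_nonempty_iff_eq_empty] at hne
      rw [hne] at hin
      simp at hin
      linarith
    have h1 : ∑ k ∈ A, c k ^ 2 < ∑ _k ∈ A, 3 / 4 * (ψ ⬝ᵥ ψ) / Fintype.card ι :=
      Finset.sum_lt_sum_of_nonempty hAne hcon
    rw [Finset.sum_const, nsmul_eq_mul] at h1
    have h2 : (A.card : ℝ) ≤ Fintype.card ι := by exact_mod_cast Finset.card_le_univ A
    have h3 : (A.card : ℝ) * (3 / 4 * (ψ ⬝ᵥ ψ) / Fintype.card ι) ≤ 3 / 4 * (ψ ⬝ᵥ ψ) := by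
      calc (A.card : ℝ) * (3 / 4 * (ψ ⬝ᵥ ψ) / Fintype.card ι)
          ≤ Fintype.card ι * (3 / 4 * (ψ ⬝ᵥ ψ) / Fintype.card ι) := by gcongr
        _ = _ := by field_simp
    linarith
  refine ⟨k, (Finset.mem_filter.mp hkA).2, ?_⟩
  have hcS : c k = ∑ x ∈ S, ev hH k x * ψ x := by
    rw [hc]
    simp only [dotProduct]
    symm
    apply Finset.sum_subset (Finset.subset_univ S)
    intro x _ hx
    rw [hS x hx, mul_zero]
  have hψS : ψ ⬝ᵥ ψ = ∑ x ∈ S, ψ x ^ 2 := by
    simp only [dotProduct, ← pow_two]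
    symm
    apply Finset.sum_subset (Finset.subset_univ S)
    intro x _ hx
    rw [hS x hx]; ring
  have hcs : c k ^ 2 ≤ (∑ x ∈ S, ev hH k x ^ 2) * (ψ ⬝ᵥ ψ) := by
    rw [hcS, hψS]
    exact Finset.sum_mul_sq_le_sq_mul_sq _ _ _
  have hmass : 3 / 4 / (Fintype.card ι : ℝ) ≤ ∑ x ∈ S, ev hH k x ^ 2 := by
    have h1 : 3 / 4 * (ψ ⬝ᵥ ψ) / Fintype.card ι ≤ (∑ x ∈ S, ev hH k x ^ 2) * (ψ ⬝ᵥ ψ) :=
      hk.trans hcs
    have h2 : 3 / 4 * (ψ ⬝ᵥ ψ) / Fintype.card ι = 3 / 4 / Fintype.card ι * (ψ ⬝ᵥ ψ) := by ring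
    rw [h2] at h1
    exact le_of_mul_le_mul_right h1 hpp
  have hSne : S.Nonempty := by
    by_contra hne
    rw [Finset.not_nonempty_iff_eq_empty] at hne
    rw [hne] at hmass
    simp only [Finset.sum_empty] at hmass
    have : 0 < 3 / 4 / (Fintype.card ι : ℝ) := by positivity
    linarith
  obtain ⟨y, hy, hmax⟩ := Finset.exists_max_image S (fun x => ev hH k x ^ 2) hSne
  refine ⟨y, hy, ?_⟩
  have hS0 : (0 : ℝ) < S.card := by exact_mod_cast hSne.card_pos
  have h1 : ∑ x ∈ S, ev hH k x ^ 2 ≤ S.card * ev hH k y ^ 2 := by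
    calc _ ≤ ∑ _x ∈ S, ev hH k y ^ 2 := Finset.sum_le_sum fun x hx => hmax x hx
      _ = _ := by simp
  rw [div_le_iff₀ (by positivity)]
  have h2 := hmass.trans h1
  rw [div_le_iff₀ hcard] at h2
  nlinarith

/-- the spectral formula for the resolvent -/
theorem resolvent_mul {N : Matrix ι ι ℝ} (hH : N.IsHermitian) {h : ℝ}
    (hh : ∀ k, hH.eigenvalues k ≠ h) :
    (N - h • (1 : Matrix ι ι ℝ)) *
      (Matrix.of fun x y => ∑ k, ev hH k x * ev hH k y / (hH.eigenvalues k - h)) = 1 := by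
  ext x y
  rw [mul_apply, one_apply]
  have h1 : ∀ k, ∑ z, (N - h • (1 : Matrix ι ι ℝ)) x z * ev hH k z
      = (hH.eigenvalues k - h) * ev hH k x := by
    intro k
    have := congrFun (mulVec_ev hH k) x
    simp only [mulVec, dotProduct, Pi.smul_apply, smul_eq_mul] at this
    simp only [Matrix.sub_apply, Matrix.smul_apply, sub_mul, Finset.sum_sub_distrib, this,
      smul_eq_mul, one_apply]
    simp
  calc ∑ z, (N - h • (1 : Matrix ι ι ℝ)) x z *
        (Matrix.of fun x y => ∑ k, ev hH k x * ev hH k y / (hH.eigenvalues k - h)) z y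
      = ∑ z, ∑ k, (N - h • (1 : Matrix ι ι ℝ)) x z * ev hH k z
          * (ev hH k y / (hH.eigenvalues k - h)) := by
        refine Finset.sum_congr rfl fun z _ => ?_
        rw [of_apply, Finset.mul_sum]
        exact Finset.sum_congr rfl fun k _ => by ring
    _ = ∑ k, (∑ z, (N - h • (1 : Matrix ι ι ℝ)) x z * ev hH k z)
          * (ev hH k y / (hH.eigenvalues k - h)) := by
        rw [Finset.sum_comm]
        exact Finset.sum_congr rfl fun k _ => by rw [Finset.sum_mul]
    _ = ∑ k, ev hH k x * ev hH k y := by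
        refine Finset.sum_congr rfl fun k _ => ?_
        rw [h1 k]
        have : hH.eigenvalues k - h ≠ 0 := sub_ne_zero.mpr (hh k)
        field_simp
    _ = _ := sum_ev' hH x y

theorem isUnit_sub {N : Matrix ι ι ℝ} (hH : N.IsHermitian) {h : ℝ}
    (hh : ∀ k, hH.eigenvalues k ≠ h) : IsUnit (N - h • (1 : Matrix ι ι ℝ)) :=
  IsUnit.of_mul_eq_one _ (resolvent_mul hH hh)

theorem resolvent_apply {N : Matrix ι ι ℝ} (hH : N.IsHermitian) {h : ℝ}
    (hh : ∀ k, hH.eigenvalues k ≠ h) (x y : ι) :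
    (N - h • (1 : Matrix ι ι ℝ))⁻¹ x y
      = ∑ k, ev hH k x * ev hH k y / (hH.eigenvalues k - h) := by
  rw [inv_eq_right_inv (resolvent_mul hH hh), of_apply]

end Spectral

section Poles

variable {ι : Type*} [Fintype ι]

/-- A Herglotz sum with a pole near by is large outside a small set. -/
theorem volume_herglotz (lam w : ι → ℝ) (hw : ∀ j, 0 ≤ w j) {k : ι} (hk : 0 < w k)
    {ρ K : ℝ} (hρ : 0 < ρ) (hK : 0 < K) :
    volume {h : ℝ | |h - lam k| ≤ ρ ∧ (∀ j, lam j ≠ h) ∧ |∑ j, w j / (lam j - h)| < K}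
      ≤ ENNReal.ofReal ((Fintype.card ι + 1) * (2 * K * ρ ^ 2 / w k)) := by
  classical
  set B : Set ℝ := {h : ℝ | |h - lam k| ≤ ρ ∧ (∀ j, lam j ≠ h) ∧ |∑ j, w j / (lam j - h)| < K}
    with hB
  set cnt : ℝ → ℕ := fun h => (Finset.univ.filter fun j => lam j < h).card with hcnt
  have hcov : B ⊆ ⋃ c ∈ Finset.range (Fintype.card ι + 1), {h | h ∈ B ∧ cnt h = c} := by
    intro h hh
    simp only [mem_iUnion, Finset.mem_range, exists_prop]
    exact ⟨cnt h, Nat.lt_succ_of_le (Finset.card_le_univ _), hh, rfl⟩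
  have key : ∀ h ∈ B, ∀ h' ∈ B, h ≤ h' → cnt h = cnt h' → h' - h ≤ 2 * K * ρ ^ 2 / w k := by
    intro h hh h' hh' hle hc
    obtain ⟨hh1, hh2, hh3⟩ := hh
    obtain ⟨hh1', hh2', hh3'⟩ := hh'
    -- no pole between
    have hno : ∀ j, lam j < h ∨ h' < lam j := by
      intro j
      by_contra hcon
      push Not at hcon
      have h1 : h < lam j := lt_of_le_of_ne hcon.1 (Ne.symm (hh2 j))
      have h2 : lam j < h' := lt_of_le_of_ne hcon.2 (hh2' j)
      have hsub : (Finset.univ.filter fun j => lam j < h) ⊂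
          (Finset.univ.filter fun j => lam j < h') := by
        rw [Finset.ssubset_iff_of_subset]
        · exact ⟨j, by simp [h2], by simp [h1.le]⟩
        · intro i hi
          simp only [Finset.mem_filter, Finset.mem_univ, true_and] at hi ⊢
          exact lt_of_lt_of_le hi hle
      have := Finset.card_lt_card hsub
      simp only [hcnt] at hc
      omega
    have hterm : ∀ j, 0 ≤ w j / (lam j - h') - w j / (lam j - h) := by
      intro j
      rw [div_sub_div _ _ (sub_ne_zero.mpr (hh2' j)) (sub_ne_zero.mpr (hh2 j))]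
      apply div_nonneg
      · have : w j * (lam j - h) - (lam j - h') * w j = w j * (h' - h) := by ring
        rw [this]
        exact mul_nonneg (hw j) (sub_nonneg.mpr hle)
      · rcases hno j with h1 | h1
        · exact (mul_pos_of_neg_of_neg (by linarith) (by linarith)).le
        · exact (mul_pos (by linarith) (by linarith)).le
    have hkterm : w k * (h' - h) / ρ ^ 2 ≤ w k / (lam k - h') - w k / (lam k - h) := by
      rw [div_sub_div _ _ (sub_ne_zero.mpr (hh2' k)) (sub_ne_zero.mpr (hh2 k))]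
      have e1 : w k * (lam k - h) - (lam k - h') * w k = w k * (h' - h) := by ring
      rw [e1]
      have hpos : 0 < (lam k - h') * (lam k - h) := by
        rcases hno k with h1 | h1
        · exact mul_pos_of_neg_of_neg (by linarith) (by linarith)
        · exact mul_pos (by linarith) (by linarith)
      have hle2 : (lam k - h') * (lam k - h) ≤ ρ ^ 2 := by
        calc (lam k - h') * (lam k - h) ≤ |(lam k - h') * (lam k - h)| := le_abs_self _
          _ = |h' - lam k| * |h - lam k| := by rw [abs_mul, abs_sub_comm, abs_sub_comm (lam k) h]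
          _ ≤ ρ * ρ := mul_le_mul hh1' hh1 (abs_nonneg _) hρ.le
          _ = _ := by ring
      exact div_le_div_of_nonneg_left (mul_nonneg hk.le (sub_nonneg.mpr hle)) hpos hle2
    have hsum : w k * (h' - h) / ρ ^ 2
        ≤ ∑ j, w j / (lam j - h') - ∑ j, w j / (lam j - h) := by
      rw [← Finset.sum_sub_distrib]
      exact hkterm.trans (Finset.single_le_sum (f := fun j => w j / (lam j - h')
        - w j / (lam j - h)) (fun j _ => hterm j) (Finset.mem_univ k))
    have h2K : w k * (h' - h) / ρ ^ 2 ≤ 2 * K := by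
      have := abs_lt.mp hh3
      have := abs_lt.mp hh3'
      linarith
    rw [div_le_iff₀ (by positivity)] at h2K
    rw [le_div_iff₀ hk]
    linarith
  have hdiam : ∀ c, volume {h | h ∈ B ∧ cnt h = c} ≤ ENNReal.ofReal (2 * K * ρ ^ 2 / w k) := by
    intro c
    refine (Real.volume_le_diam _).trans (Metric.ediam_le ?_)
    rintro h ⟨hh, hc⟩ h' ⟨hh', hc'⟩
    rw [edist_dist, Real.dist_eq]
    apply ENNReal.ofReal_le_ofReal
    rcases le_total h h' with hle | hle
    · rw [abs_sub_comm, abs_of_nonneg (sub_nonneg.mpr hle)]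
      exact key h hh h' hh' hle (hc.trans hc'.symm)
    · rw [abs_of_nonneg (sub_nonneg.mpr hle)]
      exact key h' hh' h hh hle (hc'.trans hc.symm)
  calc volume B ≤ volume (⋃ c ∈ Finset.range (Fintype.card ι + 1), {h | h ∈ B ∧ cnt h = c}) :=
        measure_mono hcov
    _ ≤ ∑ c ∈ Finset.range (Fintype.card ι + 1), volume {h | h ∈ B ∧ cnt h = c} :=
        measure_biUnion_finset_le _ _
    _ ≤ ∑ _c ∈ Finset.range (Fintype.card ι + 1), ENNReal.ofReal (2 * K * ρ ^ 2 / w k) :=
        Finset.sum_le_sum fun c _ => hdiam c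
    _ = _ := by
        rw [Finset.sum_const, Finset.card_range, nsmul_eq_mul,
          ENNReal.ofReal_mul (by positivity)]
        congr 1
        rw [ENNReal.ofReal_add (by positivity) (by norm_num), ENNReal.ofReal_natCast]
        simp

/-- A good shift: outside a given small set, away from the poles, with a large value. -/
theorem exists_shift (lam w : ι → ℝ) (hw : ∀ j, 0 ≤ w j) {k : ι} (hk : 0 < w k)
    {ρ K : ℝ} (hρ : 0 < ρ) (hK : 0 < K)
    (hρK : (Fintype.card ι + 1) * (2 * K * ρ ^ 2 / w k) ≤ ρ)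
    {Bad : Set ℝ} (hBad : volume Bad < ENNReal.ofReal ρ) :
    ∃ h : ℝ, |h - lam k| ≤ ρ ∧ (∀ j, lam j ≠ h) ∧ h ∉ Bad ∧ K ≤ |∑ j, w j / (lam j - h)| := by
  classical
  by_contra hcon
  push Not at hcon
  have hsub : Icc (lam k - ρ) (lam k + ρ) ⊆
      ({h : ℝ | |h - lam k| ≤ ρ ∧ (∀ j, lam j ≠ h) ∧ |∑ j, w j / (lam j - h)| < K} ∪ Bad)
        ∪ (Set.range lam) := by
    intro h hh
    have hh1 : |h - lam k| ≤ ρ := abs_le.mpr ⟨by linarith [hh.1], by linarith [hh.2]⟩
    by_cases hr : h ∈ Set.range lam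
    · exact Or.inr hr
    · have hr' : ∀ j, lam j ≠ h := fun j hj => hr ⟨j, hj⟩
      by_cases hb : h ∈ Bad
      · exact Or.inl (Or.inr hb)
      · exact Or.inl (Or.inl ⟨hh1, hr', hcon h hh1 hr' hb⟩)
  have h1 : volume (Icc (lam k - ρ) (lam k + ρ)) < ENNReal.ofReal (2 * ρ) := by
    calc volume (Icc (lam k - ρ) (lam k + ρ)) ≤ _ := measure_mono hsub
      _ ≤ volume ({h : ℝ | |h - lam k| ≤ ρ ∧ (∀ j, lam j ≠ h) ∧
            |∑ j, w j / (lam j - h)| < K} ∪ Bad) + volume (Set.range lam) :=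
          measure_union_le _ _
      _ = volume ({h : ℝ | |h - lam k| ≤ ρ ∧ (∀ j, lam j ≠ h) ∧
            |∑ j, w j / (lam j - h)| < K} ∪ Bad) := by
          rw [(Set.finite_range lam).measure_zero, add_zero]
      _ ≤ volume {h : ℝ | |h - lam k| ≤ ρ ∧ (∀ j, lam j ≠ h) ∧
            |∑ j, w j / (lam j - h)| < K} + volume Bad := measure_union_le _ _
      _ ≤ ENNReal.ofReal ρ + volume Bad := by
          gcongr
          exact (volume_herglotz lam w hw hk hρ hK).trans (ENNReal.ofReal_le_ofReal hρK)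
      _ < ENNReal.ofReal ρ + ENNReal.ofReal ρ :=
          ENNReal.add_lt_add_left ENNReal.ofReal_ne_top hBad
      _ = ENNReal.ofReal (2 * ρ) := by
          rw [← ENNReal.ofReal_add hρ.le hρ.le]; congr 1; ring
  rw [Real.volume_Icc] at h1
  apply absurd h1
  rw [not_lt]
  apply ENNReal.ofReal_le_ofReal
  linarith

end Poles

section Removed

variable {ι : Type*} [Fintype ι] [DecidableEq ι] {F : Type*} [Field F]

/-- The resolvent with the site `y` removed. -/
def rem (G : Matrix ι ι F) (y : ι) : Matrix {x // x ≠ y} {x // x ≠ y} F :=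
  Matrix.of fun x b => G x b - G x y * G y b / G y y

theorem sum_ne (y : ι) (f : ι → F) : ∑ x : {x // x ≠ y}, f x = ∑ x, f x - f y := by
  rw [← Finset.sum_erase_eq_sub (Finset.mem_univ y)]
  exact (Finset.sum_subtype (Finset.univ.erase y) (by simp) f).symm

theorem removed_mul {M G : Matrix ι ι F} (hMG : M * G = 1) {y : ι} (hy : G y y ≠ 0) :
    M.submatrix (Subtype.val : {x // x ≠ y} → ι) Subtype.val * rem G y = 1 := by
  have hmul : ∀ x b, ∑ z, M x z * G z b = if x = b then 1 else 0 := by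
    intro x b
    rw [← mul_apply, hMG, one_apply]
  ext x b
  have hx : (x : ι) ≠ y := x.2
  rw [mul_apply, one_apply]
  calc ∑ z : {x // x ≠ y}, M.submatrix (Subtype.val : {x // x ≠ y} → ι) Subtype.val x z
        * rem G y z b
      = ∑ z, M x z * (G z b - G z y * G y b / G y y)
          - M x y * (G y b - G y y * G y b / G y y) :=
        sum_ne y fun z => M x z * (G z b - G z y * G y b / G y y)
    _ = ∑ z, M x z * (G z b - G z y * G y b / G y y) := by
        rw [mul_div_assoc, mul_div_cancel₀ _ hy, sub_self, mul_zero, sub_zero]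
    _ = ∑ z, (M x z * G z b - M x z * G z y * (G y b / G y y)) :=
        Finset.sum_congr rfl fun z _ => by ring
    _ = (if (x : ι) = b then 1 else 0) - (if (x : ι) = y then 1 else 0) * (G y b / G y y) := by
        rw [Finset.sum_sub_distrib, ← Finset.sum_mul, hmul, hmul]
    _ = if x = b then 1 else 0 := by
        rw [if_neg hx, zero_mul, sub_zero]
        simp [Subtype.ext_iff]

/-- The self-energy identity: `1 / G y y = M y y - Σ M y x (rem G) x x' M x' y`. -/
theorem removed_selfenergy {M G : Matrix ι ι F} (hMG : M * G = 1) {y : ι} (hy : G y y ≠ 0) :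
    (G y y)⁻¹ = M y y
      - ∑ x : {x // x ≠ y}, ∑ x' : {x // x ≠ y}, M y x * rem G y x x' * M x' y := by
  have hGM : G * M = 1 := mul_eq_one_comm.mp hMG
  have hmul' : ∀ x b, ∑ z, G x z * M z b = if x = b then 1 else 0 := by
    intro x b
    rw [← mul_apply, hGM, one_apply]
  have hmul : ∀ x b, ∑ z, M x z * G z b = if x = b then 1 else 0 := by
    intro x b
    rw [← mul_apply, hMG, one_apply]
  have h1 : ∀ x : {x // x ≠ y}, ∑ x' : {x // x ≠ y}, M y x * rem G y x x' * M x' y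
      = M y x * (- G x y / G y y) := by
    intro x
    have hx : (x : ι) ≠ y := x.2
    calc ∑ x' : {x // x ≠ y}, M y x * rem G y x x' * M x' y
        = ∑ z, M y x * (G x z - G x y * G y z / G y y) * M z y
            - M y x * (G x y - G x y * G y y / G y y) * M y y :=
          sum_ne y fun z => M y x * (G x z - G x y * G y z / G y y) * M z y
      _ = ∑ z, M y x * (G x z - G x y * G y z / G y y) * M z y := by
          rw [mul_div_cancel_right₀ _ hy, sub_self, mul_zero, zero_mul, sub_zero]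
      _ = ∑ z, (M y x * (G x z * M z y) - M y x * (G x y / G y y) * (G y z * M z y)) :=
          Finset.sum_congr rfl fun z _ => by ring
      _ = M y x * (if (x : ι) = y then 1 else 0)
            - M y x * (G x y / G y y) * (if y = y then 1 else 0) := by
          rw [Finset.sum_sub_distrib, ← Finset.mul_sum, ← Finset.mul_sum, hmul', hmul']
      _ = _ := by
          rw [if_neg hx, if_pos rfl]; ring
  calc (G y y)⁻¹ = M y y - (∑ z, M y z * (- G z y / G y y) - M y y * (- G y y / G y y)) := by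
        have e4 : ∑ z, M y z * (- G z y / G y y) = - (G y y)⁻¹ := by
          calc ∑ z, M y z * (- G z y / G y y) = ∑ z, - (M y z * G z y) * (G y y)⁻¹ :=
                Finset.sum_congr rfl fun z _ => by ring
            _ = _ := by
                rw [← Finset.sum_mul, Finset.sum_neg_distrib, hmul, if_pos rfl]; ring
        rw [e4]
        field_simp
        ring
    _ = M y y - ∑ x : {x // x ≠ y}, M y x * (- G x y / G y y) := by
        rw [← sum_ne y fun z => M y z * (- G z y / G y y)]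
    _ = _ := by simp_rw [h1]

end Removed

section Main

variable {ι : Type*} [Fintype ι] [DecidableEq ι]

/-- **Trap resonance by an energy shift.** `N` has an approximate null vector supported in `S`.
Then there is a site `y ∈ S` such that for every small exceptional set `Bad` of shifts there is
a small shift `h ∉ Bad` with `N - h` invertible and `|(N - h)⁻¹ y y| ≥ K`. -/
theorem trap {N : Matrix ι ι ℝ} (hH : N.IsHermitian) {ρ₀ : ℝ} (hρ₀ : 0 < ρ₀)
    {ψ : ι → ℝ} (h0 : ψ ≠ 0) {S : Finset ι} (hS : ∀ x, x ∉ S → ψ x = 0)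
    (h : (N *ᵥ ψ) ⬝ᵥ (N *ᵥ ψ) ≤ ρ₀ ^ 2 * (ψ ⬝ᵥ ψ)) :
    ∃ y ∈ S, ∀ ρ K : ℝ, 0 < ρ → 0 < K →
      (Fintype.card ι + 1) * (2 * K * ρ * (4 / 3 * (Fintype.card ι * S.card))) ≤ 1 →
      ∀ Bad : Set ℝ, volume Bad < ENNReal.ofReal ρ →
      ∃ t : ℝ, |t| ≤ 2 * ρ₀ + ρ ∧ t ∉ Bad ∧ IsUnit (N - t • (1 : Matrix ι ι ℝ)) ∧
        K ≤ |(N - t • (1 : Matrix ι ι ℝ))⁻¹ y y| := by
  obtain ⟨k, hk, y, hy, hw⟩ := exists_eigpair hH hρ₀ h0 hS h
  refine ⟨y, hy, fun ρ K hρ hK hsmall Bad hBad => ?_⟩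
  have hcard : (0 : ℝ) < Fintype.card ι := by exact_mod_cast Fintype.card_pos_iff.mpr ⟨y⟩
  have hS0 : (0 : ℝ) < S.card := by exact_mod_cast Finset.card_pos.mpr ⟨y, hy⟩
  have hq : (0 : ℝ) < 3 / (4 * (Fintype.card ι * S.card)) := by positivity
  have hwk : 0 < ev hH k y ^ 2 := lt_of_lt_of_le hq hw
  have hρK : (Fintype.card ι + 1) * (2 * K * ρ ^ 2 / ev hH k y ^ 2) ≤ ρ := by
    have e1 : 2 * K * ρ ^ 2 / ev hH k y ^ 2
        ≤ 2 * K * ρ ^ 2 / (3 / (4 * (Fintype.card ι * S.card))) :=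
      div_le_div_of_nonneg_left (by positivity) hq hw
    have e2 : 2 * K * ρ ^ 2 / (3 / (4 * ((Fintype.card ι : ℝ) * S.card)))
        = ρ * (2 * K * ρ * (4 / 3 * (Fintype.card ι * S.card))) := by
      field_simp
    rw [e2] at e1
    calc (Fintype.card ι + 1) * (2 * K * ρ ^ 2 / ev hH k y ^ 2)
        ≤ (Fintype.card ι + 1) * (ρ * (2 * K * ρ * (4 / 3 * (Fintype.card ι * S.card)))) := by
          gcongr
      _ = ρ * ((Fintype.card ι + 1) * (2 * K * ρ * (4 / 3 * (Fintype.card ι * S.card)))) := by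
          ring
      _ ≤ ρ * 1 := by gcongr
      _ = ρ := mul_one _
  obtain ⟨t, ht1, ht2, ht3, ht4⟩ := exists_shift hH.eigenvalues (fun j => ev hH j y ^ 2)
    (fun j => sq_nonneg _) hwk hρ hK hρK hBad
  refine ⟨t, ?_, ht3, isUnit_sub hH ht2, ?_⟩
  · calc |t| = |(t - hH.eigenvalues k) + hH.eigenvalues k| := by ring_nf
      _ ≤ |t - hH.eigenvalues k| + |hH.eigenvalues k| := abs_add_le _ _
      _ ≤ ρ + 2 * ρ₀ := add_le_add ht1 hk
      _ = _ := by ring
  · rw [resolvent_apply hH ht2]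
    simpa only [← pow_two] using ht4

/-- The resolvent with the site `y` removed, for an invertible matrix with `G y y ≠ 0`:
it is the inverse of the compressed matrix, and the self-energy identity holds. -/
theorem removed {M : Matrix ι ι ℝ} (hM : IsUnit M) {y : ι} (hy : M⁻¹ y y ≠ 0) :
    (M.submatrix (Subtype.val : {x // x ≠ y} → ι) Subtype.val)⁻¹ = rem M⁻¹ y ∧
    IsUnit (M.submatrix (Subtype.val : {x // x ≠ y} → ι) (Subtype.val : {x // x ≠ y} → ι)) ∧
    (M⁻¹ y y)⁻¹ = M y y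
      - ∑ x : {x // x ≠ y}, ∑ x' : {x // x ≠ y}, M y x *
          (M.submatrix (Subtype.val : {x // x ≠ y} → ι) Subtype.val)⁻¹ x x' * M x' y := by
  have h1 : M * M⁻¹ = 1 := mul_nonsing_inv _ ((isUnit_iff_isUnit_det _).mp hM)
  have h2 := removed_mul h1 hy
  have h3 := inv_eq_right_inv h2
  exact ⟨h3, IsUnit.of_mul_eq_one _ h2, by rw [h3]; exact removed_selfenergy h1 hy⟩

end Main

end Vale.Agent.P365.C937
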