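import Mathlib

/-!
# P365 T1, chapter C, step (5): variance in the one variable `V_ρ`

`F v = γ + κ / (v - s) * φ`.  If `|κ / (v - s)| ≥ δ` on a set `S ⊆ [-L, L]` of measure at least
`w`, then `∫_S |F|² ≥ (3/256) w³ δ² |φ|² / (L + |s|)²`, whatever `γ` is (no cancellation).
-/

open MeasureTheory Set

namespace Vale.Agent.P365.C937

/-- two values of `F` can not both be small -/
theorem two_values {γ φ κ s : ℂ} {v v' L δ : ℝ} (hδ : 0 ≤ δ) (hv' : |v'| ≤ L)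
    (hκ : δ ≤ ‖κ / (v - s)‖) (hne : (v : ℂ) - s ≠ 0) (hne' : (v' : ℂ) - s ≠ 0)
    (hL : 0 < L + ‖s‖) :
    (|v - v'| * δ * ‖φ‖ / (L + ‖s‖)) ^ 2
      ≤ 2 * ‖γ + κ / (v - s) * φ‖ ^ 2 + 2 * ‖γ + κ / (v' - s) * φ‖ ^ 2 := by
  have h1 : ‖(γ + κ / (v' - s) * φ) - (γ + κ / (v - s) * φ)‖
      = |v - v'| * ‖κ / (v - s)‖ * ‖φ‖ / ‖(v' : ℂ) - s‖ := by
    have : (γ + κ / (v' - s) * φ) - (γ + κ / (v - s) * φ)
        = (((v - v' : ℝ)) : ℂ) * (κ / (v - s)) * φ / (v' - s) := by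
      push_cast
      field_simp
      ring
    rw [this, norm_div, norm_mul, norm_mul, Complex.norm_real, Real.norm_eq_abs]
  have h2 : |v - v'| * δ * ‖φ‖ / (L + ‖s‖)
      ≤ ‖(γ + κ / (v' - s) * φ) - (γ + κ / (v - s) * φ)‖ := by
    rw [h1]
    have h3 : ‖(v' : ℂ) - s‖ ≤ L + ‖s‖ := by
      calc _ ≤ ‖(v' : ℂ)‖ + ‖s‖ := norm_sub_le _ _
        _ ≤ _ := by
          rw [Complex.norm_real, Real.norm_eq_abs]
          linarith
    have h4 : 0 < ‖(v' : ℂ) - s‖ := norm_pos_iff.mpr hne'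
    calc |v - v'| * δ * ‖φ‖ / (L + ‖s‖) ≤ |v - v'| * δ * ‖φ‖ / ‖(v' : ℂ) - s‖ :=
          div_le_div_of_nonneg_left (by positivity) h4 h3
      _ ≤ |v - v'| * ‖κ / (v - s)‖ * ‖φ‖ / ‖(v' : ℂ) - s‖ := by gcongr
  have h5 : ‖(γ + κ / (v' - s) * φ) - (γ + κ / (v - s) * φ)‖
      ≤ ‖γ + κ / (v' - s) * φ‖ + ‖γ + κ / (v - s) * φ‖ := norm_sub_le _ _
  have h6 : 0 ≤ |v - v'| * δ * ‖φ‖ / (L + ‖s‖) := by positivity
  calc (|v - v'| * δ * ‖φ‖ / (L + ‖s‖)) ^ 2
      ≤ (‖γ + κ / (v' - s) * φ‖ + ‖γ + κ / (v - s) * φ‖) ^ 2 := by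
        have := h2.trans h5
        gcongr
    _ ≤ _ := by
        nlinarith [sq_nonneg (‖γ + κ / (v' - s) * φ‖ - ‖γ + κ / (v - s) * φ‖)]

/-- **One-variable variance bound.** -/
theorem var_one {S : Set ℝ} (hS : MeasurableSet S) {L w δ : ℝ} (hSL : ∀ v ∈ S, |v| ≤ L)
    (hw0 : 0 < w) (hw : ENNReal.ofReal w ≤ volume S) (hδ : 0 < δ) {s κ : ℂ}
    (hκ : ∀ v ∈ S, δ ≤ ‖κ / (v - s)‖) (γ φ : ℂ) :
    ENNReal.ofReal (3 / 256 * w ^ 3 * δ ^ 2 * ‖φ‖ ^ 2 / (L + ‖s‖) ^ 2)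
      ≤ ∫⁻ v in S, ENNReal.ofReal (‖γ + κ / (v - s) * φ‖ ^ 2) := by
  have hne : ∀ v ∈ S, (v : ℂ) - s ≠ 0 := by
    intro v hv h0
    have := hκ v hv
    rw [h0, div_zero, norm_zero] at this
    linarith
  -- `L` is positive
  have hLpos : 0 < L := by
    by_contra hL
    push Not at hL
    have hsub : S ⊆ {0} := by
      intro v hv
      have := hSL v hv
      have h0 : |v| = 0 := le_antisymm (this.trans hL) (abs_nonneg v)
      exact abs_eq_zero.mp h0
    have hz : volume S = 0 := measure_mono_null hsub (by simp)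
    rw [hz] at hw
    have := ENNReal.ofReal_pos.mpr hw0
    exact absurd hw (not_le.mpr this)
  have hLs : 0 < L + ‖s‖ := by positivity
  set F : ℝ → ℂ := fun v => γ + κ / (v - s) * φ with hF
  set m : ℝ := (w / 4 * δ * ‖φ‖ / (L + ‖s‖)) ^ 2 / 4 with hm
  have hm0 : 0 ≤ m := by positivity
  have hFm : Measurable F := by
    have h1 : Measurable fun v : ℝ => (v : ℂ) - s :=
      Complex.measurable_ofReal.sub_const s
    exact ((measurable_const.div h1).mul_const φ).const_add γ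
  set T : Set ℝ := {v | v ∈ S ∧ ‖F v‖ ^ 2 < m} with hT
  have hTm : MeasurableSet T := hS.inter (measurableSet_lt (hFm.norm.pow_const 2) measurable_const)
  have hTd : volume T ≤ ENNReal.ofReal (w / 4) := by
    refine (Real.volume_le_diam _).trans (Metric.ediam_le ?_)
    rintro v ⟨hv, hv1⟩ v' ⟨hv', hv1'⟩
    rw [edist_dist, Real.dist_eq]
    apply ENNReal.ofReal_le_ofReal
    by_contra hcon
    push Not at hcon
    have h1 := two_values (γ := γ) (φ := φ) hδ.le (hSL v' hv') (hκ v hv) (hne v hv)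
      (hne v' hv') hLs
    have h2 : (w / 4 * δ * ‖φ‖ / (L + ‖s‖)) ^ 2 ≤ (|v - v'| * δ * ‖φ‖ / (L + ‖s‖)) ^ 2 := by
      gcongr
    have h3 : 2 * ‖γ + κ / (v - s) * φ‖ ^ 2 + 2 * ‖γ + κ / (v' - s) * φ‖ ^ 2 < 4 * m := by
      simp only [hF] at hv1 hv1'
      linarith
    have h4 : 4 * m = (w / 4 * δ * ‖φ‖ / (L + ‖s‖)) ^ 2 := by rw [hm]; ring
    rw [h4] at h3
    exact absurd (h2.trans h1) (not_le.mpr h3)
  have hST : ENNReal.ofReal (3 * w / 4) ≤ volume (S \ T) := by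
    have h1 : volume S ≤ volume (S \ T) + volume T := by
      calc volume S ≤ volume (S \ T ∪ T) := measure_mono (by
            intro x hx
            by_cases h : x ∈ T
            · exact Or.inr h
            · exact Or.inl ⟨hx, h⟩)
        _ ≤ _ := measure_union_le _ _
    have h2 : ENNReal.ofReal w ≤ volume (S \ T) + ENNReal.ofReal (w / 4) :=
      (hw.trans h1).trans (by gcongr)
    have h3 : ENNReal.ofReal w = ENNReal.ofReal (3 * w / 4) + ENNReal.ofReal (w / 4) := by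
      rw [← ENNReal.ofReal_add (by positivity) (by positivity)]; congr 1; ring
    rw [h3] at h2
    exact (ENNReal.add_le_add_iff_right ENNReal.ofReal_ne_top).mp h2
  calc ENNReal.ofReal (3 / 256 * w ^ 3 * δ ^ 2 * ‖φ‖ ^ 2 / (L + ‖s‖) ^ 2)
      = ENNReal.ofReal m * ENNReal.ofReal (3 * w / 4) := by
        rw [← ENNReal.ofReal_mul hm0]
        congr 1
        rw [hm]
        field_simp
        ring
    _ ≤ ENNReal.ofReal m * volume (S \ T) := by gcongr
    _ = ∫⁻ _v in S \ T, ENNReal.ofReal m := by rw [setLIntegral_const]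
    _ ≤ ∫⁻ v in S \ T, ENNReal.ofReal (‖F v‖ ^ 2) := by
        apply setLIntegral_mono' (hS.diff hTm)
        intro v hv
        apply ENNReal.ofReal_le_ofReal
        by_contra hcon
        push Not at hcon
        exact hv.2 ⟨hv.1, hcon⟩
    _ ≤ ∫⁻ v in S, ENNReal.ofReal (‖F v‖ ^ 2) := lintegral_mono_set sdiff_subset

/-- weighted sum version: the far energy of a vector `Γ + g(v) Φ` -/
theorem var_sum {ι : Type*} [Fintype ι] {S : Set ℝ} (hS : MeasurableSet S) {L w δ : ℝ}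
    (hSL : ∀ v ∈ S, |v| ≤ L) (hw0 : 0 < w) (hw : ENNReal.ofReal w ≤ volume S) (hδ : 0 < δ)
    {s κ : ℂ} (hκ : ∀ v ∈ S, δ ≤ ‖κ / (v - s)‖) (c : ι → ℝ) (hc : ∀ a, 0 ≤ c a) (Γ Φ : ι → ℂ) :
    ENNReal.ofReal (3 / 256 * w ^ 3 * δ ^ 2 / (L + ‖s‖) ^ 2 * ∑ a, c a * ‖Φ a‖ ^ 2)
      ≤ ∫⁻ v in S, ENNReal.ofReal (∑ a, c a * ‖Γ a + κ / (v - s) * Φ a‖ ^ 2) := by
  have h0 : 0 ≤ 3 / 256 * w ^ 3 * δ ^ 2 / (L + ‖s‖) ^ 2 := by positivity
  calc ENNReal.ofReal (3 / 256 * w ^ 3 * δ ^ 2 / (L + ‖s‖) ^ 2 * ∑ a, c a * ‖Φ a‖ ^ 2)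
      = ∑ a, ENNReal.ofReal (c a) *
          ENNReal.ofReal (3 / 256 * w ^ 3 * δ ^ 2 * ‖Φ a‖ ^ 2 / (L + ‖s‖) ^ 2) := by
        rw [Finset.mul_sum, ENNReal.ofReal_sum_of_nonneg]
        · refine Finset.sum_congr rfl fun a _ => ?_
          rw [← ENNReal.ofReal_mul (hc a)]
          congr 1
          ring
        · intro a _
          have := hc a
          positivity
    _ ≤ ∑ a, ENNReal.ofReal (c a) *
          ∫⁻ v in S, ENNReal.ofReal (‖Γ a + κ / (v - s) * Φ a‖ ^ 2) := by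
        gcongr with a _
        exact var_one hS hSL hw0 hw hδ hκ (Γ a) (Φ a)
    _ = ∫⁻ v in S, ∑ a, ENNReal.ofReal (c a) *
          ENNReal.ofReal (‖Γ a + κ / (v - s) * Φ a‖ ^ 2) := by
        have hm : ∀ a, Measurable fun v : ℝ =>
            ENNReal.ofReal (‖Γ a + κ / (v - s) * Φ a‖ ^ 2) := by
          intro a
          have h1 : Measurable fun v : ℝ => (v : ℂ) - s :=
            Complex.measurable_ofReal.sub_const s
          exact ((((measurable_const.div h1).mul_const _).const_add _).norm.pow_const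
            2).ennreal_ofReal
        rw [lintegral_finsetSum _ fun a _ => (hm a).const_mul _]
        exact Finset.sum_congr rfl fun a _ => (lintegral_const_mul _ (hm a)).symm
    _ = _ := by
        congr 1
        ext v
        rw [ENNReal.ofReal_sum_of_nonneg]
        · exact Finset.sum_congr rfl fun a _ => (ENNReal.ofReal_mul (hc a)).symm
        · intro a _
          have := hc a
          positivity

end Vale.Agent.P365.C937
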