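import Vale.Agent.P365.T1a.Cost
import Vale.Agent.P365.C937.VarOne

/-!
# P365 T1: the unit wave of `y` as a function of the potential of another site `ρ`

`gw A W y a = Gam a + kap / (W ρ - sgy) * Phi a` where
* `Phi a = Gi^y_{aρ} / Gi^y_{ρρ}` is the unit wave of `ρ` with `y` removed,
* `sgy` is the self-energy of `ρ` with `y` removed,
and `Phi, sgy, kap, Gam` do not depend on `W ρ` nor on `W y`.
-/

set_option linter.all false

namespace P365T1

open P365L P365O Matrix Complex MeasureTheory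
open scoped ComplexConjugate

variable {ι : Type*} [Fintype ι] [DecidableEq ι] {A : Matrix ι ι ℝ} {W : ι → ℂ} {y ρ : ι}

/-- the Green function with one site removed does not vanish on the diagonal -/
theorem Gi_self_ne_zero (hA : A.IsSymm) (hW : ∀ x, (W x).im < 0) (hne : y ≠ ρ) :
    Gi A W ρ y y ≠ 0 := by
  intro h0
  -- all `Gi ρ y c` vanish
  have h1 : ∑ c, ((-(W c).im : ℝ) : ℂ) * (Gi A W ρ y c * conj (Gi A W ρ y c)) = 0 := by
    rw [Gi_ward hA hW ρ y y, h0]; simp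
  have h2 : ∑ c, (-(W c).im) * ‖Gi A W ρ y c‖ ^ 2 = 0 := by
    have : ((∑ c, (-(W c).im) * ‖Gi A W ρ y c‖ ^ 2 : ℝ) : ℂ) = 0 := by
      rw [← h1]
      push_cast
      refine Finset.sum_congr rfl fun c _ => ?_
      rw [Complex.mul_conj, Complex.normSq_eq_norm_sq]
      push_cast
      rfl
    exact_mod_cast this
  have h3 : ∀ c, Gi A W ρ y c = 0 := by
    intro c
    have h4 := (Finset.sum_eq_zero_iff_of_nonneg (fun c _ =>
      mul_nonneg (by linarith [hW c]) (sq_nonneg _))).mp h2 c (Finset.mem_univ c)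
    rcases mul_eq_zero.mp h4 with h5 | h5
    · linarith [hW c]
    · exact norm_eq_zero.mp (pow_eq_zero_iff (two_ne_zero)|>.mp h5)
  have h4 : ∀ c, Gr A W y c = gw A W ρ y * Gr A W ρ c := by
    intro c
    have := h3 c
    rw [Gi] at this
    exact sub_eq_zero.mp this
  have h5 := Gr_mul_Kmat hA hW
  have h6 := congrFun (congrFun h5 y) y
  have h7 := congrFun (congrFun h5 ρ) y
  rw [Matrix.mul_apply, Matrix.one_apply_eq] at h6
  rw [Matrix.mul_apply, Matrix.one_apply_ne (Ne.symm hne)] at h7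
  have h8 : ∑ c, Gr A W y c * Kmat A W c y = gw A W ρ y * ∑ c, Gr A W ρ c * Kmat A W c y := by
    rw [Finset.mul_sum]
    exact Finset.sum_congr rfl fun c _ => by rw [h4 c]; ring
  rw [h6, h7, mul_zero] at h8
  exact one_ne_zero h8

/-- unit wave of `ρ` with `y` removed -/
noncomputable def Phi (A : Matrix ι ι ℝ) (W : ι → ℂ) (y ρ a : ι) : ℂ :=
  Gi A W y a ρ / Gi A W y ρ ρ

/-- self-energy of `ρ` with `y` removed -/
noncomputable def sgy (A : Matrix ι ι ℝ) (W : ι → ℂ) (y ρ : ι) : ℂ :=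
  sg A W ρ - gw A W ρ y ^ 2 / Gi A W ρ y y

/-- coupling -/
noncomputable def kap (A : Matrix ι ι ℝ) (W : ι → ℂ) (y ρ : ι) : ℂ :=
  gw A W ρ y / Gi A W ρ y y

/-- direct wave of `y` with `ρ` removed -/
noncomputable def Gam (A : Matrix ι ι ℝ) (W : ι → ℂ) (y ρ a : ι) : ℂ :=
  Gi A W ρ a y / Gi A W ρ y y

theorem two_det (hA : A.IsSymm) (hW : ∀ x, (W x).im < 0) (hne : y ≠ ρ) :
    Gr A W y y * Gr A W ρ ρ - Gr A W y ρ ^ 2 ≠ 0 := by
  have h1 := Gi_self_ne_zero hA hW hne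
  have h2 := Gr_self_ne_zero hA hW ρ
  intro h0
  apply h1
  rw [Gi, gw, Gr_symm hA ρ y, div_mul_eq_mul_div, sub_eq_zero, eq_div_iff h2]
  linear_combination h0

theorem Phi_eq (hA : A.IsSymm) (hW : ∀ x, (W x).im < 0) (hne : y ≠ ρ) (a : ι) :
    Phi A W y ρ a = gw A W ρ a - gw A W ρ y * Gam A W y ρ a := by
  have hD := two_det hA hW hne
  have h1 := Gr_self_ne_zero hA hW ρ
  have h2 := Gr_self_ne_zero hA hW y
  have e1 : Gi A W y a ρ = (Gr A W a ρ * Gr A W y y - Gr A W a y * Gr A W y ρ) / Gr A W y y := by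
    rw [Gi, gw]; field_simp
  have e2 : Gi A W y ρ ρ = (Gr A W y y * Gr A W ρ ρ - Gr A W y ρ ^ 2) / Gr A W y y := by
    rw [Gi, gw, Gr_symm hA ρ y]; field_simp
  have e3 : Gi A W ρ a y = (Gr A W a y * Gr A W ρ ρ - Gr A W a ρ * Gr A W y ρ) / Gr A W ρ ρ := by
    rw [Gi, gw, Gr_symm hA ρ y]; field_simp
  have e4 : Gi A W ρ y y = (Gr A W y y * Gr A W ρ ρ - Gr A W y ρ ^ 2) / Gr A W ρ ρ := by
    rw [Gi, gw, Gr_symm hA ρ y]; field_simp
  rw [Phi, Gam, e1, e2, e3, e4, gw, gw]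
  field_simp
  ring

theorem sgy_eq (hA : A.IsSymm) (hW : ∀ x, (W x).im < 0) (hne : y ≠ ρ) :
    sgy A W y ρ = W ρ - (Gi A W y ρ ρ)⁻¹ := by
  obtain ⟨D, hDd⟩ : ∃ D, D = Gr A W y y * Gr A W ρ ρ - Gr A W y ρ ^ 2 := ⟨_, rfl⟩
  have hD : D ≠ 0 := by rw [hDd]; exact two_det hA hW hne
  have h1 := Gr_self_ne_zero hA hW ρ
  have h2 := Gr_self_ne_zero hA hW y
  have e2 : Gi A W y ρ ρ = D / Gr A W y y := by
    rw [Gi, gw, Gr_symm hA ρ y, hDd]; field_simp
  have e4 : Gi A W ρ y y = D / Gr A W ρ ρ := by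
    rw [Gi, gw, Gr_symm hA ρ y, hDd]; field_simp
  rw [sgy, sg, e2, e4, gw]
  field_simp
  rw [hDd]
  ring

theorem kap_eq (hA : A.IsSymm) (hW : ∀ x, (W x).im < 0) (hne : y ≠ ρ) :
    kap A W y ρ = gw A W y ρ / Gi A W y ρ ρ := by
  have hD := two_det hA hW hne
  have h1 := Gr_self_ne_zero hA hW ρ
  have h2 := Gr_self_ne_zero hA hW y
  have e2 : Gi A W y ρ ρ = (Gr A W y y * Gr A W ρ ρ - Gr A W y ρ ^ 2) / Gr A W y y := by
    rw [Gi, gw, Gr_symm hA ρ y]; field_simp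
  have e4 : Gi A W ρ y y = (Gr A W y y * Gr A W ρ ρ - Gr A W y ρ ^ 2) / Gr A W ρ ρ := by
    rw [Gi, gw, Gr_symm hA ρ y]; field_simp
  rw [kap, e2, e4, gw, gw, Gr_symm hA ρ y]
  field_simp

/-- `W_ρ - sgy` is the inverse of the `y`-removed Green function at `ρ` -/
theorem Gi_self_eq (hA : A.IsSymm) (hW : ∀ x, (W x).im < 0) (hne : y ≠ ρ) :
    Gi A W y ρ ρ = (W ρ - sgy A W y ρ)⁻¹ := by
  rw [sgy_eq hA hW hne, sub_sub_cancel, inv_inv]

theorem gw_rho (hA : A.IsSymm) (hW : ∀ x, (W x).im < 0) (hne : y ≠ ρ) :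
    gw A W y ρ = kap A W y ρ / (W ρ - sgy A W y ρ) := by
  rw [div_eq_mul_inv, ← Gi_self_eq hA hW hne, kap_eq hA hW hne,
    div_mul_cancel₀ _ (Gi_self_ne_zero hA hW hne.symm)]

/-- **The wave of `y` as a function of `W ρ`.** -/
theorem gw_two (hA : A.IsSymm) (hW : ∀ x, (W x).im < 0) (hne : y ≠ ρ) (a : ι) :
    gw A W y a = Gam A W y ρ a + kap A W y ρ / (W ρ - sgy A W y ρ) * Phi A W y ρ a := by
  rw [← gw_rho hA hW hne]
  have hD := two_det hA hW hne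
  have h1 := Gr_self_ne_zero hA hW ρ
  have h2 := Gr_self_ne_zero hA hW y
  have e1 : Gi A W y a ρ = (Gr A W a ρ * Gr A W y y - Gr A W a y * Gr A W y ρ) / Gr A W y y := by
    rw [Gi, gw]; field_simp
  have e2 : Gi A W y ρ ρ = (Gr A W y y * Gr A W ρ ρ - Gr A W y ρ ^ 2) / Gr A W y y := by
    rw [Gi, gw, Gr_symm hA ρ y]; field_simp
  have e3 : Gi A W ρ a y = (Gr A W a y * Gr A W ρ ρ - Gr A W a ρ * Gr A W y ρ) / Gr A W ρ ρ := by
    rw [Gi, gw, Gr_symm hA ρ y]; field_simp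
  have e4 : Gi A W ρ y y = (Gr A W y y * Gr A W ρ ρ - Gr A W y ρ ^ 2) / Gr A W ρ ρ := by
    rw [Gi, gw, Gr_symm hA ρ y]; field_simp
  rw [Phi, Gam, e1, e2, e3, e4, gw, gw, Gr_symm hA ρ y]
  field_simp
  ring

/-! ### independence -/

variable {v : ℂ}

theorem Gam_upd (hA : A.IsSymm) (hW : ∀ x, (W x).im < 0) (hv : v.im < 0) (a : ι) :
    Gam A (Function.update W ρ v) y ρ a = Gam A W y ρ a := by
  rw [Gam, Gam, Gi_upd hA hW hv, Gi_upd hA hW hv]

theorem kap_upd (hA : A.IsSymm) (hW : ∀ x, (W x).im < 0) (hv : v.im < 0) :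
    kap A (Function.update W ρ v) y ρ = kap A W y ρ := by
  rw [kap, kap, Gi_upd hA hW hv, gw_upd hA hW hv]

theorem sgy_upd (hA : A.IsSymm) (hW : ∀ x, (W x).im < 0) (hv : v.im < 0) :
    sgy A (Function.update W ρ v) y ρ = sgy A W y ρ := by
  rw [sgy, sgy, Gi_upd hA hW hv, gw_upd hA hW hv, sg_upd hA hW hv]

theorem Phi_upd (hA : A.IsSymm) (hW : ∀ x, (W x).im < 0) (hne : y ≠ ρ) (hv : v.im < 0) (a : ι) :
    Phi A (Function.update W ρ v) y ρ a = Phi A W y ρ a := by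
  rw [Phi_eq hA (update_neg hW hv) hne, Phi_eq hA hW hne, gw_upd hA hW hv, gw_upd hA hW hv,
    Gam_upd hA hW hv]

theorem kap_upd_y (hA : A.IsSymm) (hW : ∀ x, (W x).im < 0) (hne : y ≠ ρ) (hv : v.im < 0) :
    kap A (Function.update W y v) y ρ = kap A W y ρ := by
  rw [kap_eq hA (update_neg hW hv) hne, kap_eq hA hW hne, gw_upd hA hW hv, Gi_upd hA hW hv]

theorem Phi_upd_y (hA : A.IsSymm) (hW : ∀ x, (W x).im < 0) (hv : v.im < 0) (a : ι) :
    Phi A (Function.update W y v) y ρ a = Phi A W y ρ a := by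
  rw [Phi, Phi, Gi_upd hA hW hv, Gi_upd hA hW hv]

theorem sgy_upd_y (hA : A.IsSymm) (hW : ∀ x, (W x).im < 0) (hne : y ≠ ρ) (hv : v.im < 0) :
    sgy A (Function.update W y v) y ρ = sgy A W y ρ := by
  rw [sgy_eq hA (update_neg hW hv) hne, sgy_eq hA hW hne, Gi_upd hA hW hv,
    Function.update_of_ne hne.symm]

theorem Gam_upd_y (hA : A.IsSymm) (hW : ∀ x, (W x).im < 0) (hne : y ≠ ρ) (hv : v.im < 0) (a : ι) :
    Gam A (Function.update W y v) y ρ a = Gam A W y ρ a := by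
  have h1 := gw_two (W := Function.update W y v) hA (update_neg hW hv) hne a
  have h2 := gw_two hA hW hne a
  rw [gw_upd hA hW hv, kap_upd_y hA hW hne hv, sgy_upd_y hA hW hne hv, Phi_upd_y hA hW hv,
    Function.update_of_ne hne.symm] at h1
  rw [h2] at h1
  exact (add_right_cancel h1).symm

/-- the imaginary part of the self-energy of `ρ` with `y` removed is nonnegative -/
theorem sgy_im_nonneg (hA : A.IsSymm) (hW : ∀ x, (W x).im < 0) (hne : y ≠ ρ) :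
    0 ≤ (sgy A W y ρ).im := by
  have h0 := Gi_self_ne_zero hA hW hne.symm
  have h1 : ((∑ c, (-(W c).im) * ‖Gi A W y ρ c‖ ^ 2 : ℝ) : ℂ) = (((Gi A W y ρ ρ).im : ℝ) : ℂ) := by
    rw [← Gi_ward hA hW y ρ ρ]
    push_cast
    refine Finset.sum_congr rfl fun c _ => ?_
    rw [Complex.mul_conj, Complex.normSq_eq_norm_sq]
    push_cast
    rfl
  have h2 : ∑ c, (-(W c).im) * ‖Gi A W y ρ c‖ ^ 2 = (Gi A W y ρ ρ).im := by exact_mod_cast h1
  have h3 : (-(W ρ).im) * ‖Gi A W y ρ ρ‖ ^ 2 ≤ (Gi A W y ρ ρ).im := by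
    rw [← h2]
    exact Finset.single_le_sum (f := fun c => (-(W c).im) * ‖Gi A W y ρ c‖ ^ 2)
      (fun c _ => mul_nonneg (by linarith [hW c]) (sq_nonneg _)) (Finset.mem_univ ρ)
  rw [sgy_eq hA hW hne, Complex.sub_im, Complex.inv_im, Complex.normSq_eq_norm_sq]
  have h4 : 0 < ‖Gi A W y ρ ρ‖ ^ 2 := pow_pos (norm_pos_iff.2 h0) 2
  have h5 : (-(W ρ).im) ≤ (Gi A W y ρ ρ).im / ‖Gi A W y ρ ρ‖ ^ 2 := by
    rw [le_div_iff₀ h4]; exact h3
  have h6 : -(Gi A W y ρ ρ).im / ‖Gi A W y ρ ρ‖ ^ 2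
      = -((Gi A W y ρ ρ).im / ‖Gi A W y ρ ρ‖ ^ 2) := by ring
  rw [h6]
  linarith

/-! ### the far energy of `y` after averaging over the real part at `ρ` -/

/-- far energy of the wave of `ρ` with `y` removed (base point `y`) -/
noncomputable def NfR (A : Matrix ι ι ℝ) (W : ι → ℂ) (f : ι → ℝ) (y ρ : ι) : ℝ :=
  ∑ a, (-(W a).im) * (f a - f y) ^ 2 * ‖Phi A W y ρ a‖ ^ 2

theorem gw_rez (hA : A.IsSymm) (hW : ∀ x, (W x).im < 0) (hne : y ≠ ρ) (v : ℝ) (a : ι) :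
    gw A (rez W ρ v) y a = Gam A W y ρ a +
      kap A W y ρ / ((v : ℂ) - (sgy A W y ρ - ((W ρ).im : ℂ) * I)) * Phi A W y ρ a := by
  have him : ((v : ℂ) + ((W ρ).im : ℂ) * I).im < 0 := by rw [rez_im]; exact hW ρ
  rw [rez, gw_two (W := Function.update W ρ ((v : ℂ) + ((W ρ).im : ℂ) * I)) hA
    (update_neg hW him) hne a, Gam_upd hA hW him, kap_upd hA hW him, sgy_upd hA hW him,
    Phi_upd hA hW hne him, Function.update_self]
  congr 2
  ring

theorem Nf_rez (hA : A.IsSymm) (hW : ∀ x, (W x).im < 0) (hne : y ≠ ρ) (f : ι → ℝ) (v : ℝ) :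
    Nf A (rez W ρ v) f y = ∑ a, ((-(W a).im) * (f a - f y) ^ 2) * ‖Gam A W y ρ a +
      kap A W y ρ / ((v : ℂ) - (sgy A W y ρ - ((W ρ).im : ℂ) * I)) * Phi A W y ρ a‖ ^ 2 := by
  unfold Nf
  refine Finset.sum_congr rfl fun a _ => ?_
  have h1 : (rez W ρ v a).im = (W a).im := by
    rw [rez]
    by_cases ha : a = ρ
    · subst ha; rw [Function.update_self, rez_im]
    · rw [Function.update_of_ne ha]
  rw [h1, gw_rez hA hW hne]
  ring

/-- **Variance over the real part at `ρ`**: if the wave of `y` is at least `δ` at `ρ` for all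
`v` in a set `S` of measure at least `w`, then the far energy of `y`, integrated over `S`, controls
the far energy of the wave of `ρ` with `y` removed.  No bound on the self-energy of `ρ`. -/
theorem Nf_var (hA : A.IsSymm) (hW : ∀ x, (W x).im < 0) (hne : y ≠ ρ) (f : ι → ℝ) {S : Set ℝ}
    (hS : MeasurableSet S) {L w δ : ℝ} (hSL : ∀ v ∈ S, |v| ≤ L) (hw0 : 0 < w)
    (hw : ENNReal.ofReal w ≤ volume S) (hδ : 0 < δ)
    (hg : ∀ v ∈ S, δ ≤ ‖gw A (rez W ρ v) y ρ‖) :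
    ENNReal.ofReal (3 / 256 * w ^ 3 * δ ^ 2 /
        (L + ‖sgy A W y ρ - ((W ρ).im : ℂ) * I‖) ^ 2 * NfR A W f y ρ)
      ≤ ∫⁻ v in S, ENNReal.ofReal (Nf A (rez W ρ v) f y) := by
  have hκ : ∀ v ∈ S, δ ≤ ‖kap A W y ρ / ((v : ℂ) - (sgy A W y ρ - ((W ρ).im : ℂ) * I))‖ := by
    intro v hv
    have h1 := hg v hv
    have him : ((v : ℂ) + ((W ρ).im : ℂ) * I).im < 0 := by rw [rez_im]; exact hW ρ
    rw [rez, gw_rho (W := Function.update W ρ ((v : ℂ) + ((W ρ).im : ℂ) * I)) hA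
      (update_neg hW him) hne, kap_upd hA hW him, sgy_upd hA hW him, Function.update_self] at h1
    have h2 : (v : ℂ) - (sgy A W y ρ - ((W ρ).im : ℂ) * I)
        = (v : ℂ) + ((W ρ).im : ℂ) * I - sgy A W y ρ := by ring
    rw [h2]
    exact h1
  have h := Vale.Agent.P365.C937.var_sum hS hSL hw0 hw hδ hκ
    (fun a => (-(W a).im) * (f a - f y) ^ 2)
    (fun a => mul_nonneg (by linarith [hW a]) (sq_nonneg _)) (fun a => Gam A W y ρ a)
    (fun a => Phi A W y ρ a)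
  refine h.trans (le_of_eq ?_)
  refine lintegral_congr fun v => ?_
  rw [Nf_rez hA hW hne]

end P365T1
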