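import Vale.Agent.P365.C937.Trap

/-!
# P365 T1, shield step (3): the cut-off plane wave on a finite subset of `ℤ²`

`AX X` is literally `AF X` of `Comp/Reg.lean` (adjacency matrix of `X`).
-/

open MeasureTheory Matrix Set

namespace Vale.Agent.P365.C937

/-- adjacency weight of `ℤ²` (same body as `adj` of `Bdl/B1.lean`) -/
noncomputable def adjw (p q : ℤ × ℤ) : ℝ :=
  if (p.1 - q.1).natAbs + (p.2 - q.2).natAbs = 1 then 1 else 0

/-- adjacency matrix of a finite set of sites (same body as `AF`) -/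
noncomputable def AX (X : Finset (ℤ × ℤ)) : Matrix X X ℝ := fun p q => adjw p q

/-- nearest neighbour hopping -/
def hop (g : ℤ × ℤ → ℝ) (x : ℤ × ℤ) : ℝ :=
  g (x.1 + 1, x.2) + g (x.1 - 1, x.2) + g (x.1, x.2 + 1) + g (x.1, x.2 - 1)

/-- the four neighbours -/
def nb4 (x : ℤ × ℤ) : Finset (ℤ × ℤ) :=
  {(x.1 + 1, x.2), (x.1 - 1, x.2), (x.1, x.2 + 1), (x.1, x.2 - 1)}

theorem sum_nb4 (x : ℤ × ℤ) (f : ℤ × ℤ → ℝ) : ∑ y ∈ nb4 x, f y
    = f (x.1 + 1, x.2) + f (x.1 - 1, x.2) + f (x.1, x.2 + 1) + f (x.1, x.2 - 1) := by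
  rw [nb4, Finset.sum_insert, Finset.sum_insert, Finset.sum_insert, Finset.sum_singleton]
  · ring
  · simp only [Finset.mem_singleton, Prod.mk.injEq, not_and]; omega
  · simp only [Finset.mem_insert, Finset.mem_singleton, Prod.mk.injEq, not_or, not_and]; omega
  · simp only [Finset.mem_insert, Finset.mem_singleton, Prod.mk.injEq, not_or, not_and]; omega

theorem adjw_nb4 {x y : ℤ × ℤ} (h : y ∈ nb4 x) : adjw x y = 1 := by
  simp only [nb4, Finset.mem_insert, Finset.mem_singleton] at h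
  rw [adjw, if_pos]
  rcases h with rfl | rfl | rfl | rfl <;> simp

theorem adjw_not {x y : ℤ × ℤ} (h : y ∉ nb4 x) : adjw x y = 0 := by
  rw [adjw, if_neg]
  intro hc
  apply h
  obtain ⟨x1, x2⟩ := x
  obtain ⟨y1, y2⟩ := y
  simp only [nb4, Finset.mem_insert, Finset.mem_singleton, Prod.mk.injEq] at *
  omega

theorem sum_adjw (X : Finset (ℤ × ℤ)) {g : ℤ × ℤ → ℝ} (hg : ∀ x ∉ X, g x = 0) (x : ℤ × ℤ) :
    ∑ y : X, adjw x y * g y = hop g x := by
  classical
  rw [Finset.sum_coe_sort X fun y => adjw x y * g y]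
  have h1 : ∑ y ∈ X, adjw x y * g y = ∑ y ∈ X ∪ nb4 x, adjw x y * g y := by
    apply Finset.sum_subset Finset.subset_union_left
    intro y _ hy
    rw [hg y hy, mul_zero]
  have h2 : ∑ y ∈ nb4 x, adjw x y * g y = ∑ y ∈ X ∪ nb4 x, adjw x y * g y := by
    apply Finset.sum_subset Finset.subset_union_right
    intro y _ hy
    rw [adjw_not hy, zero_mul]
  rw [h1, ← h2, hop, ← sum_nb4]
  exact Finset.sum_congr rfl fun y hy => by rw [adjw_nb4 hy, one_mul]

/-- the tent function -/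
noncomputable def chi (R : ℕ) (s : ℤ) : ℝ := max ((R : ℝ) - |(s : ℝ)|) 0

theorem chi_nonneg (R : ℕ) (s : ℤ) : 0 ≤ chi R s := le_max_right _ _

theorem chi_zero {R : ℕ} {s : ℤ} (h : (R : ℤ) ≤ |s|) : chi R s = 0 := by
  rw [chi, max_eq_right]
  have : ((R : ℤ) : ℝ) ≤ ((|s| : ℤ) : ℝ) := by exact_mod_cast h
  rw [Int.cast_abs] at this
  simp only [Int.cast_natCast] at this
  linarith

theorem chi_sub (R : ℕ) (s t : ℤ) (h : |(s : ℝ) - t| ≤ 1) : |chi R s - chi R t| ≤ 1 := by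
  rw [chi, chi]
  calc _ ≤ |((R : ℝ) - |(s : ℝ)|) - ((R : ℝ) - |(t : ℝ)|)| := abs_max_sub_max_le_abs _ _ _
    _ = |(|(t : ℝ)| - |(s : ℝ)|)| := by ring_nf
    _ ≤ |(t : ℝ) - s| := abs_abs_sub_abs_le _ _
    _ ≤ 1 := by rwa [abs_sub_comm]

/-- the box of radius `R` in one dimension -/
noncomputable def box1 (R : ℕ) : Finset ℤ := Finset.Icc (-(R : ℤ)) R

theorem card_box1 (R : ℕ) : ((box1 R).card : ℝ) = 2 * R + 1 := by
  have : (box1 R).card = 2 * R + 1 := by rw [box1, Int.card_Icc]; omega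
  rw [this]; push_cast; ring

noncomputable def QQ (R : ℕ) : ℝ := ∑ s ∈ box1 R, chi R s ^ 2

theorem sum_sq_ge (R : ℕ) : (R : ℝ) ^ 3 / 3 ≤ ∑ i ∈ Finset.range (R + 1), (i : ℝ) ^ 2 := by
  induction R with
  | zero => simp
  | succ n ih =>
    rw [Finset.sum_range_succ]
    push_cast
    have : (0 : ℝ) ≤ n := Nat.cast_nonneg n
    nlinarith

theorem QQ_ge (R : ℕ) : (R : ℝ) ^ 3 / 3 ≤ QQ R := by
  refine (sum_sq_ge R).trans ?_
  have h1 : ∑ i ∈ Finset.range (R + 1), (i : ℝ) ^ 2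
      = ∑ s ∈ (Finset.range (R + 1)).image (fun i : ℕ => (R : ℤ) - i), chi R s ^ 2 := by
    rw [Finset.sum_image]
    · refine Finset.sum_congr rfl fun i hi => ?_
      have hi2 : (i : ℝ) ≤ R := by
        have := Finset.mem_range.mp hi
        exact_mod_cast Nat.lt_succ_iff.mp this
      have e1 : ((((R : ℤ) - i : ℤ)) : ℝ) = (R : ℝ) - i := by push_cast; ring
      rw [chi, e1, abs_of_nonneg (by linarith), max_eq_left (by linarith)]
      ring
    · intro i _ j _ hij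
      simpa using hij
  rw [h1, QQ]
  apply Finset.sum_le_sum_of_subset_of_nonneg
  · intro s hs
    rw [Finset.mem_image] at hs
    obtain ⟨i, hi, rfl⟩ := hs
    rw [Finset.mem_range] at hi
    rw [box1, Finset.mem_Icc]
    omega
  · intro s _ _
    positivity

theorem QQ_pos {R : ℕ} (hR : 1 ≤ R) : 0 < QQ R := by
  have h1 : (1 : ℝ) ≤ R := by exact_mod_cast hR
  have : 0 < (R : ℝ) ^ 3 / 3 := by positivity
  exact this.trans_le (QQ_ge R)

/-- the cut-off wave -/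
noncomputable def wave (R : ℕ) (k α : ℝ) (x : ℤ × ℤ) : ℝ :=
  chi R x.1 * chi R x.2 * Real.cos (k * (x.1 + x.2) + α)

theorem wave_zero {R : ℕ} {k α : ℝ} {x : ℤ × ℤ} (h : ¬ (|x.1| < R ∧ |x.2| < R)) :
    wave R k α x = 0 := by
  rw [not_and_or, not_lt, not_lt] at h
  rcases h with h | h
  · rw [wave, chi_zero h, zero_mul, zero_mul]
  · rw [wave, chi_zero h, mul_zero, zero_mul]

theorem hop_wave (R : ℕ) (k α : ℝ) (x : ℤ × ℤ) :
    |hop (wave R k α) x - 4 * Real.cos k * wave R k α x| ≤ 2 * (chi R x.1 + chi R x.2) := by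
  obtain ⟨a, b⟩ := x
  set θ : ℝ := k * ((a : ℝ) + b) + α with hθ
  have e1 : wave R k α (a + 1, b) = chi R (a + 1) * chi R b * Real.cos (θ + k) := by
    simp only [wave]; congr 2; push_cast; ring
  have e2 : wave R k α (a - 1, b) = chi R (a - 1) * chi R b * Real.cos (θ - k) := by
    simp only [wave]; congr 2; push_cast; ring
  have e3 : wave R k α (a, b + 1) = chi R a * chi R (b + 1) * Real.cos (θ + k) := by
    simp only [wave]; congr 2; push_cast; ring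
  have e4 : wave R k α (a, b - 1) = chi R a * chi R (b - 1) * Real.cos (θ - k) := by
    simp only [wave]; congr 2; push_cast; ring
  have e0 : wave R k α (a, b) = chi R a * chi R b * Real.cos θ := rfl
  have hcos : Real.cos (θ + k) + Real.cos (θ - k) = 2 * Real.cos k * Real.cos θ := by
    rw [Real.cos_add, Real.cos_sub]; ring
  have key : hop (wave R k α) (a, b) - 4 * Real.cos k * wave R k α (a, b)
      = (chi R (a + 1) - chi R a) * chi R b * Real.cos (θ + k)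
        + (chi R (a - 1) - chi R a) * chi R b * Real.cos (θ - k)
        + chi R a * (chi R (b + 1) - chi R b) * Real.cos (θ + k)
        + chi R a * (chi R (b - 1) - chi R b) * Real.cos (θ - k) := by
    simp only [hop]
    rw [e1, e2, e3, e4, e0]
    linear_combination (2 * chi R a * chi R b) * hcos
  have hc1 : ∀ t : ℝ, |Real.cos t| ≤ 1 := Real.abs_cos_le_one
  have hA : ∀ s : ℤ, |chi R (s + 1) - chi R s| ≤ 1 := fun s => chi_sub R _ _ (by push_cast; simp)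
  have hB : ∀ s : ℤ, |chi R (s - 1) - chi R s| ≤ 1 := fun s => chi_sub R _ _ (by push_cast; simp)
  have hb0 := chi_nonneg R b
  have ha0 := chi_nonneg R a
  have t1 : ∀ u v c : ℝ, |u| ≤ 1 → 0 ≤ v → |c| ≤ 1 → |u * v * c| ≤ v := by
    intro u v c hu hv hc
    rw [abs_mul, abs_mul, abs_of_nonneg hv]
    calc |u| * v * |c| ≤ 1 * v * 1 := by gcongr
      _ = v := by ring
  have t2 : ∀ u v c : ℝ, |u| ≤ 1 → 0 ≤ v → |c| ≤ 1 → |v * u * c| ≤ v := by
    intro u v c hu hv hc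
    rw [mul_comm v u]; exact t1 u v c hu hv hc
  rw [key]
  have q1 := t1 _ _ _ (hA a) hb0 (hc1 (θ + k))
  have q2 := t1 _ _ _ (hB a) hb0 (hc1 (θ - k))
  have q3 := t2 _ _ _ (hA b) ha0 (hc1 (θ + k))
  have q4 := t2 _ _ _ (hB b) ha0 (hc1 (θ - k))
  rw [abs_le] at q1 q2 q3 q4 ⊢
  constructor <;> simp only <;> linarith [q1.1, q1.2, q2.1, q2.2, q3.1, q3.2, q4.1, q4.2]

theorem hop_wave_zero {R : ℕ} {k α : ℝ} {x : ℤ × ℤ} (h : x ∉ box1 R ×ˢ box1 R) :
    hop (wave R k α) x - 4 * Real.cos k * wave R k α x = 0 := by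
  obtain ⟨a, b⟩ := x
  simp only [Finset.mem_product, box1, Finset.mem_Icc, not_and_or, not_le] at h
  have hz : ∀ c d : ℤ, ((R : ℤ) ≤ |c| ∨ (R : ℤ) ≤ |d|) → wave R k α (c, d) = 0 := by
    intro c d hcd
    apply wave_zero
    rintro ⟨h1, h2⟩
    rcases hcd with h3 | h3
    · exact absurd h1 (not_lt.mpr h3)
    · exact absurd h2 (not_lt.mpr h3)
  have habs : ∀ c : ℤ, (c ≤ -(R : ℤ) ∨ (R : ℤ) ≤ c) → (R : ℤ) ≤ |c| := by
    intro c hc
    rcases hc with hc | hc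
    · exact le_trans (by omega) (neg_le_abs c)
    · exact hc.trans (le_abs_self c)
  simp only [hop]
  rcases h with (h | h) | (h | h)
  · rw [hz (a + 1) b (Or.inl (habs _ (by omega))), hz (a - 1) b (Or.inl (habs _ (by omega))),
      hz a (b + 1) (Or.inl (habs _ (by omega))), hz a (b - 1) (Or.inl (habs _ (by omega))),
      hz a b (Or.inl (habs _ (by omega)))]
    ring
  · rw [hz (a + 1) b (Or.inl (habs _ (by omega))), hz (a - 1) b (Or.inl (habs _ (by omega))),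
      hz a (b + 1) (Or.inl (habs _ (by omega))), hz a (b - 1) (Or.inl (habs _ (by omega))),
      hz a b (Or.inl (habs _ (by omega)))]
    ring
  · rw [hz (a + 1) b (Or.inr (habs _ (by omega))), hz (a - 1) b (Or.inr (habs _ (by omega))),
      hz a (b + 1) (Or.inr (habs _ (by omega))), hz a (b - 1) (Or.inr (habs _ (by omega))),
      hz a b (Or.inr (habs _ (by omega)))]
    ring
  · rw [hz (a + 1) b (Or.inr (habs _ (by omega))), hz (a - 1) b (Or.inr (habs _ (by omega))),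
      hz a (b + 1) (Or.inr (habs _ (by omega))), hz a (b - 1) (Or.inr (habs _ (by omega))),
      hz a b (Or.inr (habs _ (by omega)))]
    ring

/-- the error of the plane wave -/
theorem wave_error {R : ℕ} (k α : ℝ) :
    ∑ x ∈ box1 R ×ˢ box1 R, (hop (wave R k α) x - 4 * Real.cos k * wave R k α x) ^ 2
      ≤ 16 * (2 * R + 1) * QQ R := by
  calc _ ≤ ∑ x ∈ box1 R ×ˢ box1 R, 8 * (chi R x.1 ^ 2 + chi R x.2 ^ 2) := by
        refine Finset.sum_le_sum fun x _ => ?_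
        have h := hop_wave R k α x
        have h0 : 0 ≤ 2 * (chi R x.1 + chi R x.2) := (abs_nonneg _).trans h
        have h1 := sq_le_sq' (abs_le.mp h).1 (abs_le.mp h).2
        nlinarith [sq_nonneg (chi R x.1 - chi R x.2)]
    _ = _ := by
        rw [← Finset.mul_sum, Finset.sum_add_distrib, Finset.sum_product, Finset.sum_product]
        simp only [Finset.sum_const, nsmul_eq_mul, ← Finset.mul_sum]
        rw [card_box1]
        change 8 * ((2 * (R : ℝ) + 1) * QQ R + (2 * (R : ℝ) + 1) * QQ R) = _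
        ring

/-- one of the two phases has at least half of the mass -/
theorem wave_mass (R : ℕ) (k : ℝ) :
    ∃ α : ℝ, QQ R ^ 2 / 2 ≤ ∑ x ∈ box1 R ×ˢ box1 R, wave R k α x ^ 2 := by
  have hsum : ∑ x ∈ box1 R ×ˢ box1 R, wave R k 0 x ^ 2
      + ∑ x ∈ box1 R ×ˢ box1 R, wave R k (-(Real.pi / 2)) x ^ 2 = QQ R ^ 2 := by
    rw [← Finset.sum_add_distrib, QQ, pow_two, Finset.sum_mul_sum, Finset.sum_product]
    refine Finset.sum_congr rfl fun a _ => Finset.sum_congr rfl fun b _ => ?_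
    simp only [wave]
    rw [← sub_eq_add_neg (k * ((a : ℝ) + b)), Real.cos_sub_pi_div_two, add_zero]
    have := Real.sin_sq_add_cos_sq (k * ((a : ℝ) + b))
    linear_combination (chi R a ^ 2 * chi R b ^ 2) * this
  rcases le_total (QQ R ^ 2 / 2) (∑ x ∈ box1 R ×ˢ box1 R, wave R k 0 x ^ 2) with h | h
  · exact ⟨0, h⟩
  · exact ⟨-(Real.pi / 2), by linarith⟩

/-- the plane wave is an approximate eigenfunction -/
theorem exists_wave {R : ℕ} (hR : 1 ≤ R) (k : ℝ) :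
    ∃ α : ℝ, 0 < ∑ x ∈ box1 R ×ˢ box1 R, wave R k α x ^ 2 ∧
      ∑ x ∈ box1 R ×ˢ box1 R, (hop (wave R k α) x - 4 * Real.cos k * wave R k α x) ^ 2
        ≤ (17 / R) ^ 2 * ∑ x ∈ box1 R ×ˢ box1 R, wave R k α x ^ 2 := by
  obtain ⟨α, hα⟩ := wave_mass R k
  have hQ := QQ_pos hR
  have h1 : (1 : ℝ) ≤ R := by exact_mod_cast hR
  refine ⟨α, lt_of_lt_of_le (by positivity) hα, (wave_error k α).trans ?_⟩
  have hQ3 := QQ_ge R
  calc 16 * (2 * (R : ℝ) + 1) * QQ R ≤ (17 / R) ^ 2 * (QQ R ^ 2 / 2) := by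
        have e1 : (17 / (R : ℝ)) ^ 2 * (QQ R ^ 2 / 2) = QQ R * (289 * QQ R / (2 * R ^ 2)) := by
          field_simp; ring
        rw [e1, mul_comm]
        apply mul_le_mul_of_nonneg_left _ hQ.le
        rw [le_div_iff₀ (by positivity)]
        have e2 : 289 * ((R : ℝ) ^ 3 / 3) ≤ 289 * QQ R := by linarith
        refine le_trans ?_ e2
        nlinarith [mul_nonneg (sq_nonneg (R : ℝ)) (sub_nonneg.mpr h1)]
    _ ≤ _ := by gcongr

/-- **The plane wave on a finite set of sites.** -/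
theorem exists_test {X : Finset (ℤ × ℤ)} {R : ℕ} (hR : 1 ≤ R) (hX : box1 R ×ˢ box1 R ⊆ X)
    (k η : ℝ) (W : X → ℝ)
    (hW : ∀ x : X, |(x : ℤ × ℤ).1| < R → |(x : ℤ × ℤ).2| < R → |W x + 4 * Real.cos k| ≤ η) :
    ∃ ψ : X → ℝ, ψ ≠ 0 ∧
      (∀ x : X, ¬ (|(x : ℤ × ℤ).1| < R ∧ |(x : ℤ × ℤ).2| < R) → ψ x = 0) ∧
      ((AX X + diagonal W) *ᵥ ψ) ⬝ᵥ ((AX X + diagonal W) *ᵥ ψ)
        ≤ (2 * (17 / R) ^ 2 + 2 * η ^ 2) * (ψ ⬝ᵥ ψ) := by
  classical
  obtain ⟨α, hpos, herr⟩ := exists_wave hR k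
  set g := wave R k α with hg
  have hg0 : ∀ x, ¬ (|x.1| < (R : ℤ) ∧ |x.2| < (R : ℤ)) → g x = 0 := fun x hx => wave_zero hx
  have hgX : ∀ x ∉ X, g x = 0 := by
    intro x hx
    apply hg0
    rintro ⟨h1, h2⟩
    apply hx
    apply hX
    rw [Finset.mem_product, box1, Finset.mem_Icc, Finset.mem_Icc]
    rw [abs_lt] at h1 h2
    omega
  set E : ℤ × ℤ → ℝ := fun x => hop g x - 4 * Real.cos k * g x with hE
  have hE0 : ∀ x, x ∉ box1 R ×ˢ box1 R → E x = 0 := fun x hx => hop_wave_zero hx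
  have hgb : ∀ x, x ∉ box1 R ×ˢ box1 R → g x = 0 := by
    intro x hx
    apply hg0
    rintro ⟨h1, h2⟩
    apply hx
    rw [Finset.mem_product, box1, Finset.mem_Icc, Finset.mem_Icc]
    rw [abs_lt] at h1 h2
    omega
  have hsumX : ∀ f : ℤ × ℤ → ℝ, (∀ x, x ∉ box1 R ×ˢ box1 R → f x = 0) →
      ∑ x : X, f x = ∑ x ∈ box1 R ×ˢ box1 R, f x := by
    intro f hf
    rw [Finset.sum_coe_sort X f]
    exact (Finset.sum_subset hX fun x _ hx => hf x hx).symm
  have hψψ : (fun x : X => g x) ⬝ᵥ (fun x : X => g x)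
      = ∑ x ∈ box1 R ×ˢ box1 R, g x ^ 2 := by
    rw [← hsumX (fun x => g x ^ 2) fun x hx => by rw [hgb x hx]; ring]
    simp only [dotProduct, pow_two]
  refine ⟨fun x => g x, ?_, fun x hx => hg0 x hx, ?_⟩
  · intro h0
    rw [h0] at hψψ
    simp only [zero_dotProduct] at hψψ
    rw [← hψψ] at hpos
    exact lt_irrefl _ hpos
  · have hN : ∀ x : X, ((AX X + diagonal W) *ᵥ (fun x : X => g x)) x
        = E x + (W x + 4 * Real.cos k) * g x := by
      intro x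
      rw [add_mulVec, Pi.add_apply, mulVec_diagonal]
      have : (AX X *ᵥ (fun x : X => g x)) x = hop g x := sum_adjw X hgX x
      rw [this, hE]
      ring
    have hle : ((AX X + diagonal W) *ᵥ (fun x : X => g x)) ⬝ᵥ
        ((AX X + diagonal W) *ᵥ (fun x : X => g x))
        ≤ ∑ x : X, (2 * E x ^ 2 + 2 * η ^ 2 * g x ^ 2) := by
      rw [dotProduct]
      refine Finset.sum_le_sum fun x _ => ?_
      rw [hN x]
      by_cases hx : |(x : ℤ × ℤ).1| < R ∧ |(x : ℤ × ℤ).2| < R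
      · have h1 := hW x hx.1 hx.2
        have h2 : (W x + 4 * Real.cos k) ^ 2 ≤ η ^ 2 :=
          sq_le_sq' (abs_le.mp h1).1 (abs_le.mp h1).2
        have h3 : (W x + 4 * Real.cos k) ^ 2 * g x ^ 2 ≤ η ^ 2 * g x ^ 2 :=
          mul_le_mul_of_nonneg_right h2 (sq_nonneg _)
        nlinarith [sq_nonneg (E x - (W x + 4 * Real.cos k) * g x)]
      · rw [hg0 x hx]
        nlinarith [sq_nonneg (E x)]
    refine hle.trans ?_
    rw [hsumX (fun x => 2 * E x ^ 2 + 2 * η ^ 2 * g x ^ 2)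
      fun x hx => by rw [hE0 x hx, hgb x hx]; ring]
    rw [Finset.sum_add_distrib, ← Finset.mul_sum, ← Finset.mul_sum, hψψ]
    have h4 : ∑ x ∈ box1 R ×ˢ box1 R, E x ^ 2
        ≤ (17 / R) ^ 2 * ∑ x ∈ box1 R ×ˢ box1 R, g x ^ 2 := herr
    nlinarith

theorem AX_symm (X : Finset (ℤ × ℤ)) : (AX X)ᵀ = AX X := by
  ext p q
  rw [transpose_apply, AX, AX, adjw, adjw]
  congr 1
  rw [show ((q : ℤ × ℤ).1 - (p : ℤ × ℤ).1).natAbs = ((p : ℤ × ℤ).1 - (q : ℤ × ℤ).1).natAbs by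
      omega, show ((q : ℤ × ℤ).2 - (p : ℤ × ℤ).2).natAbs
      = ((p : ℤ × ℤ).2 - (q : ℤ × ℤ).2).natAbs by omega]

/-- **Trap resonance on a set of sites containing the box of radius `R`.**
For `|W x + 4 cos k| ≤ η` on the box there is a site `y` of the box such that for every small
exceptional set of shifts there is a small shift `t` outside it with
`|(A_X + W - t)⁻¹ y y| ≥ K`. -/
theorem trap_box {X : Finset (ℤ × ℤ)} {R : ℕ} (hR : 1 ≤ R) (hX : box1 R ×ˢ box1 R ⊆ X)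
    {k η ρ₀ : ℝ} (hρ₀ : 0 < ρ₀) (hη : 2 * (17 / R) ^ 2 + 2 * η ^ 2 ≤ ρ₀ ^ 2) (W : X → ℝ)
    (hW : ∀ x : X, |(x : ℤ × ℤ).1| < R → |(x : ℤ × ℤ).2| < R → |W x + 4 * Real.cos k| ≤ η) :
    ∃ y : X, |(y : ℤ × ℤ).1| < R ∧ |(y : ℤ × ℤ).2| < R ∧ ∀ ρ K : ℝ, 0 < ρ → 0 < K →
      (X.card + 1) * (2 * K * ρ * (4 / 3 * (X.card * X.card))) ≤ 1 →
      ∀ Bad : Set ℝ, volume Bad < ENNReal.ofReal ρ →
      ∃ t : ℝ, |t| ≤ 2 * ρ₀ + ρ ∧ t ∉ Bad ∧
        IsUnit (AX X + diagonal W - t • (1 : Matrix X X ℝ)) ∧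
        K ≤ |(AX X + diagonal W - t • (1 : Matrix X X ℝ))⁻¹ y y| := by
  classical
  obtain ⟨ψ, h0, hS, h⟩ := exists_test hR hX k η W hW
  have hH : (AX X + diagonal W).IsHermitian := by
    rw [Matrix.IsHermitian, conjTranspose_eq_transpose_of_trivial, transpose_add, AX_symm,
      diagonal_transpose]
  set S : Finset X := Finset.univ.filter fun x : X =>
    |(x : ℤ × ℤ).1| < R ∧ |(x : ℤ × ℤ).2| < R with hSdef
  obtain ⟨y, hy, hmain⟩ := trap hH hρ₀ h0 (S := S)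
    (fun x hx => hS x (by simpa [hSdef] using hx))
    (h.trans (mul_le_mul_of_nonneg_right hη (by
      simpa using dotProduct_self_star_nonneg ψ)))
  simp only [hSdef, Finset.mem_filter, Finset.mem_univ, true_and] at hy
  refine ⟨y, hy.1, hy.2, fun ρ K hρ hK hs Bad hBad => ?_⟩
  apply hmain ρ K hρ hK _ Bad hBad
  rw [Fintype.card_coe]
  have hcard : (S.card : ℝ) ≤ X.card := by
    have := Finset.card_le_univ S
    rw [Fintype.card_coe] at this
    exact_mod_cast this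
  refine le_trans ?_ hs
  gcongr

end Vale.Agent.P365.C937
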